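import Vale.Agent.P154.Q4.Good4

/-!
# Nonreconstruction up to the Kesten-Stigum bound, four states, ferromagnetic, given the two
pointwise inequalities
-/

namespace Vale.Agent.P154.Q4

open Filter Topology Vale.Agent.P154.Tree

variable {K L : (Fin 4 → ℝ) → ℝ} {c M : ℝ}

/-- `d`-ary trees: nonreconstruction whenever `d * lam ^ 2 ≤ 1` and `2 ≤ d`. -/
theorem regular_four (hP : Pair4 K L c M) (hc : 0 < c) {d : ℕ} (hd : 2 ≤ d) {lam : ℝ}
    (h0 : 0 ≤ lam) (h1 : lam ≤ 1) (h : (d : ℝ) * lam ^ 2 ≤ 1) :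
    Tendsto (adv 4 (regLaw d) lam) atTop (𝓝 0) :=
  hP.tendsto_adv_four hc (isLaw_regLaw d) h0 h1
    (Or.inr ⟨h, by rw [branchProb_regLaw hd]; exact one_pos⟩)

/-- Poisson trees: nonreconstruction whenever `d * lam ^ 2 ≤ 1`. -/
theorem poisson_four (hP : Pair4 K L c M) (hc : 0 < c) {d : ℝ} (hd : 0 ≤ d) {lam : ℝ}
    (h0 : 0 ≤ lam) (h1 : lam ≤ 1) (h : d * lam ^ 2 ≤ 1) :
    Tendsto (adv 4 (poissonLaw d) lam) atTop (𝓝 0) := by
  refine hP.tendsto_adv_four hc (isLaw_poissonLaw hd) h0 h1 ?_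
  rcases hd.eq_or_lt with e | e
  · left
    rw [← e]
    norm_num
  · exact Or.inr ⟨h, branchProb_poissonLaw_pos e⟩

end Vale.Agent.P154.Q4
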