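import Vale.Agent.P154.Q4.GPointwise
import Vale.Agent.P154.Q4.Thresholds
import Vale.Agent.P154.Tree.Kesten

/-!
# Four states, ferromagnetic: the exact threshold, given the two pointwise inequalities

Reconstruction holds exactly for `1 < d * lam ^ 2`, the critical case included, on regular trees
and on Poisson Galton-Watson trees.
-/

namespace Vale.Agent.P154.Q4

open Filter Topology Finset Vale.Agent.P154.Tree

variable {K L : (Fin 4 → ℝ) → ℝ} {c M : ℝ}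

/-- Nonreconstruction up to `x ≤ 1` and reconstruction beyond give both equivalences. -/
theorem iff_of_threshold {a : ℕ → ℝ} {x : ℝ} (low : x ≤ 1 → Tendsto a atTop (𝓝 0))
    (up : 1 < x → 0 < liminf a atTop ∧ ¬ Tendsto a atTop (𝓝 0)) :
    (0 < liminf a atTop ↔ 1 < x) ∧ (Tendsto a atTop (𝓝 0) ↔ x ≤ 1) := by
  refine ⟨⟨fun h => ?_, fun h => (up h).1⟩, ⟨fun h => ?_, low⟩⟩
  · by_contra hn
    rw [(low (not_lt.1 hn)).liminf_eq] at h
    exact lt_irrefl _ h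
  · by_contra hn
    exact (up (not_le.1 hn)).2 h

/-- `d`-ary trees. -/
theorem regular_four_iff (hP : Pair4 K L c M) (hc : 0 < c) {d : ℕ} (hd : 2 ≤ d) {lam : ℝ}
    (h0 : 0 ≤ lam) (h1 : lam ≤ 1) :
    (0 < liminf (adv 4 (regLaw d) lam) atTop ↔ 1 < (d : ℝ) * lam ^ 2) ∧
      (Tendsto (adv 4 (regLaw d) lam) atTop (𝓝 0) ↔ (d : ℝ) * lam ^ 2 ≤ 1) :=
  iff_of_threshold (regular_four hP hc hd h0 h1)
    (reconstruction_regLaw (q := 4) (by norm_num) d (adm_of_unit h0 h1))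

/-- Poisson Galton-Watson trees. -/
theorem poisson_four_iff (hP : Pair4 K L c M) (hc : 0 < c) {d : ℝ} (hd : 0 ≤ d) {lam : ℝ}
    (h0 : 0 ≤ lam) (h1 : lam ≤ 1) :
    (0 < liminf (adv 4 (poissonLaw d) lam) atTop ↔ 1 < d * lam ^ 2) ∧
      (Tendsto (adv 4 (poissonLaw d) lam) atTop (𝓝 0) ↔ d * lam ^ 2 ≤ 1) :=
  iff_of_threshold (poisson_four hP hc hd h0 h1)
    (reconstruction_poissonLaw (q := 4) (by norm_num) hd (adm_of_unit h0 h1))

/-- Both models, in the form of the hand-in. -/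
theorem four_states_iff (hP : Pair4 K L c M) (hc : 0 < c) :
    (∀ (d : ℕ) (lam : ℝ), 2 ≤ d → 0 ≤ lam → lam ≤ 1 →
      ((0 < liminf (adv 4 (regLaw d) lam) atTop ↔ 1 < (d : ℝ) * lam ^ 2) ∧
        (Tendsto (adv 4 (regLaw d) lam) atTop (𝓝 0) ↔ (d : ℝ) * lam ^ 2 ≤ 1))) ∧
    (∀ (d lam : ℝ), 0 ≤ d → 0 ≤ lam → lam ≤ 1 →
      ((0 < liminf (adv 4 (poissonLaw d) lam) atTop ↔ 1 < d * lam ^ 2) ∧
        (Tendsto (adv 4 (poissonLaw d) lam) atTop (𝓝 0) ↔ d * lam ^ 2 ≤ 1))) :=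
  ⟨fun _ _ hd h0 h1 => regular_four_iff hP hc hd h0 h1,
    fun _ _ hd h0 h1 => poisson_four_iff hP hc hd h0 h1⟩

/-- With the weight of the subadditivity certificate, only the two facts on `L` remain. -/
theorem four_states_of_wgtK {L : (Fin 4 → ℝ) → ℝ} {M : ℝ}
    (hL : ∀ u : Fin 4 → ℝ, (∀ i, 0 ≤ u i) → ∑ i, u i = 1 → 0 ≤ L u ∧ L u ≤ M)
    (hP : ∀ u v : Fin 4 → ℝ, (∀ i, 0 ≤ u i) → ∑ i, u i = 1 → (∀ i, 0 ≤ v i) → ∑ i, v i = 1 →
      6 * (phi4 u * L v + L u * phi4 v)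
        ≤ ∑ s : Equiv.Perm (Fin 4), homExt phi4 (fun i => u i * v (s i))) :
    (∀ (d : ℕ) (lam : ℝ), 2 ≤ d → 0 ≤ lam → lam ≤ 1 →
      ((0 < liminf (adv 4 (regLaw d) lam) atTop ↔ 1 < (d : ℝ) * lam ^ 2) ∧
        (Tendsto (adv 4 (regLaw d) lam) atTop (𝓝 0) ↔ (d : ℝ) * lam ^ 2 ≤ 1))) ∧
    (∀ (d lam : ℝ), 0 ≤ d → 0 ≤ lam → lam ≤ 1 →
      ((0 < liminf (adv 4 (poissonLaw d) lam) atTop ↔ 1 < d * lam ^ 2) ∧
        (Tendsto (adv 4 (poissonLaw d) lam) atTop (𝓝 0) ↔ d * lam ^ 2 ≤ 1))) :=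
  four_states_iff (K := wgtK) (L := L) (c := 1 / 100) (M := max 1000000 M)
    { cnn := by norm_num
      kBd := fun u a b => ⟨(wgtK_bd a b).1, (wgtK_bd a b).2.trans (le_max_left _ _)⟩
      lBd := fun u a b => ⟨(hL u a b).1, (hL u a b).2.trans (le_max_right _ _)⟩
      pairS := pairS_wgtK
      pairPhi := hP }
    (by norm_num)

end Vale.Agent.P154.Q4
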