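import Vale.Agent.P154.Tree.Chan
import Mathlib.Analysis.SpecialFunctions.Log.NegMulLog
import Mathlib.Analysis.SpecialFunctions.Log.Deriv
import Mathlib.Analysis.Complex.ExponentialBounds
import Mathlib.Analysis.Calculus.Deriv.MeanValue
import Mathlib.Tactic

/-!
# The class functional for four states

`phi4 = sqDev - dent / 2` with `dent` the relative entropy to the uniform law; the exact product
identity for `dent`, and the behaviour of `phi4` under an edge.
-/

namespace Vale.Agent.P154.Q4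

open Finset Vale.Agent.P154.Tree Real

/-- Relative entropy to the uniform law on four states. -/
noncomputable def dent (u : Fin 4 → ℝ) : ℝ := ∑ i, u i * log (4 * u i)

/-- The class functional. -/
noncomputable def phi4 (u : Fin 4 → ℝ) : ℝ := sqDev u - dent u / 2

theorem abs_mul_log_le {x : ℝ} (h0 : 0 ≤ x) (h1 : x ≤ 1) : |x * log (4 * x)| ≤ 3 := by
  rcases h0.eq_or_lt with h | h
  · simp [← h]
  have hx : (0 : ℝ) < 4 * x := by linarith
  have a := mul_le_mul_of_nonneg_left (log_le_sub_one_of_pos hx) h0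
  have b := mul_le_mul_of_nonneg_left (one_sub_inv_le_log_of_pos hx) h0
  have e : x * (1 - (4 * x)⁻¹) = x - 1 / 4 := by field_simp
  have c : x * x ≤ 1 := by nlinarith
  rw [e] at b
  rw [abs_le]
  constructor <;> nlinarith

theorem le_one_of_simplex {u : Fin 4 → ℝ} (h0 : ∀ i, 0 ≤ u i) (h1 : ∑ i, u i = 1) (i : Fin 4) :
    u i ≤ 1 :=
  h1 ▸ single_le_sum (fun j _ => h0 j) (mem_univ i)

theorem abs_dent_le {u : Fin 4 → ℝ} (h0 : ∀ i, 0 ≤ u i) (h1 : ∑ i, u i = 1) : |dent u| ≤ 12 := by
  refine (abs_sum_le_sum_abs _ _).trans ?_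
  refine (sum_le_sum fun i _ => abs_mul_log_le (h0 i) (le_one_of_simplex h0 h1 i)).trans ?_
  simp
  norm_num

theorem abs_phi4_le {u : Fin 4 → ℝ} (h0 : ∀ i, 0 ≤ u i) (h1 : ∑ i, u i = 1) : |phi4 u| ≤ 7 := by
  have a := abs_le.1 (abs_dent_le h0 h1)
  have b := sqDev_le_one h0 h1
  have c : 0 ≤ sqDev u := sum_nonneg fun i _ => sq_nonneg _
  rw [abs_le, phi4]
  constructor <;> linarith [a.1, a.2]

theorem phi4_uniform : phi4 (fun _ => 1 / 4) = 0 := by
  simp [phi4, dent, sqDev]

theorem homExt_phi4_uniform : homExt phi4 (fun _ : Fin 4 => (1 : ℝ)) = 0 := by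
  simp only [homExt, sum_const, card_univ, Fintype.card_fin, nsmul_eq_mul, mul_one]
  push_cast
  rw [phi4_uniform, mul_zero]

theorem phi4_point_nonneg (i : Fin 4) : 0 ≤ phi4 (fun j => if i = j then 1 else 0) := by
  have h : log (4 : ℝ) = 2 * log 2 := by
    rw [show (4 : ℝ) = 2 ^ 2 by norm_num, log_pow]
    norm_num
  have := log_two_lt_d9
  fin_cases i <;> simp [phi4, dent, sqDev, Fin.sum_univ_four, h] <;> linarith

theorem leaf_phi4 : 0 ≤ ∑ i : Fin 4, homExt phi4 (fun j => if i = j then 1 else 0) := by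
  refine sum_nonneg fun i _ => ?_
  rw [homExt_of_sum_one _ (by simp)]
  exact phi4_point_nonneg i

theorem dent_phi4 (u : Fin 4 → ℝ) : dent u = 2 * (sqDev u - phi4 u) := by
  simp [phi4]
  ring

theorem sum_perm_apply (g : Fin 4 → ℝ) (i : Fin 4) :
    ∑ s : Equiv.Perm (Fin 4), g (s i) = 6 * ∑ j, g j := by
  have e : ∀ j, ∑ s : Equiv.Perm (Fin 4), g (s i) = ∑ s : Equiv.Perm (Fin 4), g (s j) := by
    intro j
    rw [← Equiv.sum_comp (Equiv.mulRight (Equiv.swap i j)) fun s => g (s i)]
    simp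
  have t : ∑ j : Fin 4, ∑ s : Equiv.Perm (Fin 4), g (s j) = 24 * ∑ j, g j := by
    rw [sum_comm, sum_congr rfl fun s _ => Equiv.sum_comp s g, sum_const, card_univ,
      Fintype.card_perm, Fintype.card_fin, nsmul_eq_mul]
    norm_num [Nat.factorial]
  rw [← sum_congr rfl fun j _ => e j, sum_const, card_univ, Fintype.card_fin, nsmul_eq_mul] at t
  push_cast at t
  linarith

theorem homExt_dent_mul {u v : Fin 4 → ℝ} (hu : ∀ i, 0 ≤ u i) (hv : ∀ i, 0 ≤ v i) :
    homExt dent (fun i => u i * v i)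
      = (∑ i, v i * (u i * log (4 * u i))) + (∑ i, u i * (v i * log (4 * v i)))
        - (4 * ∑ i, u i * v i) * log (4 * ∑ i, u i * v i) / 4 := by
  set Z := ∑ i, u i * v i with hZ
  rcases eq_or_ne Z 0 with h | h
  · have hz : ∀ i, u i * v i = 0 := fun i =>
      (sum_eq_zero_iff_of_nonneg fun j _ => mul_nonneg (hu j) (hv j)).1 (hZ ▸ h) i (mem_univ i)
    have a : ∀ i, v i * (u i * log (4 * u i)) = 0 := fun i => by
      rw [← mul_assoc, mul_comm (v i), hz, zero_mul]
    have b : ∀ i, u i * (v i * log (4 * v i)) = 0 := fun i => by rw [← mul_assoc, hz, zero_mul]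
    simp [homExt, ← hZ, h, a, b]
  simp only [homExt, ← hZ, dent, mul_sum]
  have e : 4 * Z * log (4 * Z) / 4 = ∑ i, u i * v i * log (4 * Z) := by
    rw [← sum_mul, ← hZ]
    ring
  rw [e, ← sum_add_distrib, ← sum_sub_distrib]
  refine sum_congr rfl fun i _ => ?_
  rcases eq_or_ne (u i * v i) 0 with hi | hi
  · rcases mul_eq_zero.1 hi with h' | h' <;> simp [h']
  obtain ⟨hui, hvi⟩ := mul_ne_zero_iff.1 hi
  rw [show 4 * (u i * v i / Z) = 4 * u i * (4 * v i) / (4 * Z) by field_simp,
    log_div (mul_ne_zero (mul_ne_zero (by norm_num) hui) (mul_ne_zero (by norm_num) hvi))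
      (mul_ne_zero (by norm_num) h),
    log_mul (mul_ne_zero (by norm_num) hui) (mul_ne_zero (by norm_num) hvi)]
  field_simp

/-- The exact product identity for the relative entropy. -/
theorem sum_perm_dent {u v : Fin 4 → ℝ} (hu : ∀ i, 0 ≤ u i) (hu1 : ∑ i, u i = 1)
    (hv : ∀ i, 0 ≤ v i) (hv1 : ∑ i, v i = 1) :
    ∑ s : Equiv.Perm (Fin 4), homExt dent (fun i => u i * v (s i))
      = 6 * (dent u + dent v)
        - (∑ s : Equiv.Perm (Fin 4),
            (4 * ∑ i, u i * v (s i)) * log (4 * ∑ i, u i * v (s i))) / 4 := by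
  rw [sum_congr rfl fun s _ => homExt_dent_mul hu (v := fun i => v (s i)) fun i => hv (s i),
    sum_sub_distrib, sum_add_distrib, sum_div]
  congr 1
  rw [mul_add]
  congr 1
  · rw [sum_comm, dent, mul_sum]
    refine sum_congr rfl fun i _ => ?_
    rw [← sum_mul, sum_perm_apply v i, hv1, mul_one]
  · rw [sum_comm]
    simp only [← mul_sum]
    rw [sum_congr rfl fun i _ => by rw [sum_perm_apply (fun j => v j * log (4 * v j)) i],
      ← sum_mul, hu1, one_mul, dent]

/-- The product identity in terms of `phi4`. -/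
theorem sum_perm_phi4 {u v : Fin 4 → ℝ} (hu : ∀ i, 0 ≤ u i) (hu1 : ∑ i, u i = 1)
    (hv : ∀ i, 0 ≤ v i) (hv1 : ∑ i, v i = 1) :
    ∑ s : Equiv.Perm (Fin 4), homExt phi4 (fun i => u i * v (s i))
      = 6 * (phi4 u + phi4 v)
        - (6 * (sqDev u + sqDev v)
          - ∑ s : Equiv.Perm (Fin 4), homExt sqDev (fun i => u i * v (s i)))
        + (∑ s : Equiv.Perm (Fin 4),
            (4 * ∑ i, u i * v (s i)) * log (4 * ∑ i, u i * v (s i))) / 8 := by
  have h := sum_perm_dent hu hu1 hv hv1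
  have e : ∀ x : Fin 4 → ℝ, homExt phi4 x = homExt sqDev x - homExt dent x / 2 := fun x => by
    simp only [homExt, phi4]
    ring
  rw [sum_congr rfl fun s _ => e _, sum_sub_distrib, ← sum_div, h, dent_phi4, dent_phi4]
  ring

/-- `gfun t = t + t ^ 2 / 2 - (1 + t) log (1 + t)`. -/
noncomputable def gfun (t : ℝ) : ℝ := t + t ^ 2 / 2 - (1 + t) * log (1 + t)

theorem continuous_gfun : Continuous gfun := by
  have := continuous_mul_log.comp (show Continuous fun t : ℝ => 1 + t by fun_prop)
  unfold gfun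
  exact (by fun_prop : Continuous fun t : ℝ => t + t ^ 2 / 2).sub this

theorem log_one_add_le {s : ℝ} (hs : -1 < s) : log (1 + s) ≤ s * (6 + s) / (6 + 4 * s) := by
  have hd : ∀ x : ℝ, -1 < x → HasDerivAt (fun y => y * (6 + y) / (6 + 4 * y) - log (1 + y))
      (4 * x ^ 3 / ((6 + 4 * x) ^ 2 * (1 + x))) x := fun x hx => by
    have a : (6 + 4 * x) ≠ 0 := by linarith
    have b : (1 + x) ≠ 0 := by linarith
    have n1 : HasDerivAt (fun y : ℝ => y * (6 + y)) (1 * (6 + x) + x * 1) x :=
      (hasDerivAt_id x).mul ((hasDerivAt_id x).const_add 6)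
    have d1 : HasDerivAt (fun y : ℝ => 6 + 4 * y) (4 * 1) x :=
      ((hasDerivAt_id x).const_mul 4).const_add 6
    refine HasDerivAt.congr_deriv ((n1.div d1 a).sub (((hasDerivAt_id x).const_add 1).log b)) ?_
    simp only [id]
    rw [div_sub_div _ _ (pow_ne_zero 2 a) b]
    congr 1
    ring
  suffices 0 ≤ s * (6 + s) / (6 + 4 * s) - log (1 + s) by linarith
  have z : (0 : ℝ) * (6 + 0) / (6 + 4 * 0) - log (1 + 0) = 0 := by simp
  rcases le_total 0 s with h | h
  · have hm : MonotoneOn (fun y => y * (6 + y) / (6 + 4 * y) - log (1 + y)) (Set.Icc 0 s) :=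
      monotoneOn_of_hasDerivWithinAt_nonneg (convex_Icc _ _)
        (fun x hx => (hd x (by linarith [hx.1])).continuousAt.continuousWithinAt)
        (fun x hx => (hd x (by rw [interior_Icc] at hx; linarith [hx.1])).hasDerivWithinAt)
        fun x hx => by
          rw [interior_Icc] at hx
          have := hx.1
          positivity
    have := hm (Set.left_mem_Icc.2 h) (Set.right_mem_Icc.2 h) h
    linarith
  · have hm : AntitoneOn (fun y => y * (6 + y) / (6 + 4 * y) - log (1 + y)) (Set.Icc s 0) :=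
      antitoneOn_of_hasDerivWithinAt_nonpos (convex_Icc _ _)
        (fun x hx => (hd x (by linarith [hx.1])).continuousAt.continuousWithinAt)
        (fun x hx => (hd x (by rw [interior_Icc] at hx; linarith [hx.1])).hasDerivWithinAt)
        fun x hx => by
          rw [interior_Icc] at hx
          refine div_nonpos_of_nonpos_of_nonneg ?_
            (mul_nonneg (sq_nonneg _) (by linarith [hx.1]))
          have : x ^ 3 ≤ 0 := Odd.pow_nonpos (by decide) hx.2.le
          linarith
    have := hm (Set.left_mem_Icc.2 h) (Set.right_mem_Icc.2 h) h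
    linarith

theorem gfun_scale {t lam : ℝ} (ht : -1 ≤ t) (h0 : 0 ≤ lam) (h1 : lam ≤ 1) :
    lam ^ 3 * gfun t ≤ gfun (lam * t) := by
  rcases h0.eq_or_lt with h | h
  · subst h; simp [gfun]
  have hm : AntitoneOn (fun l => gfun (l * t) / l ^ 3) (Set.Icc lam 1) := by
    refine antitoneOn_of_hasDerivWithinAt_nonpos (convex_Icc _ _)
      (f' := fun l => ((l * t) * (l * t - log (1 + l * t)) - 3 * gfun (l * t)) / l ^ 4)
      (ContinuousOn.div ((continuous_gfun.comp (continuous_id.mul continuous_const)).continuousOn)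
        (by fun_prop) fun x hx => pow_ne_zero 3 (by linarith [hx.1] : x ≠ 0))
      (fun x hx => ?_) fun x hx => ?_
    all_goals
      rw [interior_Icc] at hx
      have hx0 : 0 < x := h.trans hx.1
      have hs : 0 < 1 + x * t := by nlinarith [hx.2]
    · refine HasDerivAt.hasDerivWithinAt ?_
      have ds : HasDerivAt (fun l : ℝ => l * t) (1 * t) x := (hasDerivAt_id x).mul_const t
      have d1 : HasDerivAt (fun l : ℝ => gfun (l * t))
          ((x * t - log (1 + x * t)) * t) x := by
        have := (ds.add ((ds.pow 2).div_const 2)).sub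
          ((ds.const_add 1).mul ((ds.const_add 1).log hs.ne'))
        refine HasDerivAt.congr_deriv this ?_
        rw [mul_div_cancel₀ _ hs.ne']
        push_cast
        ring
      refine HasDerivAt.congr_deriv (d1.div ((hasDerivAt_id x).pow 3) (pow_ne_zero 3 hx0.ne')) ?_
      simp only [id]
      field_simp
      ring
    · refine div_nonpos_of_nonpos_of_nonneg ?_ (by positivity)
      have hq : 0 < 6 + 4 * (x * t) := by linarith
      have := log_one_add_le (s := x * t) (by linarith)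
      rw [le_div_iff₀ hq] at this
      simp only [gfun]
      linarith
  have := hm (Set.left_mem_Icc.2 h1) (Set.right_mem_Icc.2 h1) h1
  simp only [one_mul, one_pow, div_one] at this
  rw [le_div_iff₀ (by positivity)] at this
  linarith

theorem phi4_eq_gfun {u : Fin 4 → ℝ} (h1 : ∑ i, u i = 1) :
    phi4 u = 1 / 8 * ∑ i, gfun (4 * u i - 1) := by
  simp only [Fin.sum_univ_four] at h1
  simp only [phi4, dent, sqDev, gfun, Fin.sum_univ_four, add_sub_cancel]
  push_cast
  linear_combination (-(1 / 2 : ℝ)) * h1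

theorem shrink_onSimplex {u : Fin 4 → ℝ} (h0 : ∀ i, 0 ≤ u i) (h1 : ∑ i, u i = 1) {lam : ℝ}
    (l0 : 0 ≤ lam) (l1 : lam ≤ 1) :
    (∀ i, 0 ≤ shrink lam u i) ∧ ∑ i, shrink lam u i = 1 := by
  refine ⟨fun i => ?_, ?_⟩
  · have := h0 i
    have : 0 ≤ 1 - lam := by linarith
    simp only [shrink]
    positivity
  · simp [shrink, sum_add_distrib, ← mul_sum, h1]
    ring

/-- An edge keeps `phi4` up to the factor `lam ^ 3`. -/
theorem phi4_shrink {u : Fin 4 → ℝ} (h0 : ∀ i, 0 ≤ u i) (h1 : ∑ i, u i = 1) {lam : ℝ}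
    (l0 : 0 ≤ lam) (l1 : lam ≤ 1) : lam ^ 3 * phi4 u ≤ phi4 (shrink lam u) := by
  rw [phi4_eq_gfun h1, phi4_eq_gfun (shrink_onSimplex h0 h1 l0 l1).2, ← mul_assoc,
    mul_comm (lam ^ 3), mul_assoc, mul_sum]
  refine mul_le_mul_of_nonneg_left (sum_le_sum fun i _ => ?_) (by norm_num)
  have e : 4 * shrink lam u i - 1 = lam * (4 * u i - 1) := by
    simp [shrink]
    ring
  rw [e]
  exact gfun_scale (by linarith [h0 i]) l0 l1

/-- The edge field of the criterion. -/
theorem edge_phi4 {ι : Type} {lam : ℝ} (l0 : 0 ≤ lam) (l1 : lam ≤ 1) {Y : ι → Fin 4 → ℝ}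
    (hY : IsChan Y) (hYp : 0 ≤ total (homExt phi4) Y) :
    0 ≤ total (homExt phi4) (Tree.edge lam Y) := by
  have e : total (homExt phi4) (Tree.edge lam Y)
      = total (homExt fun v => phi4 (shrink lam v)) Y := by
    simp [total, homExt_edge]
  rw [e]
  exact total_nonneg_of_le hY (pow_nonneg l0 3) (massBdd_homExt fun u a b => abs_phi4_le a b)
    (massBdd_homExt (K := 7) fun u a b =>
      abs_phi4_le (shrink_onSimplex a b l0 l1).1 (shrink_onSimplex a b l0 l1).2)
    (fun u a b => phi4_shrink a b l0 l1) hYp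

end Vale.Agent.P154.Q4
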