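import Vale.Agent.P154.Q4.Half
import Vale.Agent.P154.Q4.Phi
import Mathlib.Analysis.SpecialFunctions.Log.NegMulLog
import Mathlib.Analysis.SpecialFunctions.Log.Deriv
import Mathlib.Analysis.Calculus.Deriv.MeanValue

/-!
# The half-degree lemma with an entropy term

`dent` is convex in `psum 4` at fixed lower power sums, so subtracting a nonnegative multiple of
it keeps the half-degree lemma.
-/

namespace Vale.Agent.P154.Q4

open Finset Filter Topology Real

/-- The second elementary symmetric function in terms of power sums. -/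
noncomputable def el2 (p₁ p₂ : ℝ) : ℝ := (p₁ ^ 2 - p₂) / 2

/-- The third elementary symmetric function in terms of power sums. -/
noncomputable def el3 (p₁ p₂ p₃ : ℝ) : ℝ := (p₁ ^ 3 - 3 * p₁ * p₂ + 2 * p₃) / 6

/-- The product `∏ (u i + t)`. -/
def shiftProd (u : Fin 4 → ℝ) (t : ℝ) : ℝ := (u 0 + t) * (u 1 + t) * (u 2 + t) * (u 3 + t)

theorem shiftProd_eq (u : Fin 4 → ℝ) (t : ℝ) :
    shiftProd u t = t ^ 4 + psum 1 u * t ^ 3 + el2 (psum 1 u) (psum 2 u) * t ^ 2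
      + el3 (psum 1 u) (psum 2 u) (psum 3 u) * t
      + (psum 1 u ^ 4 - 6 * psum 1 u ^ 2 * psum 2 u + 3 * psum 2 u ^ 2
          + 8 * psum 1 u * psum 3 u - 6 * psum 4 u) / 24 := by
  simp only [shiftProd, el2, el3, psum_eq]
  ring

theorem sum_div_shift (u : Fin 4 → ℝ) (t : ℝ) (h : ∀ i, u i + t ≠ 0) :
    ∑ i, u i / (u i + t) = 4 - t * (4 * t ^ 3 + 3 * psum 1 u * t ^ 2
      + 2 * el2 (psum 1 u) (psum 2 u) * t + el3 (psum 1 u) (psum 2 u) (psum 3 u))
      / shiftProd u t := by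
  have := h 0; have := h 1; have := h 2; have := h 3
  simp only [shiftProd, el2, el3, psum_eq, Fin.sum_univ_four]
  field_simp
  ring

theorem sum_div_shift_concave {u v v' : Fin 4 → ℝ} (hu : ∀ i, 0 ≤ u i) (hv : ∀ i, 0 ≤ v i)
    (hv' : ∀ i, 0 ≤ v' i) (h1 : psum 1 v = psum 1 u) (h1' : psum 1 v' = psum 1 u)
    (h2 : psum 2 v = psum 2 u) (h2' : psum 2 v' = psum 2 u)
    (h3 : psum 3 v = psum 3 u) (h3' : psum 3 v' = psum 3 u) {θ : ℝ} (t0 : 0 ≤ θ) (t1 : θ ≤ 1)
    (h4 : θ * psum 4 v + (1 - θ) * psum 4 v' = psum 4 u) {t : ℝ} (ht : 0 < t) :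
    θ * ∑ i, v i / (v i + t) + (1 - θ) * ∑ i, v' i / (v' i + t) ≤ ∑ i, u i / (u i + t) := by
  have ne : ∀ {x : Fin 4 → ℝ}, (∀ i, 0 ≤ x i) → ∀ i, x i + t ≠ 0 :=
    fun hx i => by have := hx i; linarith
  have pos : ∀ {x : Fin 4 → ℝ}, (∀ i, 0 ≤ x i) → 0 < shiftProd x t := fun {x} hx => by
    have := hx 0; have := hx 1; have := hx 2; have := hx 3
    simp only [shiftProd]
    positivity
  rw [sum_div_shift u t (ne hu), sum_div_shift v t (ne hv), sum_div_shift v' t (ne hv'),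
    h1, h1', h2, h2', h3, h3']
  have a0 := hu 0; have a1 := hu 1; have a2 := hu 2; have a3 := hu 3
  have hD : 4 * t ^ 3 + 3 * psum 1 u * t ^ 2 + 2 * el2 (psum 1 u) (psum 2 u) * t
      + el3 (psum 1 u) (psum 2 u) (psum 3 u)
      = (u 1 + t) * (u 2 + t) * (u 3 + t) + (u 0 + t) * (u 2 + t) * (u 3 + t)
        + (u 0 + t) * (u 1 + t) * (u 3 + t) + (u 0 + t) * (u 1 + t) * (u 2 + t) := by
    simp only [el2, el3, psum_eq]
    ring
  have hmix : θ * shiftProd v t + (1 - θ) * shiftProd v' t = shiftProd u t := by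
    simp only [shiftProd_eq, h1, h1', h2, h2', h3, h3']
    linear_combination (-(1 / 4 : ℝ)) * h4
  have hDn : 0 ≤ t * (4 * t ^ 3 + 3 * psum 1 u * t ^ 2 + 2 * el2 (psum 1 u) (psum 2 u) * t
      + el3 (psum 1 u) (psum 2 u) (psum 3 u)) := by
    rw [hD]
    positivity
  generalize t * (4 * t ^ 3 + 3 * psum 1 u * t ^ 2 + 2 * el2 (psum 1 u) (psum 2 u) * t
      + el3 (psum 1 u) (psum 2 u) (psum 3 u)) = N at hDn ⊢
  have pa := pos hv
  have pb := pos hv'
  have pu := pos hu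
  rw [← hmix] at pu ⊢
  generalize shiftProd v t = a at pa pu ⊢
  generalize shiftProd v' t = b at pb pu ⊢
  have key : 1 / (θ * a + (1 - θ) * b) ≤ θ / a + (1 - θ) / b := by
    rw [div_add_div _ _ pa.ne' pb.ne', div_le_div_iff₀ pu (mul_pos pa pb)]
    nlinarith [mul_nonneg (mul_nonneg t0 (sub_nonneg.2 t1)) (sq_nonneg (a - b))]
  have := mul_le_mul_of_nonneg_left key hDn
  calc θ * (4 - N / a) + (1 - θ) * (4 - N / b) = 4 - N * (θ / a + (1 - θ) / b) := by ring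
    _ ≤ 4 - N * (1 / (θ * a + (1 - θ) * b)) := by linarith
    _ = _ := by ring

/-- `∑ x log x`. -/
noncomputable def xlogSum (u : Fin 4 → ℝ) : ℝ := ∑ i, u i * log (u i)

/-- `∑ x log (x + t)`. -/
noncomputable def xlogShift (u : Fin 4 → ℝ) (t : ℝ) : ℝ := ∑ i, u i * log (u i + t)

theorem hasDerivAt_xlogShift {u : Fin 4 → ℝ} (hu : ∀ i, 0 ≤ u i) {t : ℝ} (ht : 0 < t) :
    HasDerivAt (xlogShift u) (∑ i, u i / (u i + t)) t := by
  refine HasDerivAt.fun_sum fun i _ => ?_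
  have := (((hasDerivAt_id t).const_add (u i)).log
    (show u i + t ≠ 0 by have := hu i; linarith)).const_mul (u i)
  refine HasDerivAt.congr_deriv this ?_
  simp only [id]
  ring

theorem continuousOn_xlogShift {u : Fin 4 → ℝ} (hu : ∀ i, 0 ≤ u i) :
    ContinuousOn (xlogShift u) (Set.Ici 0) := by
  refine continuousOn_finsetSum _ fun i _ => ?_
  rcases (hu i).eq_or_lt with h | h
  · simp only [← h, zero_mul]
    exact continuousOn_const
  · exact continuousOn_const.mul ((continuousOn_const.add continuousOn_id).log fun t ht => by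
      have : (0 : ℝ) ≤ t := ht
      simp only [Pi.add_apply, id]
      linarith)

theorem xlogShift_bounds {u : Fin 4 → ℝ} (hu : ∀ i, 0 ≤ u i) {t : ℝ} (ht : 0 < t) :
    psum 1 u * log t ≤ xlogShift u t ∧ xlogShift u t ≤ psum 1 u * log t + psum 2 u / t := by
  simp only [xlogShift, psum, pow_one, sum_mul, sum_div, ← sum_add_distrib]
  refine ⟨sum_le_sum fun i _ => mul_le_mul_of_nonneg_left
    (log_le_log ht (by linarith [hu i])) (hu i), sum_le_sum fun i _ => ?_⟩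
  have hq : log (u i + t) ≤ log t + u i / t := by
    have := log_le_sub_one_of_pos (show 0 < (u i + t) / t from div_pos (by linarith [hu i]) ht)
    rw [log_div (by linarith [hu i]) ht.ne'] at this
    have e : (u i + t) / t - 1 = u i / t := by field_simp; ring
    linarith
  refine (mul_le_mul_of_nonneg_left hq (hu i)).trans (le_of_eq ?_)
  ring

/-- Convexity of `∑ x log x` in the fourth power sum. -/
theorem xlogSum_convex {u v v' : Fin 4 → ℝ} (hu : ∀ i, 0 ≤ u i) (hv : ∀ i, 0 ≤ v i)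
    (hv' : ∀ i, 0 ≤ v' i) (h1 : psum 1 v = psum 1 u) (h1' : psum 1 v' = psum 1 u)
    (h2 : psum 2 v = psum 2 u) (h2' : psum 2 v' = psum 2 u)
    (h3 : psum 3 v = psum 3 u) (h3' : psum 3 v' = psum 3 u) {θ : ℝ} (t0 : 0 ≤ θ) (t1 : θ ≤ 1)
    (h4 : θ * psum 4 v + (1 - θ) * psum 4 v' = psum 4 u) :
    xlogSum u ≤ θ * xlogSum v + (1 - θ) * xlogSum v' := by
  set J : ℝ → ℝ := fun t => xlogShift u t - θ * xlogShift v t - (1 - θ) * xlogShift v' t with hJ
  have mono : MonotoneOn J (Set.Ici 0) := by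
    refine monotoneOn_of_hasDerivWithinAt_nonneg (convex_Ici 0)
      (f' := fun t => ∑ i, u i / (u i + t) - θ * ∑ i, v i / (v i + t)
        - (1 - θ) * ∑ i, v' i / (v' i + t))
      (((continuousOn_xlogShift hu).sub (continuousOn_const.mul (continuousOn_xlogShift hv))).sub
        (continuousOn_const.mul (continuousOn_xlogShift hv'))) (fun t ht => ?_) fun t ht => ?_
    all_goals
      rw [interior_Ici] at ht
    · exact (((hasDerivAt_xlogShift hu ht).sub ((hasDerivAt_xlogShift hv ht).const_mul θ)).sub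
        ((hasDerivAt_xlogShift hv' ht).const_mul (1 - θ))).hasDerivWithinAt
    · have := sum_div_shift_concave hu hv hv' h1 h1' h2 h2' h3 h3' t0 t1 h4 ht
      linarith
  have e0 : J 0 = xlogSum u - θ * xlogSum v - (1 - θ) * xlogSum v' := by
    simp [hJ, xlogShift, xlogSum]
  by_contra hc
  push Not at hc
  set g := xlogSum u - θ * xlogSum v - (1 - θ) * xlogSum v' with hg
  have gpos : 0 < g := by linarith
  set T := psum 2 u / g + 1 with hT
  have p2 : 0 ≤ psum 2 u := sum_nonneg fun i _ => sq_nonneg _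
  have Tpos : 0 < T := by positivity
  have hm := mono Set.self_mem_Ici (show T ∈ Set.Ici (0 : ℝ) from Tpos.le) Tpos.le
  rw [e0] at hm
  have bu := (xlogShift_bounds hu Tpos).2
  have bv := mul_le_mul_of_nonneg_left (xlogShift_bounds hv Tpos).1 t0
  have bv' := mul_le_mul_of_nonneg_left (xlogShift_bounds hv' Tpos).1 (sub_nonneg.2 t1)
  rw [h1] at bv
  rw [h1'] at bv'
  have hd : psum 2 u / T < g := by
    rw [div_lt_iff₀ Tpos, hT, mul_add, mul_div_cancel₀ _ gpos.ne']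
    linarith
  simp only [hJ] at hm
  linarith

theorem dent_eq_xlogSum (u : Fin 4 → ℝ) : dent u = log 4 * psum 1 u + xlogSum u := by
  simp only [dent, xlogSum, psum, pow_one, mul_sum, ← sum_add_distrib]
  refine sum_congr rfl fun i _ => ?_
  rcases eq_or_ne (u i) 0 with h | h
  · simp [h]
  · rw [log_mul (by norm_num) h]
    ring

theorem continuous_dent : Continuous dent := by
  have h : Continuous fun x : ℝ => x * log (4 * x) := by
    have e : (fun x : ℝ => x * log (4 * x)) = fun x => (4 * x) * log (4 * x) / 4 := by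
      funext x; ring
    rw [e]
    exact (continuous_mul_log.comp (continuous_const.mul continuous_id)).div_const 4
  exact continuous_finsetSum _ fun i _ => h.comp (continuous_apply i)

theorem dent_comp (u : Fin 4 → ℝ) (σ : Equiv.Perm (Fin 4)) : dent (u ∘ σ) = dent u :=
  Equiv.sum_comp σ fun i => u i * log (4 * u i)

theorem dent_convex {u v v' : Fin 4 → ℝ} (hu : ∀ i, 0 ≤ u i) (hv : ∀ i, 0 ≤ v i)
    (hv' : ∀ i, 0 ≤ v' i) (h1 : psum 1 v = psum 1 u) (h1' : psum 1 v' = psum 1 u)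
    (h2 : psum 2 v = psum 2 u) (h2' : psum 2 v' = psum 2 u)
    (h3 : psum 3 v = psum 3 u) (h3' : psum 3 v' = psum 3 u) {θ : ℝ} (t0 : 0 ≤ θ) (t1 : θ ≤ 1)
    (h4 : θ * psum 4 v + (1 - θ) * psum 4 v' = psum 4 u) :
    dent u ≤ θ * dent v + (1 - θ) * dent v' := by
  have := xlogSum_convex hu hv hv' h1 h1' h2 h2' h3 h3' t0 t1 h4
  simp only [dent_eq_xlogSum, h1, h1']
  linarith

/-- The half-degree lemma with a subtracted multiple of `dent`. -/
theorem half_degree_dent {f₀ f₁ k : ℝ → ℝ → ℝ}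
    (hk : ∀ u : Fin 4 → ℝ, (∀ i, 0 ≤ u i) → ∑ i, u i = 1 → 0 ≤ k (psum 2 u) (psum 3 u))
    (hpair : ∀ u : Fin 4 → ℝ, (∀ i, 0 ≤ u i) → ∑ i, u i = 1 → (∃ i j, i ≠ j ∧ u i = u j) →
      0 ≤ f₀ (psum 2 u) (psum 3 u) + f₁ (psum 2 u) (psum 3 u) * psum 4 u
        - k (psum 2 u) (psum 3 u) * dent u)
    (hzero : ∀ u : Fin 4 → ℝ, (∀ i, 0 ≤ u i) → ∑ i, u i = 1 → (∃ i, u i = 0) →
      0 ≤ f₀ (psum 2 u) (psum 3 u) + f₁ (psum 2 u) (psum 3 u) * psum 4 u
        - k (psum 2 u) (psum 3 u) * dent u)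
    {u : Fin 4 → ℝ} (h0 : ∀ i, 0 ≤ u i) (h1 : ∑ i, u i = 1) :
    0 ≤ f₀ (psum 2 u) (psum 3 u) + f₁ (psum 2 u) (psum 3 u) * psum 4 u
      - k (psum 2 u) (psum 3 u) * dent u := by
  set b := f₁ (psum 2 u) (psum 3 u)
  set κ := k (psum 2 u) (psum 3 u)
  set a := f₀ (psum 2 u) (psum 3 u)
  have hκ : 0 ≤ κ := hk u h0 h1
  set F : (Fin 4 → ℝ) → ℝ := fun w => a + b * psum 4 w - κ * dent w with hF
  have hu : u ∈ powerSet (psum 2 u) (psum 3 u) := ⟨⟨h0, h1⟩, rfl, rfl⟩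
  have hcF : Continuous F := by
    refine (continuous_const.add (continuous_const.mul ?_)).sub
      (continuous_const.mul continuous_dent)
    unfold psum
    fun_prop
  have hKc := isCompact_powerSet (psum 2 u) (psum 3 u)
  obtain ⟨w₀, hw₀, hmin⟩ := hKc.exists_isMinOn ⟨u, hu⟩ hcF.continuousOn
  have hMc : IsCompact (powerSet (psum 2 u) (psum 3 u) ∩ {w | F w ≤ F w₀}) :=
    hKc.inter_right (isClosed_le hcF continuous_const)
  obtain ⟨w, ⟨hw, hwF⟩, hmax⟩ := hMc.exists_isMaxOn ⟨w₀, hw₀, le_refl (F w₀)⟩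
    (show ContinuousOn (psum 4) _ by unfold psum; fun_prop)
  have hwF' : F w ≤ F w₀ := hwF
  have hmn : ∀ x ∈ powerSet (psum 2 u) (psum 3 u), F w ≤ F x :=
    fun x hx => hwF'.trans (hmin hx)
  suffices hs : (∃ i j, i ≠ j ∧ w i = w j) ∨ ∃ i, w i = 0 by
    obtain ⟨⟨w0, w1⟩, w2, w3⟩ := hw
    have hle : F w ≤ F u := hmn u hu
    have : 0 ≤ F w := by
      simp only [hF, a, b, κ]
      rw [← w2, ← w3]
      exact hs.elim (hpair w w0 w1) (hzero w w0 w1)
    exact this.trans hle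
  by_contra! hne
  obtain ⟨hne, hz⟩ := hne
  obtain ⟨⟨w0, w1⟩, w2, w3⟩ := hw
  set σ := Tuple.sort w
  have hm : StrictMono (w ∘ σ) :=
    (Tuple.monotone_sort w).strictMono_of_injective fun i j h => σ.injective <| by
      by_contra hc
      exact hne _ _ hc h
  obtain ⟨⟨v, v0, v1, v2, v3, vl⟩, ⟨v', v0', v1', v2', v3', vl'⟩⟩ := psum_move (u := w ∘ σ)
    (lt_of_le_of_ne (w0 _) (Ne.symm (hz _))) (hm (by decide)) (hm (by decide)) (hm (by decide))
  rw [psum_comp] at v1 v2 v3 vl v1' v2' v3' vl'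
  have one : psum 1 w = 1 := by simpa [psum] using w1
  have mem : ∀ x : Fin 4 → ℝ, (∀ i, 0 ≤ x i) → psum 1 x = psum 1 w → psum 2 x = psum 2 w →
      psum 3 x = psum 3 w → x ∈ powerSet (psum 2 u) (psum 3 u) := fun x x0 x1 x2 x3 =>
    ⟨⟨x0, by rw [← one, ← x1]; simp [psum]⟩, x2.trans w2, x3.trans w3⟩
  have hv := mem v v0 v1 v2 v3
  have hv' := mem v' v0' v1' v2' v3'
  have hFv' : F w < F v' := by
    by_contra hc
    push Not at hc
    exact absurd (hmax ⟨hv', (hc.trans hwF' : F v' ≤ F w₀)⟩) (not_le.2 vl')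
  have hden : 0 < psum 4 v' - psum 4 v := by linarith
  set θ := (psum 4 v' - psum 4 w) / (psum 4 v' - psum 4 v) with hθ
  have t0 : 0 ≤ θ := div_nonneg (by linarith) hden.le
  have t1 : θ < 1 := by rw [hθ, div_lt_one hden]; linarith
  have h4 : θ * psum 4 v + (1 - θ) * psum 4 v' = psum 4 w := by
    rw [hθ]
    field_simp
    ring
  have hd := mul_le_mul_of_nonneg_left
    (dent_convex w0 v0 v0' v1 v1' v2 v2' v3 v3' t0 t1.le h4) hκ
  have e1 := mul_le_mul_of_nonneg_left (hmn v hv) t0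
  have e2 := mul_lt_mul_of_pos_left hFv' (sub_pos.2 t1)
  have h4b := congrArg (b * ·) h4
  simp only [hF] at e1 e2 h4b
  linarith

/-- The same in terms of the two parametrised families. -/
theorem half_degree_dent_families {f₀ f₁ k : ℝ → ℝ → ℝ}
    (hk : ∀ u : Fin 4 → ℝ, (∀ i, 0 ≤ u i) → ∑ i, u i = 1 → 0 ≤ k (psum 2 u) (psum 3 u))
    (hpair : ∀ a b c : ℝ, 0 ≤ a → 0 ≤ b → 0 ≤ c → a + a + b + c = 1 →
      0 ≤ f₀ (psum 2 ![a, a, b, c]) (psum 3 ![a, a, b, c])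
        + f₁ (psum 2 ![a, a, b, c]) (psum 3 ![a, a, b, c]) * psum 4 ![a, a, b, c]
        - k (psum 2 ![a, a, b, c]) (psum 3 ![a, a, b, c]) * dent ![a, a, b, c])
    (hzero : ∀ a b c : ℝ, 0 ≤ a → 0 ≤ b → 0 ≤ c → a + b + c = 1 →
      0 ≤ f₀ (psum 2 ![0, a, b, c]) (psum 3 ![0, a, b, c])
        + f₁ (psum 2 ![0, a, b, c]) (psum 3 ![0, a, b, c]) * psum 4 ![0, a, b, c]
        - k (psum 2 ![0, a, b, c]) (psum 3 ![0, a, b, c]) * dent ![0, a, b, c])
    {u : Fin 4 → ℝ} (h0 : ∀ i, 0 ≤ u i) (h1 : ∑ i, u i = 1) :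
    0 ≤ f₀ (psum 2 u) (psum 3 u) + f₁ (psum 2 u) (psum 3 u) * psum 4 u
      - k (psum 2 u) (psum 3 u) * dent u := by
  refine half_degree_dent (f₀ := f₀) (f₁ := f₁) (k := k) hk ?_ ?_ h0 h1
  · rintro u h0 h1 ⟨i, j, hij, heq⟩
    obtain ⟨σ, hσ0, hσ1⟩ : ∃ σ : Equiv.Perm (Fin 4), σ 0 = i ∧ σ 1 = j :=
      ⟨Equiv.swap 0 i * Equiv.swap 1 (Equiv.swap 0 i j), by
        clear heq; revert hij; revert i j; decide⟩
    have e : u ∘ σ = ![u i, u i, u (σ 2), u (σ 3)] := by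
      funext k
      fin_cases k <;> simp [hσ0, hσ1, heq]
    have s : u i + u i + u (σ 2) + u (σ 3) = 1 := by
      rw [← h1, ← Equiv.sum_comp σ u, Fin.sum_univ_four, hσ0, hσ1, heq]
    have := hpair _ _ _ (h0 i) (h0 (σ 2)) (h0 (σ 3)) s
    rwa [← e, psum_comp, psum_comp, psum_comp, dent_comp] at this
  · rintro u h0 h1 ⟨i, heq⟩
    set σ := Equiv.swap 0 i
    have hσ0 : σ 0 = i := Equiv.swap_apply_left 0 i
    have e : u ∘ σ = ![0, u (σ 1), u (σ 2), u (σ 3)] := by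
      funext k
      fin_cases k <;> simp [hσ0, heq]
    have s : u (σ 1) + u (σ 2) + u (σ 3) = 1 := by
      rw [← h1, ← Equiv.sum_comp σ u, Fin.sum_univ_four, hσ0, heq, zero_add]
    have := hzero _ _ _ (h0 (σ 1)) (h0 (σ 2)) (h0 (σ 3)) s
    rwa [← e, psum_comp, psum_comp, psum_comp, dent_comp] at this

end Vale.Agent.P154.Q4
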