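import Vale.Agent.P154.Q4.LogCheckHi

/-!
# The one-variable bounds of the potential inequality
-/

namespace Vale.Agent.P154.Q4

/-- The majorant of `x log x`, in `t = x - 1`. -/
noncomputable def dMaj (t : ℝ) : ℝ :=
  (3298534883328 * t + 1649267441664 * t ^ 2 - 549755813888 * t ^ 3 + 283728151368 * t ^ 4
     - 162788266821 * t ^ 5 + 53439069576 * t ^ 6 - 36071082066 * t ^ 7
     + 145278727278 * t ^ 8 - 209428403115 * t ^ 9 + 144559607460 * t ^ 10
     - 53331423360 * t ^ 11 + 10164685272 * t ^ 12 - 788182158 * t ^ 13) / 3298534883328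

theorem dMaj_ge {x : ℝ} (h0 : 0 ≤ x) (h4 : x ≤ 4) : x * Real.log x ≤ dMaj (x - 1) := by
  have := HiPiece.majorant (q := [(0 / 3298534883328), (3298534883328 / 3298534883328),
      (1649267441664 / 3298534883328), (-549755813888 / 3298534883328),
      (283728151368 / 3298534883328), (-162788266821 / 3298534883328),
      (53439069576 / 3298534883328), (-36071082066 / 3298534883328),
      (145278727278 / 3298534883328), (-209428403115 / 3298534883328),
      (144559607460 / 3298534883328), (-53331423360 / 3298534883328),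
      (10164685272 / 3298534883328), (-788182158 / 3298534883328)])
    (l := [.low 5 (1 / 32),
      .right 2 4 (39 / 128) (1 / 32),
      .right 2 4 (113 / 256) (39 / 128),
      .right 1 4 (37 / 64) (113 / 256),
      .right 0 4 1 (37 / 64),
      .left 0 4 1 (7 / 4),
      .right 0 4 (23 / 8) (7 / 4),
      .right 0 4 (55 / 16) (23 / 8),
      .right 0 4 4 (55 / 16)]) (by decide +kernel) h0 h4
  refine this.trans (le_of_eq ?_)
  generalize x - 1 = t
  simp [dMaj, lev]
  ring

/-- The minorant of `(1 + t) log (1 + t)`. -/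
noncomputable def wMin (t : ℝ) : ℝ :=
  (4294967296 * t + 2084339942 * t ^ 2 - 639849186 * t ^ 3 + 489297179 * t ^ 4
     - 425555925 * t ^ 5 + 173751408 * t ^ 6 - 24535427 * t ^ 7) / 4294967296

theorem wMin_le {t : ℝ} (h0 : -1 ≤ t) (h3 : t ≤ 3) : wMin t ≤ (1 + t) * Real.log (1 + t) := by
  have := LoPiece.minorant (q := [(0 / 4294967296), (4294967296 / 4294967296),
      (2084339942 / 4294967296), (-639849186 / 4294967296),
      (489297179 / 4294967296), (-425555925 / 4294967296),
      (173751408 / 4294967296), (-24535427 / 4294967296)])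
    (l := [.tangent 4 (1 / 16) 0 (1 / 16),
      .left 4 4 (1 / 16) (13 / 64),
      .left 3 4 (13 / 64) (61 / 256),
      .left 3 4 (61 / 256) (11 / 32),
      .right 0 4 1 (11 / 32),
      .left 0 4 1 (7 / 4),
      .left 0 4 (7 / 4) (121 / 64),
      .left 0 4 (121 / 64) (377 / 128),
      .left 0 4 (377 / 128) (889 / 256),
      .left 0 4 (889 / 256) (1913 / 512),
      .left 0 4 (1913 / 512) 4]) (by decide +kernel) h0 h3
  refine le_trans (le_of_eq ?_) this
  simp [wMin, lev]
  ring

end Vale.Agent.P154.Q4
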