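import Vale.Agent.P154.Q4.PCover
import Vale.Agent.P154.Q4.PBound
import Vale.Agent.P154.Q4.HalfConcave

/-!
# The pointwise potential inequality for four states

For all `u`, `v` on the simplex,
`6 * (phi4 u * L v + L u * phi4 v) ≤ ∑ s, homExt phi4 (u ∘ v_s)` with `L = wgtL`.
-/

namespace Vale.Agent.P154.Q4

open Finset Q3 Vale.Agent.P154.Tree

/-- One coordinate of `6400` times the multiplier. -/
def zR (μ μ' W a b : ℝ) : ℝ := zet kR 1 1 μ μ' W (4 * a - 1) (4 * b - 1)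

/-- The first tangent moment. -/
def aPair (μ μ' : ℝ) (u v : Fin 4 → ℝ) : ℝ :=
  ∑ i, zR μ μ' (wPair u v) (u i) (v i) * (4 * (u i * v i))

/-- The second tangent moment. -/
def bPair (μ μ' : ℝ) (u v : Fin 4 → ℝ) : ℝ := ∑ i, zR μ μ' (wPair u v) (u i) (v i) ^ 2

/-- The contribution of one pairing, with the squared norms as parameters. -/
def pQ (μ μ' : ℝ) (u v : Fin 4 → ℝ) : ℝ :=
  274877906944 * accW kR 1 (wPair u v) (nPair u v) (aPair μ μ' u v) (bPair μ μ' u v)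
    + 294912000000 * wLog kR 1 (wPair u v - 1)

/-- The polynomial part of the potential inequality. -/
def pT (μ μ' : ℝ) (u v : Fin 4 → ℝ) : ℝ :=
  ∑ s : Equiv.Perm (Fin 4), pQ μ μ' u (v ∘ s) - 3799912185593856000000 * (μ + μ')
    - 15199648742375424000000

/-- `409600` times the weight `1 - L`, as a function of the squared norm. -/
def oP (μ : ℝ) : ℝ := 100096 * μ - 9168 * μ ^ 2 + 305 * μ ^ 3

/-- Minus the majorant sum of the entropy. -/
def dTR (u : Fin 4 → ℝ) : ℝ := ∑ i, dTerm kR 1 (4 * u i - 1)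

/-- The expression with the exact potential. -/
noncomputable def pX (u v : Fin 4 → ℝ) : ℝ :=
  pT (mR 2 u) (mR 2 v) u v
    + 148434069749760000 * (phi4 u * oP (mR 2 v) + phi4 v * oP (mR 2 u))

/-- The weight `L`. -/
noncomputable def wgtL (u : Fin 4 → ℝ) : ℝ := 1 - oP (mR 2 u) / 409600

theorem mR_two {u : Fin 4 → ℝ} (hu : ∑ i, u i = 1) : mR 2 u = 16 * psum 2 u - 4 := by
  rw [Fin.sum_univ_four] at hu
  simp only [mR, psum_eq, Fin.sum_univ_four]
  linear_combination (-8 : ℝ) * hu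

theorem sqDev_eq_mR (x : Fin 4 → ℝ) : sqDev x = mR 2 x / 16 := by
  rw [sqDev, mR, sum_div]
  exact sum_congr rfl fun i _ => by push_cast; ring

theorem mR_comp (k : ℕ) (u : Fin 4 → ℝ) (σ : Equiv.Perm (Fin 4)) : mR k (u ∘ σ) = mR k u :=
  Equiv.sum_comp σ fun i => (4 * u i - 1) ^ k

theorem phi4_comp (u : Fin 4 → ℝ) (σ : Equiv.Perm (Fin 4)) : phi4 (u ∘ σ) = phi4 u := by
  simp only [phi4, sqDev_eq_mR, mR_comp, dent_comp]

theorem oP_nonneg {μ : ℝ} (h : 0 ≤ μ) : 0 ≤ oP μ := by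
  have := mul_nonneg h (show (0 : ℝ) ≤ 100096 - 9168 * μ + 305 * μ ^ 2 by
    nlinarith [sq_nonneg (μ - 15)])
  rw [oP]
  linarith

theorem mR_two_bd {u : Fin 4 → ℝ} (h0 : ∀ i, 0 ≤ u i) (h1 : ∑ i, u i = 1) :
    0 ≤ mR 2 u ∧ mR 2 u ≤ 12 := by
  refine ⟨sum_nonneg fun i _ => sq_nonneg _, ?_⟩
  have : psum 2 u ≤ 1 :=
    calc psum 2 u ≤ ∑ i, u i := sum_le_sum fun i _ => by
          nlinarith [h0 i, le_one_of_simplex h0 h1 i]
      _ = 1 := h1
  rw [mR_two h1]
  linarith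

theorem wgtL_bd {u : Fin 4 → ℝ} (h0 : ∀ i, 0 ≤ u i) (h1 : ∑ i, u i = 1) :
    0 ≤ wgtL u ∧ wgtL u ≤ 1 := by
  obtain ⟨a, b⟩ := mR_two_bd h0 h1
  have lo := oP_nonneg a
  refine ⟨?_, ?_⟩ <;> rw [wgtL]
  · rw [sub_nonneg, div_le_one (by norm_num), oP]
    have q : 0 ≤ 34048 - 5508 * mR 2 u + 305 * mR 2 u ^ 2 := by
      nlinarith [sq_nonneg (mR 2 u - 9)]
    have := mul_nonneg (sub_nonneg.2 b) q
    linarith
  · linarith [div_nonneg lo (show (0 : ℝ) ≤ 409600 by norm_num)]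

theorem dTR_le {u : Fin 4 → ℝ} (h0 : ∀ i, 0 ≤ u i) (h1 : ∑ i, u i = 1) :
    dTR u ≤ 26388279066624 * phi4 u := by
  have hd : dent u ≤ (∑ i, dMaj (4 * u i - 1)) / 4 := by
    rw [dent, sum_div]
    refine sum_le_sum fun i _ => ?_
    have := dMaj_ge (x := 4 * u i) (by linarith [h0 i]) (by linarith [le_one_of_simplex h0 h1 i])
    linarith
  have hl : ∑ i, (4 * u i - 1) = 0 := by simp [← mul_sum, h1]
  have : dTR u = 1649267441664 * mR 2 u - 3298534883328 * ∑ i, dMaj (4 * u i - 1) := by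
    rw [← add_zero (1649267441664 * mR 2 u - _), ← mul_zero (3298534883328 : ℝ), ← hl, dTR, mR,
      mul_sum, mul_sum, mul_sum, ← sum_sub_distrib, ← sum_add_distrib]
    refine sum_congr rfl fun i _ => ?_
    simp [dTerm, dMaj, kR]
    ring
  rw [this, phi4, sqDev_eq_mR]
  linarith

theorem pH_eq {u v : Fin 4 → ℝ} (hu : ∑ i, u i = 1) (hv : ∑ i, v i = 1) :
    pAt u v = pT (mR 2 u) (mR 2 v) u v
      + 5625 * (dTR u * oP (mR 2 v) + dTR v * oP (mR 2 u)) := by
  have parts : ∀ x : Fin 4 → ℝ, ∑ i, x i = 1 → oT kR (x 0) (x 1) (x 2) (x 3) = oP (mR 2 x) ∧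
      dT kR (x 0) (x 1) (x 2) (x 3) = dTR x := fun x hx => by
    refine ⟨?_, ?_⟩
    · simp [oT, totT_eq hx, (parts_eq hx).1, oP, kR]
      ring
    · simp [dT, dTR, totT_eq hx, Fin.sum_univ_four, kR]
  have e : sum4 (pPair kR 1 1 (mR 2 u) (mR 2 v) (u 0) (u 1) (u 2) (u 3)) (v 0) (v 1) (v 2) (v 3)
      = ∑ s : Equiv.Perm (Fin 4), pQ (mR 2 u) (mR 2 v) u (v ∘ s) := by
    rw [← sum_perm4]
    refine sum_congr rfl fun s _ => ?_
    simp only [pPair, pQ, aPair, bPair, zR, wPair, nPair, Fin.sum_univ_four, Function.comp_apply,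
      kR, mul_one, sq]
    norm_num
  simp only [pAt, pH, totT_eq hu, totT_eq hv, (parts_eq hu).1, (parts_eq hv).1,
    (parts u hu).1, (parts v hv).1, (parts u hu).2, (parts v hv).2, mul_one, e]
  simp [pT, kR]
  ring

theorem pQ_comp (μ μ' : ℝ) (u v : Fin 4 → ℝ) (σ : Equiv.Perm (Fin 4)) :
    pQ μ μ' (u ∘ σ) (v ∘ σ) = pQ μ μ' u v := by
  have w : wPair (u ∘ σ) (v ∘ σ) = wPair u v := Equiv.sum_comp σ fun i => 4 * (u i * v i)
  have n : nPair (u ∘ σ) (v ∘ σ) = nPair u v := Equiv.sum_comp σ fun i => (4 * (u i * v i)) ^ 2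
  have a : aPair μ μ' (u ∘ σ) (v ∘ σ) = aPair μ μ' u v := by
    simp only [aPair, w]
    exact Equiv.sum_comp σ fun i => zR μ μ' (wPair u v) (u i) (v i) * (4 * (u i * v i))
  have b : bPair μ μ' (u ∘ σ) (v ∘ σ) = bPair μ μ' u v := by
    simp only [bPair, w]
    exact Equiv.sum_comp σ fun i => zR μ μ' (wPair u v) (u i) (v i) ^ 2
  simp only [pQ, w, n, a, b]

theorem pQ_swap (μ μ' : ℝ) (u v : Fin 4 → ℝ) : pQ μ' μ v u = pQ μ μ' u v := by
  have w : wPair v u = wPair u v := sum_congr rfl fun i _ => by ring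
  have n : nPair v u = nPair u v := sum_congr rfl fun i _ => by ring
  have z : ∀ W a b, zR μ' μ W b a = zR μ μ' W a b := fun W a b => by simp [zR, zet, kR]; ring
  have a : aPair μ' μ v u = aPair μ μ' u v :=
    sum_congr rfl fun i _ => by rw [z, w, mul_comm (v i)]
  have b : bPair μ' μ v u = bPair μ μ' u v := sum_congr rfl fun i _ => by rw [z, w]
  simp only [pQ, w, n, a, b]

theorem pT_comp (μ μ' : ℝ) (u v : Fin 4 → ℝ) (σ : Equiv.Perm (Fin 4)) :
    pT μ μ' (u ∘ σ) v = pT μ μ' u v := by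
  unfold pT
  rw [← Equiv.sum_comp (Equiv.mulRight σ)]
  simp only [Equiv.coe_mulRight, Equiv.Perm.coe_mul, ← Function.comp_assoc, pQ_comp]

theorem pT_comm (μ μ' : ℝ) (u v : Fin 4 → ℝ) : pT μ' μ v u = pT μ μ' u v := by
  unfold pT
  rw [← Equiv.sum_comp (Equiv.inv (Equiv.Perm (Fin 4)))]
  have : ∀ s : Equiv.Perm (Fin 4), pQ μ' μ v (u ∘ (s⁻¹ : Equiv.Perm (Fin 4))) = pQ μ μ' u (v ∘ s) :=
    fun s => by
      rw [← pQ_swap μ μ' u (v ∘ s), ← pQ_comp μ' μ v _ s]
      congr 1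
      funext i
      simp
  simp only [Equiv.inv_apply, this]
  ring

theorem pX_comp (u v : Fin 4 → ℝ) (σ : Equiv.Perm (Fin 4)) : pX (u ∘ σ) v = pX u v := by
  simp only [pX, mR_comp, pT_comp, phi4_comp]

theorem pX_comm (u v : Fin 4 → ℝ) : pX v u = pX u v := by
  rw [pX, pX, pT_comm]
  ring

theorem deg_pQ (μ μ' : ℝ) (v : Fin 4 → ℝ) : Deg 7 fun u => pQ μ μ' u v := by
  have z : ∀ i, Deg 1 fun u : Fin 4 → ℝ => 4 * (u i * v i) := fun i =>
    (Deg.mul (k := 1) (Deg.coord (k := 1) i le_rfl) (Deg.const 0 (v i)) le_rfl).smul 4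
  have w : Deg 1 fun u => wPair u v := Deg.sum univ fun i _ => z i
  have n : Deg 2 fun u => nPair u v := Deg.sum univ fun i _ => (z i).pow 2 le_rfl
  have e : ∀ i, Deg 1 fun u : Fin 4 → ℝ => zR μ μ' (wPair u v) (u i) (v i) := by
    intro i
    have h : (fun u : Fin 4 → ℝ => zR μ μ' (wPair u v) (u i) (v i)) = fun u =>
        ((1600 + (1176 - 61 * μ) * (4 * v i - 1))
          + ((1176 - 61 * μ') + 352 * (4 * v i - 1)) * (4 * u i - 1))
          + (-352) * (wPair u v - 1) := by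
      funext u
      simp [zR, zet, kR]
      ring
    rw [h]
    exact ((Deg.const 1 _).add
      ((((Deg.coord i le_rfl).smul 4).sub (Deg.const 1 1)).smul _)).add
      ((w.sub (Deg.const 1 1)).smul (-352))
  have a : Deg 2 fun u => aPair μ μ' u v :=
    Deg.sum univ fun i _ => Deg.mul (k := 2) (e i) (z i) le_rfl
  have b : Deg 2 fun u => bPair μ μ' u v := Deg.sum univ fun i _ => (e i).pow 2 le_rfl
  have h : (fun u => pQ μ μ' u v) = fun u =>
      274877906944 * ((1 - wPair u v) ^ 2 * (15 - 11 * wPair u v) ^ 2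
          * (12800 * aPair μ μ' u v - wPair u v * bPair μ μ' u v)
        + 40960000 * (nPair u v * (780 + (-1006) * wPair u v + 572 * wPair u v ^ 2
          + (-121) * wPair u v ^ 3)))
      + 294912000000 * (4294967296 * (wPair u v - 1) + 2084339942 * (wPair u v - 1) ^ 2
          + (-639849186) * (wPair u v - 1) ^ 3 + 489297179 * (wPair u v - 1) ^ 4
          + (-425555925) * (wPair u v - 1) ^ 5 + 173751408 * (wPair u v - 1) ^ 6
          + (-24535427) * (wPair u v - 1) ^ 7) := by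
    funext u
    simp [pQ, accW, wLog, kR]
    ring
  rw [h]
  have t : Deg 1 fun u => wPair u v - 1 := w.sub (Deg.const 1 1)
  have tp : ∀ j, j ≤ 7 → Deg 7 fun u => (wPair u v - 1) ^ j := fun j hj => t.pow j (by omega)
  refine (Deg.smul ?_ 274877906944).add (Deg.smul ?_ 294912000000)
  · refine Deg.add (Deg.mul (a := 4) (b := 3) ?_ ?_ le_rfl) (Deg.smul ?_ 40960000)
    · exact Deg.mul (k := 4) (((Deg.const 1 1).sub w).pow (k := 2) 2 le_rfl)
        ((((Deg.const 1 15).sub (w.smul 11))).pow (k := 2) 2 le_rfl) le_rfl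
    · exact ((a.smul 12800).mono (by norm_num)).sub (Deg.mul (k := 3) w b le_rfl)
    · refine Deg.mul (k := 7) (b := 3) n ?_ (by norm_num)
      exact (((Deg.const 3 780).add ((w.mono (by norm_num)).smul (-1006))).add
        ((w.pow 2 (by norm_num)).smul 572)).add ((w.pow 3 le_rfl).smul (-121))
  · exact ((((((t.mono (by norm_num)).smul 4294967296).add
      ((tp 2 (by norm_num)).smul 2084339942)).add ((tp 3 (by norm_num)).smul (-639849186))).add
      ((tp 4 (by norm_num)).smul 489297179)).add ((tp 5 (by norm_num)).smul (-425555925))).add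
      ((tp 6 (by norm_num)).smul 173751408) |>.add ((tp 7 le_rfl).smul (-24535427))

theorem affine_of_sym {F : (Fin 4 → ℝ) → ℝ} (hF : Deg 7 F)
    (hsym : ∀ (u : Fin 4 → ℝ) (s : Equiv.Perm (Fin 4)), F (u ∘ s) = F u) :
    ∃ f g : ℝ → ℝ → ℝ, ∀ x : Fin 4 → ℝ, ∑ i, x i = 1 →
      F x = f (psum 2 x) (psum 3 x) + g (psum 2 x) (psum 3 x) * psum 4 x := by
  have w := (hF.symOK 0 _ symOK_one) (fun _ => 0) (by simp)
  obtain ⟨f, g, hfg⟩ := w.split.2 (by simp)
  refine ⟨fun s t => f s t / 24, fun s t => g s t / 24, fun x hx => ?_⟩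
  have := hfg x hx
  simp [hsym, Fintype.card_perm, Nat.factorial] at this
  linarith

/-- It suffices to check the first argument on the sectors. -/
theorem pX_nonneg_of_sec {v : Fin 4 → ℝ} (hv : ∀ i, 0 ≤ v i) (hv1 : ∑ i, v i = 1)
    (h : ∀ i x, InSec i x → ∑ j, x j = 1 → 0 ≤ pX x v)
    {u : Fin 4 → ℝ} (hu : ∀ i, 0 ≤ u i) (hu1 : ∑ i, u i = 1) : 0 ≤ pX u v := by
  obtain ⟨C, hC⟩ : ∃ C : ℝ, C = 148434069749760000 := ⟨_, rfl⟩
  obtain ⟨κ, hκ⟩ : ∃ κ : ℝ, κ = oP (mR 2 v) := ⟨_, rfl⟩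
  have hsd : Deg 7 fun x : Fin 4 → ℝ => sqDev x := by
    unfold sqDev
    exact Deg.sum univ fun i _ => ((Deg.coord i le_rfl).sub (Deg.const 1 _)).pow 2 (by norm_num)
  have hT : ∀ μ : ℝ, Deg 7 fun x : Fin 4 → ℝ => pT μ (mR 2 v) x v := fun μ => by
    have h1 : Deg 7 fun x : Fin 4 → ℝ => ∑ s : Equiv.Perm (Fin 4), pQ μ (mR 2 v) x (v ∘ s) :=
      Deg.sum univ fun s _ => deg_pQ μ (mR 2 v) (v ∘ s)
    unfold pT
    exact (h1.sub (Deg.const 7 _)).sub (Deg.const 7 _)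
  have aff : ∀ μ : ℝ, ∃ f g : ℝ → ℝ → ℝ, ∀ x : Fin 4 → ℝ, ∑ i, x i = 1 →
      pT μ (mR 2 v) x v + C * (κ * sqDev x + phi4 v * oP μ)
        = f (psum 2 x) (psum 3 x) + g (psum 2 x) (psum 3 x) * psum 4 x := fun μ => by
    have h2 : Deg 7 fun x : Fin 4 → ℝ => κ * sqDev x + phi4 v * oP μ :=
      (hsd.smul κ).add (Deg.const 7 _)
    exact affine_of_sym ((hT μ).add (h2.smul C))
      fun x s => by rw [pT_comp, sqDev_eq_mR, sqDev_eq_mR, mR_comp]
  choose f g hfg using aff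
  have key : ∀ x : Fin 4 → ℝ, ∑ i, x i = 1 →
      pX x v = f (16 * psum 2 x - 4) (psum 2 x) (psum 3 x)
        + g (16 * psum 2 x - 4) (psum 2 x) (psum 3 x) * psum 4 x - C * κ / 2 * dent x := by
    intro x hx
    rw [← hfg _ x hx, ← mR_two hx, pX]
    simp only [phi4, hC, hκ]
    ring
  obtain ⟨hp, hz⟩ := families_of_sectors (F := fun x => pX x v) (fun x s => pX_comp x v s) h
  have hk : 0 ≤ C * κ / 2 := by
    have := oP_nonneg (mR_two_bd hv hv1).1
    rw [hC, hκ]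
    positivity
  rw [key u hu1]
  refine half_degree_dent_families (f₀ := fun s t => f (16 * s - 4) s t)
    (f₁ := fun s t => g (16 * s - 4) s t) (k := fun _ _ => C * κ / 2) (fun _ _ _ => hk)
    (fun a b c ha hb hc hs => ?_) (fun a b c ha hb hc hs => ?_) hu hu1
  · have := key ![a, a, b, c] (by simp [Fin.sum_univ_four]; linarith)
    exact this ▸ hp a b c ha hb hc hs
  · have := key ![0, a, b, c] (by simp [Fin.sum_univ_four]; linarith)
    exact this ▸ hz a b c ha hb hc hs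

theorem nn_sec : ∀ i j : Fin 4, i ≤ j → NN (secTri i) (secTri j)
  | 0, 0, _ => nn00
  | 0, 1, _ => nn01
  | 0, 2, _ => nn02
  | 0, 3, _ => nn03
  | 1, 0, h => absurd h (by decide)
  | 1, 1, _ => nn11
  | 1, 2, _ => nn12
  | 1, 3, _ => nn13
  | 2, 0, h => absurd h (by decide)
  | 2, 1, h => absurd h (by decide)
  | 2, 2, _ => nn22
  | 2, 3, _ => nn23
  | 3, 0, h => absurd h (by decide)
  | 3, 1, h => absurd h (by decide)
  | 3, 2, h => absurd h (by decide)
  | 3, 3, _ => nn33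

theorem secR_eq_tri (x y z : ℝ) (i : Fin 4) : secR x y z i = triR (secTri i) ![x, y, z] := by
  funext j
  fin_cases i <;> fin_cases j <;> simp [secR, secTri, triR, Fin.sum_univ_three]

theorem pX_nonneg_sec {i j : Fin 4} {u v : Fin 4 → ℝ} (hu : InSec i u) (hv : InSec j v)
    (hu1 : ∑ k, u k = 1) (hv1 : ∑ k, v k = 1) : 0 ≤ pX u v := by
  suffices key : ∀ i j : Fin 4, i ≤ j → ∀ u v, InSec i u → InSec j v → ∑ k, u k = 1 →
      ∑ k, v k = 1 → 0 ≤ pX u v by
    rcases le_total i j with h | h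
    · exact key i j h u v hu hv hu1 hv1
    · rw [← pX_comm]; exact key j i h v u hv hu hv1 hu1
  intro i j hij u v hu hv hu1 hv1
  have u0 := hu.nonneg
  have v0 := hv.nonneg
  have a := mul_le_mul_of_nonneg_right (dTR_le u0 hu1) (oP_nonneg (mR_two_bd v0 hv1).1)
  have b := mul_le_mul_of_nonneg_right (dTR_le v0 hv1) (oP_nonneg (mR_two_bd u0 hu1).1)
  have h : 0 ≤ pAt u v := by
    obtain ⟨x, y, z, hx, hy, hz, eu⟩ := hu
    obtain ⟨x', y', z', hx', hy', hz', ev⟩ := hv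
    rw [eu, ev, secR_eq_tri, secR_eq_tri]
    exact nn_sec i j hij _ _ (fun k => by fin_cases k <;> simpa) fun k => by
      fin_cases k <;> simpa
  rw [pH_eq hu1 hv1] at h
  rw [pX]
  linarith

theorem pX_nonneg {u v : Fin 4 → ℝ} (hu : ∀ i, 0 ≤ u i) (hu1 : ∑ i, u i = 1)
    (hv : ∀ i, 0 ≤ v i) (hv1 : ∑ i, v i = 1) : 0 ≤ pX u v := by
  refine pX_nonneg_of_sec hv hv1 (fun i x hx hx1 => ?_) hu hu1
  rw [← pX_comm]
  exact pX_nonneg_of_sec hx.nonneg hx1 (fun j y hy hy1 => pX_nonneg_sec hy hx hy1 hx1) hv hv1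

theorem pQ_le (μ μ' : ℝ) {u v : Fin 4 → ℝ} (hu : ∀ i, 0 ≤ u i) (hv : ∀ i, 0 ≤ v i)
    (hW : wPair u v ≤ 4) :
    pQ μ μ' u v ≤ 10133099161583616000000 * homExt sqDev (fun i => u i * v i)
      + 633318697598976000000 * wPair u v
      + 1266637395197952000000 * (wPair u v * Real.log (wPair u v)) := by
  have hz : ∀ i, 0 ≤ u i * v i := fun i => mul_nonneg (hu i) (hv i)
  have W0 : 0 ≤ wPair u v := sum_nonneg fun i _ => mul_nonneg (by norm_num) (hz i)
  have hlog : wLog kR 1 (wPair u v - 1) ≤ 4294967296 * (wPair u v * Real.log (wPair u v)) := by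
    have := wMin_le (t := wPair u v - 1) (by linarith) (by linarith)
    rw [show (1 : ℝ) + (wPair u v - 1) = wPair u v by ring] at this
    refine le_trans (le_of_eq ?_) (mul_le_mul_of_nonneg_left this (by norm_num))
    simp [wLog, wMin, kR]
    ring
  set Z := ∑ i, u i * v i with hZ
  have eW : wPair u v = 4 * Z := (mul_sum _ _ _).symm
  rcases eq_or_ne Z 0 with h | h
  · have h0 : ∀ i, u i * v i = 0 := fun i =>
      (sum_eq_zero_iff_of_nonneg fun j _ => hz j).1 (hZ ▸ h) i (mem_univ i)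
    have hW0 : wPair u v = 0 := by rw [eW, h, mul_zero]
    have hB : aPair μ μ' u v = 0 ∧ nPair u v = 0 ∧
        homExt sqDev (fun i => u i * v i) = 0 := by simp [aPair, nPair, homExt, h0]
    rw [hW0] at hlog ⊢
    simp only [pQ, hB.1, hB.2.1, hB.2.2, hW0, accW, kR]
    norm_num
    simp only [zero_mul, mul_zero] at hlog
    norm_num at hlog
    linarith
  have hp : 0 < Z := lt_of_le_of_ne (sum_nonneg fun i _ => hz i) (Ne.symm h)
  have hh : homExt sqDev (fun i => u i * v i)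
      = nPair u v / (4 * wPair u v) - wPair u v / 16 := by
    have hs : Z = u 0 * v 0 + u 1 * v 1 + u 2 * v 2 + u 3 * v 3 := by rw [hZ, Fin.sum_univ_four]
    simp only [homExt, sqDev, nPair, eW, ← hZ, Fin.sum_univ_four]
    push_cast
    field_simp
    rw [hs]
    ring
  have hacc : accW kR 1 (wPair u v) (nPair u v) (aPair μ μ' u v) (bPair μ μ' u v)
      ≤ 9216000000 * (nPair u v / wPair u v) := by
    have hW' : 0 < wPair u v := by rw [eW]; positivity
    have sq0 : 0 ≤ 40960000 * nPair u v - 12800 * wPair u v * aPair μ μ' u v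
        + wPair u v ^ 2 * bPair μ μ' u v := by
      simp only [nPair, aPair, bPair, mul_sum, ← sum_sub_distrib, ← sum_add_distrib]
      refine sum_nonneg fun i _ => le_of_le_of_eq
        (sq_nonneg (6400 * (4 * (u i * v i)) - wPair u v * zR μ μ' (wPair u v) (u i) (v i))) ?_
      ring
    have : 0 ≤ (1 - wPair u v) ^ 2 * (15 - 11 * wPair u v) ^ 2
        * (40960000 * nPair u v - 12800 * wPair u v * aPair μ μ' u v
        + wPair u v ^ 2 * bPair μ μ' u v) / wPair u v :=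
      div_nonneg (mul_nonneg (by positivity) sq0) hW'.le
    refine sub_nonneg.1 (this.trans (le_of_eq ?_))
    simp [accW, kR]
    field_simp
    ring
  have e : nPair u v / (4 * wPair u v) = nPair u v / wPair u v / 4 := by ring
  rw [hh, e]
  simp only [pQ]
  linarith

/-- The pointwise potential inequality. -/
theorem pairPhi_wgtL (u v : Fin 4 → ℝ) (hu : ∀ i, 0 ≤ u i) (hu1 : ∑ i, u i = 1)
    (hv : ∀ i, 0 ≤ v i) (hv1 : ∑ i, v i = 1) :
    6 * (phi4 u * wgtL v + wgtL u * phi4 v)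
      ≤ ∑ s : Equiv.Perm (Fin 4), homExt phi4 (fun i => u i * v (s i)) := by
  have hZ : ∑ s : Equiv.Perm (Fin 4), ∑ i, 4 * (u i * v (s i)) = 24 := by
    rw [sum_comm]
    simp only [← mul_sum, sum_perm_apply, hv1, hu1, ← sum_mul]
    norm_num
  have hle : ∀ s : Equiv.Perm (Fin 4), wPair u (v ∘ s) ≤ 4 := fun s => by
    have : ∀ i, 4 * (u i * v (s i)) ≤ 4 * u i := fun i => by
      nlinarith [hu i, hv (s i), le_one_of_simplex hv hv1 (s i)]
    exact (sum_le_sum fun i _ => this i).trans (by rw [← mul_sum, hu1, mul_one])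
  have h := pX_nonneg hu hu1 hv hv1
  have hq := sum_le_sum (s := univ) fun (s : Equiv.Perm (Fin 4)) _ =>
    pQ_le (mR 2 u) (mR 2 v) hu (v := v ∘ s) (fun i => hv (s i)) (hle s)
  simp only [sum_add_distrib, ← mul_sum, wPair, Function.comp_apply] at hq
  simp only [← mul_sum] at hZ
  rw [hZ] at hq
  rw [sum_perm_phi4 hu hu1 hv hv1, sqDev_eq_mR u, sqDev_eq_mR v]
  simp only [pX, pT] at h
  simp only [wgtL]
  linarith

end Vale.Agent.P154.Q4
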