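import Vale.Agent.P154.Q4.Phi
import Mathlib.Analysis.Complex.ExponentialBounds

/-!
# A polynomial lower bound for `(1 + t) log (1 + t)` on `[-1, 3]`

The polynomial agrees with the Taylor series through `t ^ 5`.
-/

namespace Vale.Agent.P154.Q4

open Real Set

/-- The lower bound. -/
noncomputable def qG (t : ℝ) : ℝ :=
  t + t ^ 2 / 2 - t ^ 3 / 6 + t ^ 4 / 12 - t ^ 5 / 20 + 9049 / 500000 * t ^ 6 - 3 / 1250 * t ^ 7

/-- The difference. -/
noncomputable def gapG (t : ℝ) : ℝ := (1 + t) * log (1 + t) - qG t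

/-- The first derivative of `gapG`. -/
noncomputable def gapG' (t : ℝ) : ℝ :=
  log (1 + t) + 1 - (1 + t - t ^ 2 / 2 + t ^ 3 / 3 - t ^ 4 / 4 + 27147 / 250000 * t ^ 5
    - 21 / 1250 * t ^ 6)

/-- The quadratic governing the sign of the second derivative. -/
noncomputable def quadG (t : ℝ) : ℝ := 45706 / 100000 - 44214 / 100000 * t + 1008 / 10000 * t ^ 2

theorem continuous_gapG : Continuous gapG := by
  have := continuous_mul_log.comp (show Continuous fun t : ℝ => 1 + t by fun_prop)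
  unfold gapG qG
  exact this.sub (by fun_prop)

theorem hasDerivAt_gapG {t : ℝ} (ht : -1 < t) : HasDerivAt gapG (gapG' t) t := by
  have h : (1 + t) ≠ 0 := by linarith
  have h1 : HasDerivAt (fun x : ℝ => 1 + x) 1 t := (hasDerivAt_id t).const_add 1
  have hl := h1.log h
  have hi := hasDerivAt_id' (𝕜 := ℝ) t
  have hp : HasDerivAt qG (1 + t - t ^ 2 / 2 + t ^ 3 / 3 - t ^ 4 / 4 + 27147 / 250000 * t ^ 5
      - 21 / 1250 * t ^ 6) t := by
    have := ((((((hi.add ((hi.pow 2).div_const 2)).sub ((hi.pow 3).div_const 6)).add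
      ((hi.pow 4).div_const 12)).sub ((hi.pow 5).div_const 20)).add
      ((hi.pow 6).const_mul (9049 / 500000 : ℝ))).sub ((hi.pow 7).const_mul (3 / 1250 : ℝ)))
    exact this.congr_deriv (by norm_num; ring)
  exact ((h1.mul hl).sub hp).congr_deriv (by unfold gapG'; field_simp)

theorem hasDerivAt_gapG' {t : ℝ} (ht : -1 < t) :
    HasDerivAt gapG' (t ^ 4 * quadG t / (1 + t)) t := by
  have h : (1 + t) ≠ 0 := by linarith
  have h1 : HasDerivAt (fun x : ℝ => 1 + x) 1 t := (hasDerivAt_id t).const_add 1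
  have hi := hasDerivAt_id' (𝕜 := ℝ) t
  have := ((h1.log h).add_const 1).sub
    ((((((h1.sub ((hi.pow 2).div_const 2)).add ((hi.pow 3).div_const 3)).sub
      ((hi.pow 4).div_const 4)).add ((hi.pow 5).const_mul (27147 / 250000 : ℝ)))).sub
      ((hi.pow 6).const_mul (21 / 1250 : ℝ)))
  refine this.congr_deriv ?_
  rw [eq_div_iff h]
  simp [quadG]
  field_simp
  ring

theorem monotoneOn_of {f f' : ℝ → ℝ} {a b : ℝ} (hc : ContinuousOn f (Icc a b))
    (hd : ∀ x ∈ Ioo a b, HasDerivAt f (f' x) x) (hn : ∀ x ∈ Ioo a b, 0 ≤ f' x) :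
    MonotoneOn f (Icc a b) :=
  monotoneOn_of_hasDerivWithinAt_nonneg (convex_Icc a b) hc
    (by rw [interior_Icc]; exact fun x hx => (hd x hx).hasDerivWithinAt)
    (by rw [interior_Icc]; exact hn)

theorem antitoneOn_of {f f' : ℝ → ℝ} {a b : ℝ} (hc : ContinuousOn f (Icc a b))
    (hd : ∀ x ∈ Ioo a b, HasDerivAt f (f' x) x) (hn : ∀ x ∈ Ioo a b, f' x ≤ 0) :
    AntitoneOn f (Icc a b) :=
  antitoneOn_of_hasDerivWithinAt_nonpos (convex_Icc a b) hc
    (by rw [interior_Icc]; exact fun x hx => (hd x hx).hasDerivWithinAt)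
    (by rw [interior_Icc]; exact hn)

theorem continuousOn_gapG' {a b : ℝ} (ha : -1 < a) : ContinuousOn gapG' (Icc a b) := fun x hx =>
  (hasDerivAt_gapG' (lt_of_lt_of_le ha hx.1)).continuousAt.continuousWithinAt

theorem log_four_gt : (1.386294 : ℝ) < log 4 ∧ log 4 < 1.386295 := by
  have e : log 4 = 2 * log 2 := by rw [show (4 : ℝ) = 2 ^ 2 by norm_num, log_pow]; norm_num
  rw [e]
  constructor <;> linarith [log_two_gt_d9, log_two_lt_d9]

theorem gapG_three : 0 ≤ gapG 3 ∧ gapG' 3 ≤ 0 := by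
  obtain ⟨h1, h2⟩ := log_four_gt
  norm_num [gapG, gapG', qG] at *
  constructor <;> linarith

theorem gapG_nonneg {t : ℝ} (h0 : -1 ≤ t) (h3 : t ≤ 3) : 0 ≤ gapG t := by
  obtain ⟨r, hr, r0⟩ : ∃ r, r = √((44214 / 100000 : ℝ) ^ 2 - 4 * (1008 / 10000) * (45706 / 100000))
      ∧ 0 ≤ r := ⟨_, rfl, sqrt_nonneg _⟩
  have r2 : r ^ 2 = (44214 / 100000 : ℝ) ^ 2 - 4 * (1008 / 10000) * (45706 / 100000) := by
    rw [hr, sq_sqrt (by norm_num)]
  set a := (44214 / 100000 - r) / (2 * (1008 / 10000)) with ha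
  set b := (44214 / 100000 + r) / (2 * (1008 / 10000)) with hb
  have hr1 : r ≤ 12 / 100 := by nlinarith
  have ha1 : (1 : ℝ) ≤ a := by rw [ha, le_div_iff₀ (by norm_num)]; linarith
  have hab : a ≤ b := by rw [ha, hb]; gcongr; linarith
  have hb3 : b ≤ 3 := by rw [hb, div_le_iff₀ (by norm_num)]; linarith
  have quad : ∀ x, quadG x = 1008 / 10000 * ((x - a) * (x - b)) := fun x => by
    rw [quadG, ha, hb]
    linear_combination (2500 / 1008 : ℝ) * r2
  have sign : ∀ x, -1 < x → (0 ≤ x ^ 4 * quadG x / (1 + x) ↔ 0 ≤ x ^ 4 * quadG x) := fun x hx => by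
    rw [le_div_iff₀ (by linarith : (0 : ℝ) < 1 + x), zero_mul]
  -- second derivative on the three intervals
  have up : ∀ x, -1 < x → x ≤ a ∨ b ≤ x → 0 ≤ x ^ 4 * quadG x / (1 + x) := fun x hx h => by
    refine (sign x hx).2 (mul_nonneg (by positivity) ?_)
    rw [quad]
    rcases h with h | h <;> nlinarith
  have down : ∀ x, -1 < x → a ≤ x → x ≤ b → x ^ 4 * quadG x / (1 + x) ≤ 0 := fun x hx h h' => by
    refine div_nonpos_of_nonpos_of_nonneg (mul_nonpos_of_nonneg_of_nonpos (by positivity) ?_)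
      (by linarith)
    rw [quad]
    nlinarith
  have g0 : gapG 0 = 0 ∧ gapG' 0 = 0 := by norm_num [gapG, gapG', qG]
  -- the left piece
  have m' : ∀ x, -1 < x → x ≤ a → (x ≤ 0 → gapG' x ≤ 0) ∧ (0 ≤ x → 0 ≤ gapG' x) := by
    intro x hx hxa
    refine ⟨fun h => ?_, fun h => ?_⟩
    · have := monotoneOn_of (b := 0) (continuousOn_gapG' hx)
        (fun y hy => hasDerivAt_gapG' (hx.trans hy.1))
        (fun y hy => up y (hx.trans hy.1) (Or.inl (by linarith [hy.2])))
      simpa [g0.2] using this (left_mem_Icc.2 h) (right_mem_Icc.2 h) h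
    · have := monotoneOn_of (b := x) (continuousOn_gapG' (show (-1 : ℝ) < 0 by norm_num))
        (fun y hy => hasDerivAt_gapG' (by linarith [hy.1]))
        (fun y hy => up y (by linarith [hy.1]) (Or.inl (by linarith [hy.2])))
      simpa [g0.2] using this (left_mem_Icc.2 h) (right_mem_Icc.2 h) h
  have left : ∀ x, -1 ≤ x → x ≤ a → 0 ≤ gapG x := by
    intro x hx hxa
    rcases le_total x 0 with h | h
    · have := antitoneOn_of (a := x) (b := 0) continuous_gapG.continuousOn
        (fun y hy => hasDerivAt_gapG (lt_of_le_of_lt hx hy.1))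
        (fun y hy => (m' y (lt_of_le_of_lt hx hy.1) (by linarith [hy.2])).1 hy.2.le)
      simpa [g0.1] using this (left_mem_Icc.2 h) (right_mem_Icc.2 h) h
    · have := monotoneOn_of (a := 0) (b := x) continuous_gapG.continuousOn
        (fun y hy => hasDerivAt_gapG (by linarith [hy.1]))
        (fun y hy => (m' y (by linarith [hy.1]) (by linarith [hy.2])).2 hy.1.le)
      simpa [g0.1] using this (left_mem_Icc.2 h) (right_mem_Icc.2 h) h
  -- the right piece
  have right : ∀ x, b ≤ x → x ≤ 3 → 0 ≤ gapG x := by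
    intro x hx hx3
    have mono := monotoneOn_of (continuousOn_gapG' (b := 3) (show (-1 : ℝ) < b by linarith))
      (fun y hy => hasDerivAt_gapG' (by linarith [hy.1]))
      (fun y hy => up y (by linarith [hy.1]) (Or.inr hy.1.le))
    have := antitoneOn_of (a := x) (b := 3) continuous_gapG.continuousOn
      (fun y hy => hasDerivAt_gapG (by linarith [hy.1]))
      (fun y hy => (mono ⟨by linarith [hy.1], hy.2.le⟩ (right_mem_Icc.2 hb3) hy.2.le).trans
        gapG_three.2)
    exact gapG_three.1.trans (this (left_mem_Icc.2 hx3) (right_mem_Icc.2 hx3) hx3)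
  rcases le_total t a with hta | hat
  · exact left t h0 hta
  rcases le_total b t with hbt | htb
  · exact right t hbt h3
  -- the concave piece
  have anti := antitoneOn_of (continuousOn_gapG' (b := b) (show (-1 : ℝ) < a by linarith))
    (fun y hy => hasDerivAt_gapG' (by linarith [hy.1]))
    (fun y hy => down y (by linarith [hy.1]) hy.1.le hy.2.le)
  rcases le_total 0 (gapG' t) with h | h
  · have := monotoneOn_of (a := a) (b := t) continuous_gapG.continuousOn
      (fun y hy => hasDerivAt_gapG (by linarith [hy.1]))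
      (fun y hy => h.trans (anti ⟨hy.1.le, by linarith [hy.2]⟩ ⟨hat, htb⟩ hy.2.le))
    exact (left a (by linarith) le_rfl).trans (this (left_mem_Icc.2 hat) (right_mem_Icc.2 hat) hat)
  · have := antitoneOn_of (a := t) (b := b) continuous_gapG.continuousOn
      (fun y hy => hasDerivAt_gapG (by linarith [hy.1]))
      (fun y hy => (anti ⟨hat, htb⟩ ⟨by linarith [hy.1], hy.2.le⟩ hy.1.le).trans h)
    exact (right b le_rfl hb3).trans (this (left_mem_Icc.2 htb) (right_mem_Icc.2 htb) htb)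

theorem qG_le {t : ℝ} (h0 : -1 ≤ t) (h3 : t ≤ 3) : qG t ≤ (1 + t) * log (1 + t) := by
  have := gapG_nonneg h0 h3
  unfold gapG at this
  linarith

/-- The polynomial upper bound of the potential. -/
theorem phi4_le {u : Fin 4 → ℝ} (h0 : ∀ i, 0 ≤ u i) (h1 : ∑ i, u i = 1) :
    phi4 u ≤ Tree.sqDev u - (∑ i, qG (4 * u i - 1)) / 8 := by
  have : (∑ i, qG (4 * u i - 1)) / 4 ≤ dent u := by
    rw [dent, Finset.sum_div]
    refine Finset.sum_le_sum fun i _ => ?_
    have := qG_le (t := 4 * u i - 1) (by linarith [h0 i]) (by linarith [le_one_of_simplex h0 h1 i])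
    rw [show (1 : ℝ) + (4 * u i - 1) = 4 * u i by ring] at this
    linarith
  unfold phi4
  linarith

end Vale.Agent.P154.Q4
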