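import Vale.Agent.P154.Q4.GExprs

/-!
# The kernel checks for the subadditivity polynomial on the ten pairs of sectors
-/

namespace Vale.Agent.P154.Q4

open Q3 (check)

theorem cert00 : check 120 12 12 15 (gSec 0 0) = true := by decide +kernel
theorem cert01 : check 120 12 12 15 (gSec 0 1) = true := by decide +kernel
theorem cert02 : check 120 12 12 15 (gSec 0 2) = true := by decide +kernel
theorem cert03 : check 120 12 12 15 (gSec 0 3) = true := by decide +kernel
theorem cert11 : check 120 12 12 15 (gSec 1 1) = true := by decide +kernel
theorem cert12 : check 120 12 12 15 (gSec 1 2) = true := by decide +kernel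
theorem cert13 : check 120 12 12 15 (gSec 1 3) = true := by decide +kernel
theorem cert22 : check 120 12 12 15 (gSec 2 2) = true := by decide +kernel
theorem cert23 : check 120 12 12 15 (gSec 2 3) = true := by decide +kernel
theorem cert33 : check 120 12 12 15 (gSec 3 3) = true := by decide +kernel
theorem certK : ∀ i, check 48 8 1 6 (kSec i) = true := by decide +kernel

end Vale.Agent.P154.Q4
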