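import Vale.Agent.P154.Q3.Kron

/-!
# The subadditivity polynomial for four states

`gH u v` is homogeneous of bidegree `(11, 11)`. On the simplex it is a positive multiple of the
defect in the subadditivity inequality, after the one-sided polynomial bounds.
-/

namespace Vale.Agent.P154.Q4

section Hom

variable {R : Type} [Add R] [Mul R] [Sub R] (k : ℤ → R)

/-- The sum of the four coordinates. -/
def totT (a b c d : R) : R := a + b + c + d

/-- The second power sum of the centred coordinates `4 a - U`. -/
def m2T (a b c d : R) : R :=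
  let U := totT a b c d
  let x := k 4 * a - U
  let y := k 4 * b - U
  let z := k 4 * c - U
  let w := k 4 * d - U
  x * x + y * y + z * z + w * w

/-- The third power sum of the centred coordinates. -/
def m3T (a b c d : R) : R :=
  let U := totT a b c d
  let x := k 4 * a - U
  let y := k 4 * b - U
  let z := k 4 * c - U
  let w := k 4 * d - U
  x * x * x + y * y * y + z * z * z + w * w * w

/-- The fourth power sum of the centred coordinates. -/
def m4T (a b c d : R) : R :=
  let U := totT a b c d
  let x := k 4 * a - U
  let y := k 4 * b - U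
  let z := k 4 * c - U
  let w := k 4 * d - U
  x * x * (x * x) + y * y * (y * y) + z * z * (z * z) + w * w * (w * w)

/-- One summand of the bound on the potential, of degree seven. -/
def phiTerm (U x : R) : R :=
  x * x * x * (k 250000 * (U * U * (U * U)) + x * (k (-125000) * (U * U * U)
    + x * (k 75000 * (U * U) + x * (k (-27147) * U + k 3600 * x))))

/-- `12000000` times the upper bound of the potential. -/
def phiT (a b c d : R) : R :=
  let U := totT a b c d
  phiTerm k U (k 4 * a - U) + phiTerm k U (k 4 * b - U) + phiTerm k U (k 4 * c - U)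
    + phiTerm k U (k 4 * d - U)

/-- `6912` times the weight `K`, of degree seven. -/
def wK (a b c d : R) : R :=
  let U := totT a b c d
  let U2 := U * U
  let p := m2T k a b c d
  let t := m3T k a b c d
  let f := m4T k a b c d
  k 3456 * (p * (U2 * (U2 * U))) + k 306 * (p * p * (U2 * U)) + k (-432) * (t * (U2 * U2))
    + k (-1440) * (f * (U2 * U)) + k (-24) * (p * p * p * U) + k 324 * (p * t * U2)
    + k (-1) * (p * p * t)

/-- `4 (N r(W) + W e(W))`, homogenised with `X`. -/
def hWN (X W N : R) : R :=
  let X2 := X * X
  let X4 := X2 * X2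
  N * (((((k (-1) * W + k 8 * X) * W + k (-26) * X2) * W + k 44 * (X2 * X)) * W + k (-41) * X4) * W
      + k 20 * (X4 * X))
    + W * ((((((k 1 * W + k (-8) * X) * W + k 26 * X2) * W + k (-44) * (X2 * X)) * W + k 41 * X4) * W
      + k (-20) * (X4 * X)) * W + k 4 * (X4 * X2))

/-- `hWN` at a pairing of the coordinates. -/
def hPair (X a b c d a' b' c' d' : R) : R :=
  let z0 := k 4 * (a * a')
  let z1 := k 4 * (b * b')
  let z2 := k 4 * (c * c')
  let z3 := k 4 * (d * d')
  hWN k X (z0 + z1 + z2 + z3) (z0 * z0 + z1 * z1 + z2 * z2 + z3 * z3)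

/-- The sum over the six orders of the last three arguments. -/
def sum3 (g : R → R → R → R) (a b c : R) : R :=
  g a b c + g a c b + g b a c + g b c a + g c a b + g c b a

/-- The sum over the twenty-four orders. -/
def sum4 (g : R → R → R → R → R) (a b c d : R) : R :=
  sum3 (g a) b c d + sum3 (g b) a c d + sum3 (g c) a b d + sum3 (g d) a b c

/-- The subadditivity polynomial of bidegree `(7, 7)`. -/
def gCore (a b c d a' b' c' d' : R) : R :=
  let U := totT a b c d
  let V := totT a' b' c' d'
  let U2 := U * U
  let V2 := V * V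
  let U3 := U2 * U
  let V3 := V2 * V
  let p := m2T k a b c d
  let p' := m2T k a' b' c' d'
  k 20736000000 * (p * (U3 * U2) * (V3 * (V2 * V2)) + p' * (V3 * V2) * (U3 * (U2 * U2)))
    + k 82944000000 * (U3 * (U2 * U2) * (V3 * (V2 * V2)))
    + k (-3456000000) * sum4 (hPair k (U * V) a b c d) a' b' c' d'
    + k (-4) * (phiT k a b c d * wK k a' b' c' d' + wK k a b c d * phiT k a' b' c' d')
    + k (-50625) * (p * p * U3 * (p' * p' * V3))

/-- The subadditivity polynomial, elevated to bidegree `(11, 11)`. -/
def gH (a b c d a' b' c' d' : R) : R :=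
  let U := totT a b c d
  let V := totT a' b' c' d'
  let X := U * V
  gCore k a b c d a' b' c' d' * (X * X * (X * X))

end Hom

open Q3 in
/-- The four sectors, as expressions in three variables. -/
def sec (x y z : Ex) : Fin 4 → Fin 4 → Ex :=
  ![![x + y + z, x + y + z, y + z, z],
    ![y + z, y + z, x + y + z, z],
    ![z, z, x + y + z, y + z],
    ![Ex.num 0 * x, x + y + z, y + z, z]]

open Q3 in
/-- `gH` on a pair of sectors. -/
def gSec (i j : Fin 4) : Ex :=
  let u := sec (Ex.var 0) (Ex.var 1) (Ex.var 2) i
  let v := sec (Ex.var 3) (Ex.var 4) (Ex.var 5) j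
  gH Ex.num (u 0) (u 1) (u 2) (u 3) (v 0) (v 1) (v 2) (v 3)

open Q3 in
/-- `wK` on a sector, padded by a trivial second degree. -/
def kSec (i : Fin 4) : Ex :=
  let u := sec (Ex.var 0) (Ex.var 1) (Ex.var 2) i
  wK Ex.num (u 0) (u 1) (u 2) (u 3)

end Vale.Agent.P154.Q4
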