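import Vale.Agent.P154.Q4.Phi
import Vale.Agent.P154.Tree.Criterion
import Vale.Agent.P154.Tree.Laws
import Mathlib.Data.Fin.VecNotation

/-!
# Four states: from the two pointwise inequalities to the criterion
-/

namespace Vale.Agent.P154.Q4

open Finset Vale.Agent.P154.Tree

/-- The two pointwise inequalities, summed over the `24` relabellings of the second factor. -/
structure Pair4 (K L : (Fin 4 → ℝ) → ℝ) (c M : ℝ) : Prop where
  cnn : 0 ≤ c
  kBd : ∀ u : Fin 4 → ℝ, (∀ i, 0 ≤ u i) → ∑ i, u i = 1 → 0 ≤ K u ∧ K u ≤ M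
  lBd : ∀ u : Fin 4 → ℝ, (∀ i, 0 ≤ u i) → ∑ i, u i = 1 → 0 ≤ L u ∧ L u ≤ M
  pairS : ∀ u v : Fin 4 → ℝ, (∀ i, 0 ≤ u i) → ∑ i, u i = 1 → (∀ i, 0 ≤ v i) → ∑ i, v i = 1 →
    ∑ s : Equiv.Perm (Fin 4), homExt sqDev (fun i => u i * v (s i))
      ≤ 6 * (sqDev u + sqDev v - (phi4 u * K v + K u * phi4 v) - c * (sqDev u * sqDev v) ^ 2)
  pairPhi : ∀ u v : Fin 4 → ℝ, (∀ i, 0 ≤ u i) → ∑ i, u i = 1 → (∀ i, 0 ≤ v i) → ∑ i, v i = 1 →
    6 * (phi4 u * L v + L u * phi4 v)
      ≤ ∑ s : Equiv.Perm (Fin 4), homExt phi4 (fun i => u i * v (s i))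

variable {ι κ : Type}

theorem total_scale (a : ℝ) (f : (Fin 4 → ℝ) → ℝ) (X : ι → Fin 4 → ℝ) :
    total (homExt fun u => a * f u) X = a * total (homExt f) X := by
  simp only [total, homExt]
  rw [← tsum_mul_left]
  exact tsum_congr fun o => by ring

theorem total_const {X : ι → Fin 4 → ℝ} (hX : IsChan X) :
    total (homExt fun _ => (1 : ℝ)) X = 4 := by
  simp only [total, homExt, mul_one]
  simpa using hX.hasSum_mass.tsum_eq

theorem total_nonneg4 {X : ι → Fin 4 → ℝ} (hX : IsChan X) {f : (Fin 4 → ℝ) → ℝ}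
    (hf : ∀ u : Fin 4 → ℝ, (∀ i, 0 ≤ u i) → ∑ i, u i = 1 → 0 ≤ f u) :
    0 ≤ total (homExt f) X := by
  refine tsum_nonneg fun o => ?_
  rcases eq_or_ne (∑ i, X o i) 0 with h | h
  · simp [homExt, h]
  · obtain ⟨u0, u1⟩ := exists_unit (hX.nonneg o) h
    exact mul_nonneg (hX.mass_nonneg o) (hf _ u0 u1)

theorem sqDev_bd {u : Fin 4 → ℝ} (h0 : ∀ i, 0 ≤ u i) (h1 : ∑ i, u i = 1) :
    0 ≤ sqDev u ∧ sqDev u ≤ 1 ∧ 0 ≤ sqDev u ^ 2 ∧ sqDev u ^ 2 ≤ 1 := by
  have a : 0 ≤ sqDev u := sum_nonneg fun i _ => sq_nonneg _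
  have b := sqDev_le_one h0 h1
  exact ⟨a, b, sq_nonneg _, pow_le_one₀ a b⟩

theorem total_SS_sq_ge {X : ι → Fin 4 → ℝ} (hX : IsChan X) :
    1 / 4 * total SS X ^ 2 ≤ total (homExt fun u => sqDev u ^ 2) X := by
  set t := 1 / 4 * total SS X with ht
  have hA : MassBdd (homExt fun u : Fin 4 → ℝ => sqDev u ^ 2) :=
    massBdd_homExt (K := 1) fun u h0 h1 => by
      obtain ⟨-, -, a, b⟩ := sqDev_bd h0 h1
      rwa [abs_of_nonneg a]
  have hS : HasSum (fun o => SS (X o)) (total SS X) := (hX.summable massBdd_SS).hasSum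
  have hR := (hS.mul_left (2 * t)).sub (hX.hasSum_mass.mul_left (t ^ 2))
  have hle := hasSum_le (fun o => ?_) hR (hX.summable hA).hasSum
  · refine le_trans (le_of_eq ?_) hle
    rw [ht]
    push_cast
    ring
  · simp only [SS, homExt]
    nlinarith [mul_nonneg (hX.mass_nonneg o)
      (sq_nonneg (sqDev (fun i => X o i / ∑ j, X o j) - t))]

namespace Pair4

variable {K L : (Fin 4 → ℝ) → ℝ} {c M : ℝ}

theorem mul_phi (h : Pair4 K L c M) {X : ι → Fin 4 → ℝ} {Y : κ → Fin 4 → ℝ} (hX : IsChan X)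
    (hY : IsChan Y) (hYs : IsSymm Y) (hXp : 0 ≤ total (homExt phi4) X)
    (hYp : 0 ≤ total (homExt phi4) Y) : 0 ≤ total (homExt phi4) (mulChan X Y) := by
  have key := total_mul_le_simplex hX hY hYs (F := fun u => (-1) * phi4 u) (K := 7)
    (fun u h0 h1 => by simpa using abs_phi4_le h0 h1)
    ![fun u => (-1 / 4) * phi4 u, L] ![L, fun u => (-1 / 4) * phi4 u]
    (Kf := max 7 M) (Kg := max 7 M) (fun l u h0 h1 => ?_) (fun l u h0 h1 => ?_)
    (fun u v u0 u1 v0 v1 => ?_)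
  · simp only [total_scale, Fin.sum_univ_two, Matrix.cons_val_zero, Matrix.cons_val_one] at key
    have a := total_nonneg4 hX fun u a b => (h.lBd u a b).1
    have b := total_nonneg4 hY fun u a b => (h.lBd u a b).1
    nlinarith [mul_nonneg hXp b, mul_nonneg a hYp]
  iterate 2
    obtain ⟨a, b⟩ := h.lBd u h0 h1
    have p := abs_le.1 (abs_phi4_le h0 h1)
    have m1 := le_max_left (7 : ℝ) M
    have m2 := le_max_right (7 : ℝ) M
    fin_cases l <;> simp only [Fin.zero_eta, Fin.mk_one, Fin.isValue, Matrix.cons_val_zero,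
      Matrix.cons_val_one, abs_le] <;> constructor <;> linarith [p.1, p.2]
  · have := h.pairPhi u v u0 u1 v0 v1
    have e : ∀ x : Fin 4 → ℝ, homExt (fun u => (-1) * phi4 u) x = (-1) * homExt phi4 x :=
      fun x => by simp only [homExt]; ring
    simp only [e, ← mul_sum, Fin.sum_univ_two, Matrix.cons_val_zero, Matrix.cons_val_one]
    norm_num [Nat.factorial]
    linarith

theorem mul_SS (h : Pair4 K L c M) {X : ι → Fin 4 → ℝ} {Y : κ → Fin 4 → ℝ} (hX : IsChan X)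
    (hY : IsChan Y) (hYs : IsSymm Y) (hXp : 0 ≤ total (homExt phi4) X)
    (hYp : 0 ≤ total (homExt phi4) Y) :
    total SS (mulChan X Y)
      ≤ total SS X + total SS Y - c / 64 * (total SS X * total SS Y) ^ 2 := by
  have key := total_mul_le_simplex hX hY hYs (F := sqDev) (K := 1)
    (fun u h0 h1 => by
      obtain ⟨a, b, -⟩ := sqDev_bd h0 h1
      rwa [abs_of_nonneg a])
    ![fun u => (1 / 4) * sqDev u, fun _ => 1, fun u => (-1 / 4) * phi4 u, K,
      fun u => (-c / 4) * sqDev u ^ 2]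
    ![fun _ => 1, fun u => (1 / 4) * sqDev u, K, fun u => (-1 / 4) * phi4 u,
      fun u => sqDev u ^ 2]
    (Kf := 7 + |M| + |c|) (Kg := 7 + |M| + |c|)
    (fun l u h0 h1 => ?_) (fun l u h0 h1 => ?_) (fun u v u0 u1 v0 v1 => ?_)
  · simp only [total_scale, Fin.sum_univ_five, Matrix.cons_val_zero, Matrix.cons_val_one,
      Matrix.cons_val, total_const hX, total_const hY] at key
    have a := total_nonneg4 hX fun u a b => (h.kBd u a b).1
    have b := total_nonneg4 hY fun u a b => (h.kBd u a b).1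
    have sX := total_SS_sq_ge hX
    have sY := total_SS_sq_ge hY
    have hq := mul_le_mul_of_nonneg_left
      (mul_le_mul sX sY (by positivity) (le_trans (by positivity) sX)) h.cnn
    change total SS (mulChan X Y) ≤ _ at key
    rw [show total (homExt sqDev) X = total SS X from rfl,
      show total (homExt sqDev) Y = total SS Y from rfl] at key
    nlinarith [mul_nonneg hXp b, mul_nonneg a hYp]
  iterate 2
    obtain ⟨a, b⟩ := h.kBd u h0 h1
    obtain ⟨s0, s1, s2, s3⟩ := sqDev_bd h0 h1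
    have p := abs_le.1 (abs_phi4_le h0 h1)
    have := le_abs_self M
    have := abs_nonneg M
    have := abs_nonneg c
    have := mul_le_of_le_one_right h.cnn s3
    have := mul_nonneg h.cnn s2
    have := abs_of_nonneg h.cnn
    fin_cases l <;> simp only [Fin.zero_eta, Fin.mk_one, Fin.reduceFinMk, Fin.isValue,
      Matrix.cons_val_zero, Matrix.cons_val_one, Matrix.cons_val, abs_le] <;>
      constructor <;> linarith [p.1, p.2]
  · have := h.pairS u v u0 u1 v0 v1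
    simp only [Fin.sum_univ_five, Matrix.cons_val_zero, Matrix.cons_val_one, Matrix.cons_val]
    norm_num [Nat.factorial]
    linarith

theorem good (h : Pair4 K L c M) {lam : ℝ} (h0 : 0 ≤ lam) (h1 : lam ≤ 1) :
    Good 4 lam phi4 (c / 64) 2 where
  bdd := ⟨7, fun _ a b => abs_phi4_le a b⟩
  uniform := homExt_phi4_uniform.ge
  leaf := leaf_phi4
  edge _ _ hY _ hYp := edge_phi4 h0 h1 hY hYp
  mulPhi _ _ _ _ hX _ hXp hY hYs hYp :=
    h.mul_phi hX (hY.edge' (adm_of_unit h0 h1)) (hYs.edge' lam) hXp (edge_phi4 h0 h1 hY hYp)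
  mulSS _ _ _ _ hX _ hXp hY hYs hYp :=
    h.mul_SS hX (hY.edge' (adm_of_unit h0 h1)) (hYs.edge' lam) hXp (edge_phi4 h0 h1 hY hYp)

/-- Nonreconstruction for the ferromagnetic four-state channel on Galton-Watson trees. -/
theorem tendsto_adv_four (h : Pair4 K L c M) (hc : 0 < c) {w : ℕ → ℝ} {d lam : ℝ}
    (hw : IsLaw w d) (h0 : 0 ≤ lam) (h1 : lam ≤ 1)
    (hd : d * lam ^ 2 < 1 ∨ (d * lam ^ 2 ≤ 1 ∧ 0 < branchProb w)) :
    Filter.Tendsto (adv 4 w lam) Filter.atTop (nhds 0) :=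
  tendsto_adv_zero (h.good h0 h1) (by positivity) hw (adm_of_unit h0 h1)
    (hd.imp id fun e => ⟨e.1, by positivity, e.2⟩)

end Pair4

end Vale.Agent.P154.Q4
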