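import Vale.Agent.P154.Q4.Half

/-!
# Symmetric polynomials of degree at most seven in four variables on the simplex

Such a polynomial is affine in `psum 4` once `psum 2` and `psum 3` are fixed, so the half-degree
lemma applies to it.
-/

namespace Vale.Agent.P154.Q4

open Finset

/-- Functions given on the plane `∑ u = 1` by a polynomial of weight at most `k` in the power
sums of index `2, 3, 4`. -/
inductive Wt : ℕ → ((Fin 4 → ℝ) → ℝ) → Prop
  | const (k : ℕ) (c : ℝ) : Wt k fun _ => c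
  | gen {k : ℕ} (j : ℕ) (h2 : 2 ≤ j) (h4 : j ≤ 4) (hk : j ≤ k) : Wt k (psum j)
  | add {k : ℕ} {F G : (Fin 4 → ℝ) → ℝ} : Wt k F → Wt k G → Wt k fun u => F u + G u
  | mul {k a b : ℕ} {F G : (Fin 4 → ℝ) → ℝ} :
      Wt a F → Wt b G → a + b ≤ k → Wt k fun u => F u * G u
  | congr {k : ℕ} {F G : (Fin 4 → ℝ) → ℝ} :
      Wt k F → (∀ u : Fin 4 → ℝ, ∑ i, u i = 1 → G u = F u) → Wt k G

namespace Wt

theorem mono {k : ℕ} {F : (Fin 4 → ℝ) → ℝ} (h : Wt k F) : ∀ {l : ℕ}, k ≤ l → Wt l F := by
  induction h with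
  | const k c => exact fun _ => Wt.const _ c
  | gen j h2 h4 hk => exact fun hl => Wt.gen j h2 h4 (hk.trans hl)
  | add _ _ iF iG => exact fun hl => Wt.add (iF hl) (iG hl)
  | mul hF hG hab _ _ => exact fun hl => Wt.mul hF hG (hab.trans hl)
  | congr _ he iF => exact fun hl => Wt.congr (iF hl) he

theorem smul {k : ℕ} {F : (Fin 4 → ℝ) → ℝ} (h : Wt k F) (c : ℝ) : Wt k fun u => c * F u :=
  Wt.mul (Wt.const 0 c) h (zero_add k).le

theorem sum {ι : Type} {k : ℕ} (s : Finset ι) {F : ι → (Fin 4 → ℝ) → ℝ}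
    (h : ∀ j ∈ s, Wt k (F j)) : Wt k fun u => ∑ j ∈ s, F j u := by
  classical
  induction s using Finset.induction_on with
  | empty => simpa using Wt.const k 0
  | insert a s ha ih =>
    simp only [sum_insert ha]
    exact (h a (mem_insert_self a s)).add (ih fun j hj => h j (mem_insert_of_mem hj))

theorem psum_one {u : Fin 4 → ℝ} (h : ∑ i, u i = 1) : psum 1 u = 1 := by simpa [psum] using h

theorem psum_step (m : ℕ) (u : Fin 4 → ℝ) (h : ∑ i, u i = 1) :
    psum (m + 4) u = psum (m + 3) u - (1 - psum 2 u) / 2 * psum (m + 2) u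
      + (1 - 3 * psum 2 u + 2 * psum 3 u) / 6 * psum (m + 1) u
      - (1 - 6 * psum 2 u + 3 * psum 2 u ^ 2 + 8 * psum 3 u - 6 * psum 4 u) / 24 * psum m u := by
  have h1 := psum_one h
  have root : ∀ i, u i ^ 4 = psum 1 u * u i ^ 3
      - (psum 1 u ^ 2 - psum 2 u) / 2 * u i ^ 2
      + (psum 1 u ^ 3 - 3 * psum 1 u * psum 2 u + 2 * psum 3 u) / 6 * u i
      - (psum 1 u ^ 4 - 6 * psum 1 u ^ 2 * psum 2 u + 3 * psum 2 u ^ 2
          + 8 * psum 1 u * psum 3 u - 6 * psum 4 u) / 24 := by
    intro i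
    simp only [psum_eq]
    fin_cases i <;> simp <;> ring
  simp only [h1, one_pow, one_mul, mul_one] at root
  have e : ∀ k, psum k u = ∑ i, u i ^ k := fun _ => rfl
  rw [e (m + 4), e (m + 3), e (m + 2), e (m + 1), e m, mul_sum, mul_sum, mul_sum,
    ← sum_sub_distrib, ← sum_add_distrib, ← sum_sub_distrib]
  refine sum_congr rfl fun i _ => ?_
  have := root i
  rw [show u i ^ (m + 4) = u i ^ m * u i ^ 4 by rw [pow_add], this]
  ring

theorem psum_wt : ∀ m : ℕ, m ≤ 7 → Wt m (psum m) := by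
  intro m
  induction m using Nat.strong_induction_on with
  | _ m ih =>
    intro hm
    by_cases h4 : m ≤ 4
    · interval_cases m
      · exact (Wt.const 0 4).congr fun u _ => by simp [psum]
      · exact (Wt.const 1 1).congr fun u h => psum_one h
      all_goals exact Wt.gen _ (by norm_num) (by norm_num) le_rfl
    · obtain ⟨n, rfl⟩ : ∃ n, m = n + 4 := ⟨m - 4, by omega⟩
      have e2 : Wt 2 fun u => (1 - psum 2 u) / 2 :=
        ((Wt.const 2 (1 / 2)).add ((Wt.gen 2 le_rfl (by norm_num) le_rfl).smul (-1 / 2))).congr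
          fun u _ => by ring
      have e3 : Wt 3 fun u => (1 - 3 * psum 2 u + 2 * psum 3 u) / 6 :=
        (((Wt.const 3 (1 / 6)).add ((Wt.gen 2 le_rfl (by norm_num) (by norm_num)).smul (-1 / 2))).add
          ((Wt.gen 3 (by norm_num) (by norm_num) le_rfl).smul (1 / 3))).congr fun u _ => by ring
      have e4 : Wt 4 fun u =>
          (1 - 6 * psum 2 u + 3 * psum 2 u ^ 2 + 8 * psum 3 u - 6 * psum 4 u) / 24 :=
        (((((Wt.const 4 (1 / 24)).add
          ((Wt.gen 2 le_rfl (by norm_num) (by norm_num)).smul (-1 / 4))).add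
          ((Wt.mul (k := 4) (Wt.gen 2 le_rfl (by norm_num) le_rfl)
            (Wt.gen 2 le_rfl (by norm_num) le_rfl) (by norm_num)).smul (1 / 8))).add
          ((Wt.gen 3 (by norm_num) (by norm_num) (by norm_num)).smul (1 / 3))).add
          ((Wt.gen 4 (by norm_num) le_rfl le_rfl).smul (-1 / 4))).congr fun u _ => by ring
      have a3 := (ih (n + 3) (by omega) (by omega)).mono (l := n + 4) (by omega)
      have a2 := Wt.mul (k := n + 4) e2 (ih (n + 2) (by omega) (by omega)) (by omega)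
      have a1 := Wt.mul (k := n + 4) e3 (ih (n + 1) (by omega) (by omega)) (by omega)
      have a0 := Wt.mul (k := n + 4) e4 (ih n (by omega) (by omega)) (by omega)
      exact (((a3.add (a2.smul (-1))).add a1).add (a0.smul (-1))).congr fun u h => by
        rw [psum_step n u h]
        ring

/-- Weight at most seven means affine in `psum 4`. -/
theorem split {k : ℕ} {F : (Fin 4 → ℝ) → ℝ} (h : Wt k F) :
    (k ≤ 3 → ∃ f : ℝ → ℝ → ℝ, ∀ u : Fin 4 → ℝ, ∑ i, u i = 1 → F u = f (psum 2 u) (psum 3 u)) ∧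
    (k ≤ 7 → ∃ f g : ℝ → ℝ → ℝ, ∀ u : Fin 4 → ℝ, ∑ i, u i = 1 →
      F u = f (psum 2 u) (psum 3 u) + g (psum 2 u) (psum 3 u) * psum 4 u) := by
  induction h with
  | const k c =>
    exact ⟨fun _ => ⟨fun _ _ => c, fun u _ => rfl⟩,
      fun _ => ⟨fun _ _ => c, fun _ _ => 0, fun u _ => by ring⟩⟩
  | gen j h2 h4 hk =>
    interval_cases j
    · exact ⟨fun _ => ⟨fun s _ => s, fun u _ => rfl⟩,
        fun _ => ⟨fun s _ => s, fun _ _ => 0, fun u _ => by ring⟩⟩
    · exact ⟨fun _ => ⟨fun _ t => t, fun u _ => rfl⟩,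
        fun _ => ⟨fun _ t => t, fun _ _ => 0, fun u _ => by ring⟩⟩
    · exact ⟨fun h => absurd (hk.trans h) (by norm_num),
        fun _ => ⟨fun _ _ => 0, fun _ _ => 1, fun u _ => by ring⟩⟩
  | add _ _ iF iG =>
    refine ⟨fun h => ?_, fun h => ?_⟩
    · obtain ⟨f, hf⟩ := iF.1 h
      obtain ⟨f', hf'⟩ := iG.1 h
      exact ⟨fun s t => f s t + f' s t, fun u hu => by simp only [hf u hu, hf' u hu]⟩
    · obtain ⟨f, g, hf⟩ := iF.2 h
      obtain ⟨f', g', hf'⟩ := iG.2 h
      exact ⟨fun s t => f s t + f' s t, fun s t => g s t + g' s t,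
        fun u hu => by simp only [hf u hu, hf' u hu]; ring⟩
  | @mul k a b F G _ _ hab iF iG =>
    refine ⟨fun h => ?_, fun h => ?_⟩
    · obtain ⟨f, hf⟩ := iF.1 (by omega)
      obtain ⟨f', hf'⟩ := iG.1 (by omega)
      exact ⟨fun s t => f s t * f' s t, fun u hu => by simp only [hf u hu, hf' u hu]⟩
    · rcases Nat.lt_or_ge a 4 with ha | ha
      · obtain ⟨f, hf⟩ := iF.1 (by omega)
        obtain ⟨f', g', hf'⟩ := iG.2 (by omega)
        exact ⟨fun s t => f s t * f' s t, fun s t => f s t * g' s t,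
          fun u hu => by simp only [hf u hu, hf' u hu]; ring⟩
      · obtain ⟨f, g, hf⟩ := iF.2 (by omega)
        obtain ⟨f', hf'⟩ := iG.1 (by omega)
        exact ⟨fun s t => f s t * f' s t, fun s t => g s t * f' s t,
          fun u hu => by simp only [hf u hu, hf' u hu]; ring⟩
  | congr _ he iF =>
    refine ⟨fun h => ?_, fun h => ?_⟩
    · obtain ⟨f, hf⟩ := iF.1 h
      exact ⟨f, fun u hu => by rw [he u hu, hf u hu]⟩
    · obtain ⟨f, g, hf⟩ := iF.2 h
      exact ⟨f, g, fun u hu => by rw [he u hu, hf u hu]⟩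

end Wt

/-- The symmetrised monomial. -/
def symMono (e : Fin 4 → ℕ) (u : Fin 4 → ℝ) : ℝ :=
  ∑ s : Equiv.Perm (Fin 4), ∏ i, u (s i) ^ e i

theorem symMono_comp (e : Fin 4 → ℕ) (p : Equiv.Perm (Fin 4)) (u : Fin 4 → ℝ) :
    symMono (e ∘ p) u = symMono e u := by
  rw [symMono, symMono, ← Equiv.sum_comp (Equiv.mulRight p)]
  exact sum_congr rfl fun s _ => Equiv.prod_comp p fun i => u (s i) ^ e i

theorem psum_mul_symMono (a : ℕ) (e : Fin 4 → ℕ) (u : Fin 4 → ℝ) :
    psum a u * symMono e u = ∑ j, symMono (e + Pi.single j a) u := by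
  simp only [symMono]
  rw [sum_comm, mul_sum]
  refine sum_congr rfl fun s _ => ?_
  rw [psum, ← Equiv.sum_comp s fun i => u i ^ a, sum_mul]
  refine sum_congr rfl fun j _ => ?_
  simp only [Pi.add_apply, pow_add, prod_mul_distrib]
  rw [mul_comm, prod_eq_single (f := fun i => u (s i) ^ (Pi.single j a : Fin 4 → ℕ) i) j
    (fun i _ hi => by simp [hi]) (fun h => absurd (mem_univ j) h), Pi.single_eq_same]

theorem symMono_wt (e : Fin 4 → ℕ) (he : ∑ i, e i ≤ 7) : Wt (∑ i, e i) (symMono e) := by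
  obtain ⟨n, hn⟩ : ∃ n, (univ.filter fun i => e i ≠ 0).card = n := ⟨_, rfl⟩
  induction n using Nat.strong_induction_on generalizing e with
  | _ n ih =>
    by_cases hz : ∀ i, e i = 0
    · exact (Wt.const _ 24).congr fun u _ => by
        simp [symMono, hz, Fintype.card_perm, Nat.factorial]
    obtain ⟨i₀, hi₀⟩ := not_forall.1 hz
    obtain ⟨e', he'⟩ : ∃ e', Function.update e i₀ 0 = e' := ⟨_, rfl⟩
    have hsub : univ.filter (fun i => e' i ≠ 0) = (univ.filter fun i => e i ≠ 0).erase i₀ := by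
      ext i
      by_cases h : i = i₀ <;> simp [← he', h]
    have hcard : (univ.filter fun i => e' i ≠ 0).card < n := by
      rw [hsub, ← hn]
      exact card_erase_lt_of_mem (by simp [hi₀])
    have hs : ∑ i, e' i + e i₀ = ∑ i, e i := by
      rw [← he', Fintype.sum_eq_add_sum_compl i₀, Fintype.sum_eq_add_sum_compl i₀ e]
      simp only [Function.update_self, zero_add]
      rw [add_comm]
      congr 1
      refine sum_congr rfl fun i hi => ?_
      rw [Function.update_of_ne (by simpa using hi)]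
    set Z := univ.filter fun i => e' i = 0 with hZ
    set N := univ.filter fun i => e' i ≠ 0 with hN
    have hZne : (Z.card : ℝ) ≠ 0 := by
      have : i₀ ∈ Z := by simp [hZ, ← he']
      exact Nat.cast_ne_zero.2 (card_pos.2 ⟨i₀, this⟩).ne'
    have hZj : ∀ j ∈ Z, ∀ u, symMono (e' + Pi.single j (e i₀)) u = symMono e u := by
      intro j hj u
      have hj' : e' j = 0 := by simpa [hZ] using hj
      rw [← symMono_comp e (Equiv.swap i₀ j) u]
      congr 1
      funext i
      rcases eq_or_ne i j with h | h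
      · subst h
        simp [hj']
      rcases eq_or_ne i i₀ with h' | h'
      · subst h'
        have : e j = 0 := by simpa [← he', Ne.symm h] using hj'
        simp [← he', h, this]
      · simp [← he', h, h', Equiv.swap_apply_of_ne_of_ne h' h]
    have w1 : Wt (∑ i, e i) fun u => psum (e i₀) u * symMono e' u :=
      Wt.mul (Wt.psum_wt _ (by omega)) (ih _ hcard e' (by omega) rfl) (by omega)
    have w2 : Wt (∑ i, e i) fun u => ∑ j ∈ N, symMono (e' + Pi.single j (e i₀)) u := by
      refine Wt.sum N fun j hj => ?_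
      have hsum : ∑ i, (e' + Pi.single j (e i₀) : Fin 4 → ℕ) i = ∑ i, e i := by
        simp [sum_add_distrib, hs]
      have hj' : e' j ≠ 0 := by simpa [hN] using hj
      have hsame : univ.filter (fun i => (e' + Pi.single j (e i₀) : Fin 4 → ℕ) i ≠ 0) = N := by
        ext i
        rcases eq_or_ne i j with h | h
        · subst h
          simp [hN, hj']
        · simp [hN, h]
      have := ih _ hcard (e' + Pi.single j (e i₀)) (by omega) (by rw [hsame])
      rwa [hsum] at this
    refine ((w1.add (w2.smul (-1))).smul (1 / (Z.card : ℝ))).congr fun u _ => ?_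
    have key := psum_mul_symMono (e i₀) e' u
    rw [← sum_filter_add_sum_filter_not univ (fun i => e' i = 0)] at key
    rw [← hZ, sum_congr rfl fun j hj => hZj j hj u, sum_const, nsmul_eq_mul] at key
    rw [key]
    field_simp
    ring

/-- Polynomial functions of degree at most `k`. -/
inductive Deg : ℕ → ((Fin 4 → ℝ) → ℝ) → Prop
  | const (k : ℕ) (c : ℝ) : Deg k fun _ => c
  | coord {k : ℕ} (i : Fin 4) (hk : 1 ≤ k) : Deg k fun u => u i
  | add {k : ℕ} {F G : (Fin 4 → ℝ) → ℝ} : Deg k F → Deg k G → Deg k fun u => F u + G u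
  | mul {k a b : ℕ} {F G : (Fin 4 → ℝ) → ℝ} :
      Deg a F → Deg b G → a + b ≤ k → Deg k fun u => F u * G u

namespace Deg

theorem mono {k : ℕ} {F : (Fin 4 → ℝ) → ℝ} (h : Deg k F) : ∀ {l : ℕ}, k ≤ l → Deg l F := by
  induction h with
  | const k c => exact fun _ => Deg.const _ c
  | coord i hk => exact fun hl => Deg.coord i (hk.trans hl)
  | add _ _ iF iG => exact fun hl => Deg.add (iF hl) (iG hl)
  | mul hF hG hab _ _ => exact fun hl => Deg.mul hF hG (hab.trans hl)

theorem smul {k : ℕ} {F : (Fin 4 → ℝ) → ℝ} (h : Deg k F) (c : ℝ) : Deg k fun u => c * F u :=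
  Deg.mul (Deg.const 0 c) h (zero_add k).le

theorem sub {k : ℕ} {F G : (Fin 4 → ℝ) → ℝ} (hF : Deg k F) (hG : Deg k G) :
    Deg k fun u => F u - G u := by
  simpa [sub_eq_add_neg] using hF.add (hG.smul (-1))

theorem pow {k a : ℕ} {F : (Fin 4 → ℝ) → ℝ} (hF : Deg a F) :
    ∀ n : ℕ, a * n ≤ k → Deg k fun u => F u ^ n
  | 0, _ => by simpa using Deg.const k 1
  | n + 1, h => by
    simp only [pow_succ]
    exact Deg.mul (pow (k := a * n) hF n le_rfl) hF (by rw [Nat.mul_succ] at h; omega)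

theorem sum {ι : Type} {k : ℕ} (s : Finset ι) {F : ι → (Fin 4 → ℝ) → ℝ}
    (h : ∀ j ∈ s, Deg k (F j)) : Deg k fun u => ∑ j ∈ s, F j u := by
  classical
  induction s using Finset.induction_on with
  | empty => simpa using Deg.const k 0
  | insert a s ha ih =>
    simp only [sum_insert ha]
    exact (h a (mem_insert_self a s)).add (ih fun j hj => h j (mem_insert_of_mem hj))

end Deg

/-- Symmetrising against a monomial keeps the weight. -/
def SymOK (k : ℕ) (F : (Fin 4 → ℝ) → ℝ) : Prop :=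
  ∀ e : Fin 4 → ℕ, ∑ i, e i + k ≤ 7 →
    Wt (∑ i, e i + k) fun u => ∑ s : Equiv.Perm (Fin 4), F (u ∘ s) * ∏ i, u (s i) ^ e i

theorem Deg.symOK {k : ℕ} {F : (Fin 4 → ℝ) → ℝ} (h : Deg k F) :
    ∀ (l : ℕ) (G : (Fin 4 → ℝ) → ℝ), SymOK l G → SymOK (k + l) fun u => F u * G u := by
  induction h with
  | const k c =>
    intro l G hG e he
    refine (((hG e (by omega)).smul c).mono (by omega)).congr fun u _ => ?_
    rw [mul_sum]
    exact sum_congr rfl fun s _ => by ring
  | @coord k i hk =>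
    intro l G hG e he
    have hsum : ∑ j, (e + Pi.single i 1 : Fin 4 → ℕ) j = ∑ j, e j + 1 := by
      simp [sum_add_distrib]
    refine ((hG (e + Pi.single i 1) (by omega)).mono (by omega)).congr fun u _ => ?_
    refine sum_congr rfl fun s _ => ?_
    simp only [Pi.add_apply, pow_add, prod_mul_distrib, Function.comp_apply]
    rw [prod_eq_single (f := fun j => u (s j) ^ (Pi.single i 1 : Fin 4 → ℕ) j) i
      (fun j _ hj => by simp [hj]) (fun h => absurd (mem_univ i) h), Pi.single_eq_same]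
    ring
  | add _ _ iF iG =>
    intro l G hG e he
    refine ((iF l G hG e he).add (iG l G hG e he)).congr fun u _ => ?_
    rw [← sum_add_distrib]
    exact sum_congr rfl fun s _ => by ring
  | @mul k a b F F' _ _ hab iF iG =>
    intro l G hG e he
    refine ((iF (b + l) _ (iG l G hG) e (by omega)).mono (by omega)).congr fun u _ => ?_
    exact sum_congr rfl fun s _ => by ring

theorem symOK_one : SymOK 0 fun _ => 1 := fun e he => by
  exact (symMono_wt e (by omega)).congr fun u _ => by simp [symMono]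

/-- A symmetric polynomial of degree at most seven which is nonnegative on the two families is
nonnegative on the simplex. -/
theorem nonneg_of_families {F : (Fin 4 → ℝ) → ℝ} (hF : Deg 7 F)
    (hsym : ∀ (u : Fin 4 → ℝ) (s : Equiv.Perm (Fin 4)), F (u ∘ s) = F u)
    (hpair : ∀ a b c : ℝ, 0 ≤ a → 0 ≤ b → 0 ≤ c → a + a + b + c = 1 → 0 ≤ F ![a, a, b, c])
    (hzero : ∀ a b c : ℝ, 0 ≤ a → 0 ≤ b → 0 ≤ c → a + b + c = 1 → 0 ≤ F ![0, a, b, c])
    {u : Fin 4 → ℝ} (h0 : ∀ i, 0 ≤ u i) (h1 : ∑ i, u i = 1) : 0 ≤ F u := by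
  have w := (hF.symOK 0 _ symOK_one) (fun _ => 0) (by simp)
  obtain ⟨f, g, hfg⟩ := w.split.2 (by simp)
  have key : ∀ x : Fin 4 → ℝ, ∑ i, x i = 1 →
      F x = f (psum 2 x) (psum 3 x) / 24 + g (psum 2 x) (psum 3 x) / 24 * psum 4 x := by
    intro x hx
    have := hfg x hx
    simp [hsym, Fintype.card_perm, Nat.factorial] at this
    linarith
  rw [key u h1]
  refine half_degree_families (f₀ := fun s t => f s t / 24) (f₁ := fun s t => g s t / 24)
    (fun a b c ha hb hc hs => ?_) (fun a b c ha hb hc hs => ?_) h0 h1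
  · have := key ![a, a, b, c] (by simp [Fin.sum_univ_four]; linarith)
    exact this ▸ hpair a b c ha hb hc hs
  · have := key ![0, a, b, c] (by simp [Fin.sum_univ_four]; linarith)
    exact this ▸ hzero a b c ha hb hc hs

end Vale.Agent.P154.Q4
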