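import Vale.Agent.P154.Q4.GExprs
import Vale.Agent.P154.Q4.Sym

/-!
# Reduction to the four sectors
-/

namespace Vale.Agent.P154.Q4

open Finset

/-- The images of the twenty-four permutations. -/
theorem perms_eq :
    (univ : Finset (Equiv.Perm (Fin 4))).val.map (fun s => (s 0, s 1, s 2, s 3)) =
      ↑([(0,1,2,3), (0,1,3,2), (0,2,1,3), (0,2,3,1), (0,3,1,2), (0,3,2,1),
        (1,0,2,3), (1,0,3,2), (1,2,0,3), (1,2,3,0), (1,3,0,2), (1,3,2,0),
        (2,0,1,3), (2,0,3,1), (2,1,0,3), (2,1,3,0), (2,3,0,1), (2,3,1,0),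
        (3,0,1,2), (3,0,2,1), (3,1,0,2), (3,1,2,0), (3,2,0,1), (3,2,1,0)]
          : List (Fin 4 × Fin 4 × Fin 4 × Fin 4)) := by
  decide +kernel

theorem sum_perm4 (g : ℝ → ℝ → ℝ → ℝ → ℝ) (v : Fin 4 → ℝ) :
    ∑ s : Equiv.Perm (Fin 4), g (v (s 0)) (v (s 1)) (v (s 2)) (v (s 3))
      = sum4 g (v 0) (v 1) (v 2) (v 3) := by
  have := congrArg (fun m : Multiset (Fin 4 × Fin 4 × Fin 4 × Fin 4) =>
    (m.map fun p => g (v p.1) (v p.2.1) (v p.2.2.1) (v p.2.2.2)).sum) perms_eq
  simp only [Multiset.map_map, Function.comp_def, Multiset.map_coe, Multiset.sum_coe] at this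
  rw [Finset.sum]
  refine this.trans ?_
  simp [sum4, sum3]
  ring

/-- The real sector points. -/
def secR (x y z : ℝ) : Fin 4 → Fin 4 → ℝ :=
  ![![x + y + z, x + y + z, y + z, z],
    ![y + z, y + z, x + y + z, z],
    ![z, z, x + y + z, y + z],
    ![0, x + y + z, y + z, z]]

open Q3 in
theorem ev_sec (p : Fin 6 → ℝ) (a b c : Ex) (i j : Fin 4) :
    Ex.ev p (sec a b c i j) = secR (Ex.ev p a) (Ex.ev p b) (Ex.ev p c) i j := by
  fin_cases i <;> fin_cases j <;> simp [sec, secR]

/-- Points of the four sectors inside the simplex. -/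
def InSec (i : Fin 4) (u : Fin 4 → ℝ) : Prop :=
  ∃ x y z : ℝ, 0 ≤ x ∧ 0 ≤ y ∧ 0 ≤ z ∧ u = secR x y z i

theorem InSec.nonneg {i : Fin 4} {u : Fin 4 → ℝ} (h : InSec i u) : ∀ j, 0 ≤ u j := by
  obtain ⟨x, y, z, hx, hy, hz, rfl⟩ := h
  intro j
  fin_cases i <;> fin_cases j <;> simp [secR] <;> positivity

/-- A symmetric function which is nonnegative on the four sectors is nonnegative on the two
families. -/
theorem families_of_sectors {F : (Fin 4 → ℝ) → ℝ}
    (hsym : ∀ (u : Fin 4 → ℝ) (s : Equiv.Perm (Fin 4)), F (u ∘ s) = F u)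
    (h : ∀ i u, InSec i u → ∑ j, u j = 1 → 0 ≤ F u) :
    (∀ a b c : ℝ, 0 ≤ a → 0 ≤ b → 0 ≤ c → a + a + b + c = 1 → 0 ≤ F ![a, a, b, c]) ∧
      (∀ a b c : ℝ, 0 ≤ a → 0 ≤ b → 0 ≤ c → a + b + c = 1 → 0 ≤ F ![0, a, b, c]) := by
  have sw : ∀ (i j : Fin 4) (a b c d : ℝ),
      F (![a, b, c, d] ∘ Equiv.swap i j) = F ![a, b, c, d] := fun _ _ _ _ _ _ => hsym _ _
  refine ⟨fun a b c ha hb hc hs => ?_, fun a b c ha hb hc hs => ?_⟩
  · suffices key : ∀ a b c : ℝ, 0 ≤ a → 0 ≤ c → c ≤ b → a + a + b + c = 1 →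
        0 ≤ F ![a, a, b, c] by
      rcases le_total c b with hcb | hbc
      · exact key a b c ha hc hcb hs
      · have e := sw 2 3 a a b c
        rw [show ![a, a, b, c] ∘ Equiv.swap (2 : Fin 4) 3 = ![a, a, c, b] by
          funext k; fin_cases k <;> simp [Equiv.swap_apply_def]] at e
        rw [← e]
        exact key a c b ha hb hbc (by linarith)
    intro a b c ha hc hcb hs
    have hs' : ∑ j, ![a, a, b, c] j = 1 := by simp [Fin.sum_univ_four]; linarith
    rcases le_total b a with hba | hab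
    · exact h 0 _ ⟨a - b, b - c, c, by linarith, by linarith, hc, by
        funext k; fin_cases k <;> simp [secR]⟩ hs'
    rcases le_total c a with hca | hac
    · exact h 1 _ ⟨b - a, a - c, c, by linarith, by linarith, hc, by
        funext k; fin_cases k <;> simp [secR]⟩ hs'
    · exact h 2 _ ⟨b - c, c - a, a, by linarith, by linarith, ha, by
        funext k; fin_cases k <;> simp [secR]⟩ hs'
  · suffices key : ∀ a b c : ℝ, 0 ≤ c → c ≤ b → b ≤ a → a + b + c = 1 → 0 ≤ F ![0, a, b, c] by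
      have p12 : ∀ a b c : ℝ, F ![0, b, a, c] = F ![0, a, b, c] := fun a b c => by
        rw [← sw 1 2 0 a b c]
        congr 1
        funext k; fin_cases k <;> simp [Equiv.swap_apply_def]
      have p23 : ∀ a b c : ℝ, F ![0, a, c, b] = F ![0, a, b, c] := fun a b c => by
        rw [← sw 2 3 0 a b c]
        congr 1
        funext k; fin_cases k <;> simp [Equiv.swap_apply_def]
      rcases le_total b a with h1 | h1 <;> rcases le_total c b with h2 | h2 <;>
        rcases le_total c a with h3 | h3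
      all_goals first
        | exact key a b c hc (by linarith) (by linarith) hs
        | (rw [← p23]; exact key a c b hb (by linarith) (by linarith) (by linarith))
        | (rw [← p12]; exact key b a c hc (by linarith) (by linarith) (by linarith))
        | (rw [← p12, ← p23]; exact key b c a ha (by linarith) (by linarith) (by linarith))
        | (rw [← p23, ← p12]; exact key c a b hb (by linarith) (by linarith) (by linarith))
        | (rw [← p23, ← p12, ← p23]; exact key c b a ha (by linarith) (by linarith) (by linarith))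
    intro a b c hc hcb hba hs
    exact h 3 _ ⟨a - b, b - c, c, by linarith, by linarith, hc, by
      funext k; fin_cases k <;> simp [secR]⟩ (by simp [Fin.sum_univ_four]; linarith)

/-- A symmetric polynomial of degree at most seven which is nonnegative on the four sectors is
nonnegative on the simplex. -/
theorem nonneg_of_sectors {F : (Fin 4 → ℝ) → ℝ} (hF : Deg 7 F)
    (hsym : ∀ (u : Fin 4 → ℝ) (s : Equiv.Perm (Fin 4)), F (u ∘ s) = F u)
    (h : ∀ i u, InSec i u → ∑ j, u j = 1 → 0 ≤ F u)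
    {u : Fin 4 → ℝ} (h0 : ∀ i, 0 ≤ u i) (h1 : ∑ i, u i = 1) : 0 ≤ F u := by
  obtain ⟨hp, hz⟩ := families_of_sectors hsym h
  exact nonneg_of_families hF hsym hp hz h0 h1

end Vale.Agent.P154.Q4
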