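import Vale.Agent.P154.Q4.GCerts
import Vale.Agent.P154.Q4.GBound
import Vale.Agent.P154.Q4.Sectors
import Vale.Agent.P154.Q4.Good4

/-!
# The pointwise subadditivity inequality for four states

For all `u`, `v` on the simplex,
`∑ s, homExt sqDev (u ∘ v_s) ≤ 6 * (S u + S v - phi4 u * K v - K u * phi4 v - c (S u * S v) ^ 2)`
with `c = 1 / 100` and the polynomial weight `K = wgtK`.
-/

namespace Vale.Agent.P154.Q4

open Finset Q3 Vale.Agent.P154.Tree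

/-- Cast of integer constants. -/
def kR (z : ℤ) : ℝ := (z : ℝ)

section EvHom

variable (p : Fin 6 → ℝ) (a b c d a' b' c' d' X W N : Ex)

theorem ev_totT : Ex.ev p (totT a b c d)
    = totT (Ex.ev p a) (Ex.ev p b) (Ex.ev p c) (Ex.ev p d) := by simp [totT]

theorem ev_m2T : Ex.ev p (m2T Ex.num a b c d)
    = m2T kR (Ex.ev p a) (Ex.ev p b) (Ex.ev p c) (Ex.ev p d) := by simp [m2T, ev_totT, kR]

theorem ev_m3T : Ex.ev p (m3T Ex.num a b c d)
    = m3T kR (Ex.ev p a) (Ex.ev p b) (Ex.ev p c) (Ex.ev p d) := by simp [m3T, ev_totT, kR]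

theorem ev_m4T : Ex.ev p (m4T Ex.num a b c d)
    = m4T kR (Ex.ev p a) (Ex.ev p b) (Ex.ev p c) (Ex.ev p d) := by simp [m4T, ev_totT, kR]

theorem ev_phiTerm : Ex.ev p (phiTerm Ex.num X W)
    = phiTerm kR (Ex.ev p X) (Ex.ev p W) := by simp [phiTerm, kR]

theorem ev_phiT : Ex.ev p (phiT Ex.num a b c d)
    = phiT kR (Ex.ev p a) (Ex.ev p b) (Ex.ev p c) (Ex.ev p d) := by
  simp [phiT, ev_totT, ev_phiTerm, kR]

theorem ev_wK : Ex.ev p (wK Ex.num a b c d)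
    = wK kR (Ex.ev p a) (Ex.ev p b) (Ex.ev p c) (Ex.ev p d) := by
  simp [wK, ev_totT, ev_m2T, ev_m3T, ev_m4T, kR]

theorem ev_hWN : Ex.ev p (hWN Ex.num X W N)
    = hWN kR (Ex.ev p X) (Ex.ev p W) (Ex.ev p N) := by simp [hWN, kR]

theorem ev_hPair : Ex.ev p (hPair Ex.num X a b c d a' b' c' d')
    = hPair kR (Ex.ev p X) (Ex.ev p a) (Ex.ev p b) (Ex.ev p c) (Ex.ev p d)
      (Ex.ev p a') (Ex.ev p b') (Ex.ev p c') (Ex.ev p d') := by simp [hPair, ev_hWN, kR]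

theorem ev_sum4 (g : Ex → Ex → Ex → Ex → Ex) (g' : ℝ → ℝ → ℝ → ℝ → ℝ)
    (hg : ∀ x y z w, Ex.ev p (g x y z w) = g' (Ex.ev p x) (Ex.ev p y) (Ex.ev p z) (Ex.ev p w)) :
    Ex.ev p (sum4 g a b c d) = sum4 g' (Ex.ev p a) (Ex.ev p b) (Ex.ev p c) (Ex.ev p d) := by
  simp [sum4, sum3, hg]

theorem ev_gH : Ex.ev p (gH Ex.num a b c d a' b' c' d')
    = gH kR (Ex.ev p a) (Ex.ev p b) (Ex.ev p c) (Ex.ev p d)
      (Ex.ev p a') (Ex.ev p b') (Ex.ev p c') (Ex.ev p d') := by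
  have := ev_sum4 p a' b' c' d' (hPair Ex.num (totT a b c d * totT a' b' c' d') a b c d)
    (hPair kR (Ex.ev p (totT a b c d * totT a' b' c' d')) (Ex.ev p a) (Ex.ev p b) (Ex.ev p c)
      (Ex.ev p d)) fun x y z w => ev_hPair p a b c d x y z w _
  simp [gH, gCore, ev_totT, ev_m2T, ev_phiT, ev_wK, this, kR]

end EvHom

/-- Power sums of the centred coordinates. -/
def mR (k : ℕ) (u : Fin 4 → ℝ) : ℝ := ∑ i, (4 * u i - 1) ^ k

/-- `12000000` times the upper bound of the potential. -/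
def phiR (u : Fin 4 → ℝ) : ℝ := ∑ i, phiTerm kR 1 (4 * u i - 1)

/-- `6912` times the weight. -/
def wKR (u : Fin 4 → ℝ) : ℝ :=
  3456 * mR 2 u + 306 * mR 2 u ^ 2 - 432 * mR 3 u - 1440 * mR 4 u - 24 * mR 2 u ^ 3
    + 324 * (mR 2 u * mR 3 u) - mR 2 u ^ 2 * mR 3 u

/-- The weight `K`. -/
noncomputable def wgtK (u : Fin 4 → ℝ) : ℝ := wKR u / 6912

/-- `4 * Z`, where `Z` is the mass of the pairing. -/
def wPair (u v : Fin 4 → ℝ) : ℝ := ∑ i, 4 * (u i * v i)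

/-- Sum of squares of the pairing. -/
def nPair (u v : Fin 4 → ℝ) : ℝ := ∑ i, (4 * (u i * v i)) ^ 2

/-- The subadditivity polynomial on the simplex. -/
def gR (u v : Fin 4 → ℝ) : ℝ :=
  20736000000 * (mR 2 u + mR 2 v) + 82944000000
    - 3456000000 * ∑ s : Equiv.Perm (Fin 4), hWN kR 1 (wPair u (v ∘ s)) (nPair u (v ∘ s))
    - 4 * (phiR u * wKR v + wKR u * phiR v) - 50625 * (mR 2 u ^ 2 * mR 2 v ^ 2)

theorem totT_eq {u : Fin 4 → ℝ} (hu : ∑ i, u i = 1) : totT (u 0) (u 1) (u 2) (u 3) = 1 := by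
  rw [← hu, Fin.sum_univ_four]; rfl

theorem parts_eq {u : Fin 4 → ℝ} (hu : ∑ i, u i = 1) :
    m2T kR (u 0) (u 1) (u 2) (u 3) = mR 2 u ∧ phiT kR (u 0) (u 1) (u 2) (u 3) = phiR u ∧
      wK kR (u 0) (u 1) (u 2) (u 3) = wKR u := by
  refine ⟨?_, ?_, ?_⟩ <;>
    simp [m2T, m3T, m4T, phiT, phiR, wK, wKR, mR, totT_eq hu, Fin.sum_univ_four, kR] <;> ring

theorem gH_eq {u v : Fin 4 → ℝ} (hu : ∑ i, u i = 1) (hv : ∑ i, v i = 1) :
    gH kR (u 0) (u 1) (u 2) (u 3) (v 0) (v 1) (v 2) (v 3) = gR u v := by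
  obtain ⟨a1, a2, a3⟩ := parts_eq hu
  obtain ⟨b1, b2, b3⟩ := parts_eq hv
  have e : sum4 (hPair kR 1 (u 0) (u 1) (u 2) (u 3)) (v 0) (v 1) (v 2) (v 3)
      = ∑ s : Equiv.Perm (Fin 4), hWN kR 1 (wPair u (v ∘ s)) (nPair u (v ∘ s)) := by
    rw [← sum_perm4]
    refine sum_congr rfl fun s _ => ?_
    simp [hPair, wPair, nPair, Fin.sum_univ_four, kR, sq]
  simp only [gH, gCore, totT_eq hu, totT_eq hv, a1, a2, a3, b1, b2, b3, mul_one, e]
  simp [gR, kR]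
  ring

theorem gR_comm (u v : Fin 4 → ℝ) : gR u v = gR v u := by
  have e : ∑ s : Equiv.Perm (Fin 4), hWN kR 1 (wPair u (v ∘ s)) (nPair u (v ∘ s))
      = ∑ s : Equiv.Perm (Fin 4), hWN kR 1 (wPair v (u ∘ s)) (nPair v (u ∘ s)) := by
    rw [← Equiv.sum_comp (Equiv.inv (Equiv.Perm (Fin 4)))]
    refine sum_congr rfl fun s _ => ?_
    simp only [wPair, nPair, Function.comp_apply, Equiv.inv_apply]
    rw [← Equiv.sum_comp s, ← Equiv.sum_comp s (fun i => (4 * (u i * v (s⁻¹ i))) ^ 2)]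
    simp [mul_comm]
  simp only [gR, e]
  ring

theorem gR_comp (u v : Fin 4 → ℝ) (σ : Equiv.Perm (Fin 4)) : gR (u ∘ σ) v = gR u v := by
  have m : ∀ k, mR k (u ∘ σ) = mR k u := fun k => Equiv.sum_comp σ fun i => (4 * u i - 1) ^ k
  have f : phiR (u ∘ σ) = phiR u := Equiv.sum_comp σ fun i => phiTerm kR 1 (4 * u i - 1)
  have e : ∑ s : Equiv.Perm (Fin 4), hWN kR 1 (wPair (u ∘ σ) (v ∘ s)) (nPair (u ∘ σ) (v ∘ s))
      = ∑ s : Equiv.Perm (Fin 4), hWN kR 1 (wPair u (v ∘ s)) (nPair u (v ∘ s)) := by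
    rw [← Equiv.sum_comp (Equiv.mulRight σ)]
    refine sum_congr rfl fun s _ => ?_
    congr 1
    · exact Equiv.sum_comp σ fun i => 4 * (u i * v (s i))
    · exact Equiv.sum_comp σ fun i => (4 * (u i * v (s i))) ^ 2
  simp only [gR, wKR, m, f, e]

theorem deg_mR (k : ℕ) : Deg k (mR k) :=
  Deg.sum univ fun i _ =>
    ((((Deg.coord i le_rfl).smul 4).sub (Deg.const 1 1))).pow k (one_mul k).le

theorem deg_phiR : Deg 7 phiR := by
  refine Deg.sum univ fun i _ => ?_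
  have l : Deg 1 fun u : Fin 4 → ℝ => 4 * u i - 1 := ((Deg.coord i le_rfl).smul 4).sub (Deg.const 1 1)
  have e : (fun u : Fin 4 → ℝ => phiTerm kR 1 (4 * u i - 1)) = fun u => 250000 * (4 * u i - 1) ^ 3
      + (-125000) * (4 * u i - 1) ^ 4 + 75000 * (4 * u i - 1) ^ 5 + (-27147) * (4 * u i - 1) ^ 6
      + 3600 * (4 * u i - 1) ^ 7 := by
    funext u
    simp [phiTerm, kR]
    ring
  rw [e]
  exact (((((l.pow 3 (by norm_num)).smul 250000).add ((l.pow 4 (by norm_num)).smul (-125000))).add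
    ((l.pow 5 (by norm_num)).smul 75000)).add ((l.pow 6 (by norm_num)).smul (-27147))).add
    ((l.pow 7 (by norm_num)).smul 3600)

theorem deg_wKR : Deg 7 wKR :=
  ((((((deg_mR 2).mono (by norm_num)).smul 3456).add (((deg_mR 2).pow 2 (by norm_num)).smul 306)).sub
    (((deg_mR 3).mono (by norm_num)).smul 432)).sub (((deg_mR 4).mono (by norm_num)).smul 1440)).sub
    (((deg_mR 2).pow 3 (by norm_num)).smul 24) |>.add
    ((Deg.mul (k := 7) (deg_mR 2) (deg_mR 3) (by norm_num)).smul 324) |>.sub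
    (Deg.mul (k := 7) ((deg_mR 2).pow (k := 4) 2 le_rfl) (deg_mR 3) (by norm_num))

theorem deg_gR (v : Fin 4 → ℝ) : Deg 7 fun u => gR u v := by
  have hh : ∀ s : Equiv.Perm (Fin 4),
      Deg 7 fun u => hWN kR 1 (wPair u (v ∘ s)) (nPair u (v ∘ s)) := by
    intro s
    have w : Deg 1 fun u => wPair u (v ∘ s) := Deg.sum univ fun i _ =>
      (Deg.mul (k := 1) (Deg.coord (k := 1) i le_rfl) (Deg.const 0 ((v ∘ s) i)) le_rfl).smul 4
    have n : Deg 2 fun u => nPair u (v ∘ s) := Deg.sum univ fun i _ =>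
      ((Deg.mul (k := 1) (Deg.coord (k := 1) i le_rfl) (Deg.const 0 ((v ∘ s) i)) le_rfl).smul 4).pow 2
        le_rfl
    have e : (fun u => hWN kR 1 (wPair u (v ∘ s)) (nPair u (v ∘ s))) = fun u =>
        nPair u (v ∘ s) * ((-1) * wPair u (v ∘ s) ^ 5 + 8 * wPair u (v ∘ s) ^ 4
          + (-26) * wPair u (v ∘ s) ^ 3 + 44 * wPair u (v ∘ s) ^ 2 + (-41) * wPair u (v ∘ s) + 20)
        + (wPair u (v ∘ s) ^ 7 + (-8) * wPair u (v ∘ s) ^ 6 + 26 * wPair u (v ∘ s) ^ 5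
          + (-44) * wPair u (v ∘ s) ^ 4 + 41 * wPair u (v ∘ s) ^ 3 + (-20) * wPair u (v ∘ s) ^ 2
          + 4 * wPair u (v ∘ s)) := by
      funext u
      simp [hWN, kR]
      ring
    rw [e]
    have hp : ∀ j, j ≤ 5 → Deg 5 fun u => wPair u (v ∘ s) ^ j := fun j hj => w.pow j (by omega)
    have hq : ∀ j, j ≤ 7 → Deg 7 fun u => wPair u (v ∘ s) ^ j := fun j hj => w.pow j (by omega)
    refine (Deg.mul (k := 7) (b := 5) n ?_ (by norm_num)).add ?_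
    · exact ((((((hp 5 le_rfl).smul (-1)).add ((hp 4 (by norm_num)).smul 8)).add
        ((hp 3 (by norm_num)).smul (-26))).add ((hp 2 (by norm_num)).smul 44)).add
        ((w.mono (by norm_num)).smul (-41))).add (Deg.const 5 20)
    · exact (((((((hq 7 le_rfl)).add ((hq 6 (by norm_num)).smul (-8))).add
        ((hq 5 (by norm_num)).smul 26)).add ((hq 4 (by norm_num)).smul (-44))).add
        ((hq 3 (by norm_num)).smul 41)).add ((hq 2 (by norm_num)).smul (-20))).add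
        ((w.mono (by norm_num)).smul 4)
  refine ((((((((deg_mR 2).mono (by norm_num)).add (Deg.const 7 (mR 2 v))).smul 20736000000).add
    (Deg.const 7 82944000000)).sub ((Deg.sum univ fun s _ => hh s).smul 3456000000)).sub
    (((Deg.mul (k := 7) deg_phiR (Deg.const 0 (wKR v)) le_rfl).add
      (Deg.mul (k := 7) deg_wKR (Deg.const 0 (phiR v)) le_rfl)).smul 4)).sub
    ((Deg.mul (k := 7) ((deg_mR 2).pow (k := 4) 2 le_rfl) (Deg.const 0 (mR 2 v ^ 2))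
      (by norm_num)).smul 50625))

theorem cert : ∀ i j : Fin 4, i ≤ j → check 120 12 12 15 (gSec i j) = true
  | 0, 0, _ => cert00
  | 0, 1, _ => cert01
  | 0, 2, _ => cert02
  | 0, 3, _ => cert03
  | 1, 0, h => absurd h (by decide)
  | 1, 1, _ => cert11
  | 1, 2, _ => cert12
  | 1, 3, _ => cert13
  | 2, 0, h => absurd h (by decide)
  | 2, 1, h => absurd h (by decide)
  | 2, 2, _ => cert22
  | 2, 3, _ => cert23
  | 3, 0, h => absurd h (by decide)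
  | 3, 1, h => absurd h (by decide)
  | 3, 2, h => absurd h (by decide)
  | 3, 3, _ => cert33

theorem gR_nonneg_sec {i j : Fin 4} {u v : Fin 4 → ℝ} (hu : InSec i u) (hv : InSec j v)
    (hu1 : ∑ k, u k = 1) (hv1 : ∑ k, v k = 1) : 0 ≤ gR u v := by
  suffices key : ∀ i j : Fin 4, i ≤ j → ∀ u v, InSec i u → InSec j v → ∑ k, u k = 1 →
      ∑ k, v k = 1 → 0 ≤ gR u v by
    rcases le_total i j with h | h
    · exact key i j h u v hu hv hu1 hv1
    · rw [gR_comm]; exact key j i h v u hv hu hv1 hu1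
  rintro i j hij u v ⟨x, y, z, hx, hy, hz, rfl⟩ ⟨x', y', z', hx', hy', hz', rfl⟩ hu1 hv1
  have := ev_nonneg_of_check (cert i j hij) ![x, y, z, x', y', z'] (fun k => by
    fin_cases k <;> simpa)
  rw [← gH_eq hu1 hv1]
  simpa [gSec, ev_gH, ev_sec] using this

theorem gR_nonneg {u v : Fin 4 → ℝ} (hu : ∀ i, 0 ≤ u i) (hu1 : ∑ i, u i = 1)
    (hv : ∀ i, 0 ≤ v i) (hv1 : ∑ i, v i = 1) : 0 ≤ gR u v := by
  refine nonneg_of_sectors (deg_gR v) (fun u σ => gR_comp u v σ) (fun i x hx hx1 => ?_) hu hu1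
  rw [gR_comm]
  exact nonneg_of_sectors (deg_gR x) (fun w σ => gR_comp w x σ)
    (fun j y hy hy1 => gR_nonneg_sec hy hx hy1 hx1) hv hv1

theorem wgtK_bd {u : Fin 4 → ℝ} (hu : ∀ i, 0 ≤ u i) (hu1 : ∑ i, u i = 1) :
    0 ≤ wgtK u ∧ wgtK u ≤ 1000000 := by
  have lo : 0 ≤ wKR u := by
    refine nonneg_of_sectors deg_wKR (fun u σ => ?_) (fun i x hx hx1 => ?_) hu hu1
    · have m : ∀ k, mR k (u ∘ σ) = mR k u := fun k => Equiv.sum_comp σ fun i => (4 * u i - 1) ^ k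
      simp only [wKR, m]
    obtain ⟨a, b, c, ha, hb, hc, rfl⟩ := hx
    have := ev_nonneg_of_check (certK i) ![a, b, c, 0, 0, 0] (fun k => by
      fin_cases k <;> simp [ha, hb, hc])
    rw [← (parts_eq hx1).2.2]
    simpa [kSec, ev_wK, ev_sec] using this
  have hi : ∀ k ≤ 4, |mR k u| ≤ 324 := by
    intro k hk
    refine (abs_sum_le_sum_abs _ _).trans ?_
    have : ∀ i, |(4 * u i - 1) ^ k| ≤ 81 := fun i => by
      rw [abs_pow]
      have := le_one_of_simplex hu hu1 i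
      calc |4 * u i - 1| ^ k ≤ (3 : ℝ) ^ k :=
            pow_le_pow_left₀ (abs_nonneg _) (by rw [abs_le]; constructor <;> linarith [hu i]) k
        _ ≤ 3 ^ 4 := pow_le_pow_right₀ (by norm_num) hk
        _ = 81 := by norm_num
    exact (sum_le_sum fun i _ => this i).trans (by norm_num)
  refine ⟨div_nonneg lo (by norm_num), ?_⟩
  rw [wgtK, div_le_iff₀ (by norm_num)]
  have a := abs_le.1 (hi 2 (by norm_num))
  have b := abs_le.1 (hi 3 (by norm_num))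
  have c := abs_le.1 (hi 4 le_rfl)
  have p2 : mR 2 u ^ 2 ≤ 324 ^ 2 := sq_le_sq' a.1 a.2
  have p0 : 0 ≤ mR 2 u := sum_nonneg fun i _ => sq_nonneg _
  have p3 : 0 ≤ mR 2 u ^ 3 := pow_nonneg p0 3
  unfold wKR
  nlinarith [sq_nonneg (mR 2 u)]

/-- The pairing inequality behind the rational bound. -/
theorem homExt_sqDev_le {z : Fin 4 → ℝ} (hz : ∀ i, 0 ≤ z i) :
    homExt sqDev z ≤ hWN kR 1 (∑ i, 4 * z i) (∑ i, (4 * z i) ^ 2) / 16 - (∑ i, 4 * z i) / 16 := by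
  set Z := ∑ i, z i with hZ
  have e : ∑ i, 4 * z i = 4 * Z := (mul_sum _ _ _).symm
  have hN : ∑ i, (4 * z i) ^ 2 = 16 * ∑ i, z i ^ 2 := by
    rw [mul_sum]; exact sum_congr rfl fun i _ => by ring
  rw [e, hN]
  rcases eq_or_ne Z 0 with h | h
  · have h0 : ∀ i, z i = 0 := fun i =>
      (sum_eq_zero_iff_of_nonneg fun j _ => hz j).1 (hZ ▸ h) i (mem_univ i)
    simp [homExt, h, h0, hWN]
  have hp : 0 < Z := lt_of_le_of_ne (sum_nonneg fun i _ => hz i) (Ne.symm h)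
  have ev : homExt sqDev z = (∑ i, z i ^ 2) / Z - Z / 4 := by
    have hs : Z = z 0 + z 1 + z 2 + z 3 := by rw [hZ, Fin.sum_univ_four]
    simp only [homExt, sqDev, ← hZ, Fin.sum_univ_four]
    push_cast
    field_simp
    rw [hs]
    ring
  have hN' : ∑ i, z i ^ 2 ≤ Z ^ 2 := sum_sq_le_sq_sum_of_nonneg fun i _ => hz i
  have id : hWN kR 1 (4 * Z) (16 * ∑ i, z i ^ 2) - 16 * ((∑ i, z i ^ 2) / Z)
      = 4 / Z * (1 - 4 * Z) ^ 4 * (2 - 4 * Z) ^ 2 * (Z ^ 2 - ∑ i, z i ^ 2) := by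
    simp [hWN, kR]
    field_simp
    ring
  have : 0 ≤ 4 / Z * (1 - 4 * Z) ^ 4 * (2 - 4 * Z) ^ 2 * (Z ^ 2 - ∑ i, z i ^ 2) :=
    mul_nonneg (by positivity) (sub_nonneg.2 hN')
  rw [ev]
  linarith

/-- The pointwise subadditivity inequality. -/
theorem pairS_wgtK (u v : Fin 4 → ℝ) (hu : ∀ i, 0 ≤ u i) (hu1 : ∑ i, u i = 1)
    (hv : ∀ i, 0 ≤ v i) (hv1 : ∑ i, v i = 1) :
    ∑ s : Equiv.Perm (Fin 4), homExt sqDev (fun i => u i * v (s i))
      ≤ 6 * (sqDev u + sqDev v - (phi4 u * wgtK v + wgtK u * phi4 v)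
          - 1 / 100 * (sqDev u * sqDev v) ^ 2) := by
  have hS : ∀ x : Fin 4 → ℝ, sqDev x = mR 2 x / 16 := fun x => by
    rw [sqDev, mR, sum_div]
    exact sum_congr rfl fun i _ => by push_cast; ring
  have hphi : ∀ x : Fin 4 → ℝ, (∀ i, 0 ≤ x i) → ∑ i, x i = 1 → phi4 x ≤ phiR x / 12000000 := by
    intro x x0 x1
    refine (phi4_le x0 x1).trans (le_of_eq ?_)
    have hl : ∑ i, (4 * x i - 1) = 0 := by simp [← mul_sum, x1]
    have : ∑ i, qG (4 * x i - 1) = (∑ i, (4 * x i - 1) ^ 2) / 2 - phiR x / 1500000 := by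
      rw [← add_zero ((∑ i, (4 * x i - 1) ^ 2) / 2 - _), ← hl, phiR, sum_div, sum_div,
        ← sum_sub_distrib, ← sum_add_distrib]
      exact sum_congr rfl fun i _ => by simp [qG, phiTerm, kR]; ring
    rw [this, hS, mR]
    ring
  have hZ : ∑ s : Equiv.Perm (Fin 4), ∑ i, 4 * (u i * v (s i)) = 24 := by
    rw [sum_comm]
    simp only [← mul_sum, sum_perm_apply, hv1, hu1, ← sum_mul]
    norm_num
  have h1 : ∑ s : Equiv.Perm (Fin 4), homExt sqDev (fun i => u i * v (s i))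
      ≤ (∑ s : Equiv.Perm (Fin 4), hWN kR 1 (wPair u (v ∘ s)) (nPair u (v ∘ s))) / 16 - 24 / 16 := by
    rw [← hZ, sum_div, sum_div, ← sum_sub_distrib]
    exact sum_le_sum fun s _ => homExt_sqDev_le fun i => mul_nonneg (hu i) (hv (s i))
  have g := gR_nonneg hu hu1 hv hv1
  have a := mul_le_mul_of_nonneg_right (hphi u hu hu1) (wgtK_bd hv hv1).1
  have b := mul_le_mul_of_nonneg_left (hphi v hv hv1) (wgtK_bd hu hu1).1
  refine h1.trans ?_
  rw [hS u, hS v]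
  simp only [wgtK] at *
  simp only [gR] at g
  linarith

end Vale.Agent.P154.Q4
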