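import Mathlib.Analysis.SpecificLimits.Basic
import Mathlib.Analysis.Convex.StdSimplex
import Mathlib.Topology.Order.IntermediateValue
import Mathlib.Topology.Order.Compact
import Mathlib.Data.Fin.VecNotation
import Mathlib.Data.Fin.Tuple.Sort
import Mathlib.Tactic

/-!
# The half-degree lemma on the four-simplex

A function on the four-simplex that is affine in `∑ u_i ^ 4` at fixed `∑ u_i ^ 2`, `∑ u_i ^ 3`
is nonnegative as soon as it is nonnegative at the points with two equal coordinates and at the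
points with a zero coordinate.
-/

namespace Vale.Agent.P154.Q4

open Finset Filter Topology

/-- Power sums of four numbers. -/
def psum (k : ℕ) (u : Fin 4 → ℝ) : ℝ := ∑ i, u i ^ k

theorem psum_eq (k : ℕ) (u : Fin 4 → ℝ) :
    psum k u = u 0 ^ k + u 1 ^ k + u 2 ^ k + u 3 ^ k := by
  simp [psum, Fin.sum_univ_four]

theorem psum_comp (k : ℕ) (u : Fin 4 → ℝ) (σ : Equiv.Perm (Fin 4)) :
    psum k (u ∘ σ) = psum k u :=
  Equiv.sum_comp σ fun i => u i ^ k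

theorem psum_four_newton (a b c e : ℝ) :
    psum 4 ![a, b, c, e] = (a + b + c + e) ^ 4
      - 4 * (a + b + c + e) ^ 2 * (a * b + a * c + a * e + b * c + b * e + c * e)
      + 4 * (a + b + c + e) * (a * b * c + a * b * e + a * c * e + b * c * e)
      + 2 * (a * b + a * c + a * e + b * c + b * e + c * e) ^ 2 - 4 * (a * b * c * e) := by
  rw [psum_eq]
  simp
  ring

theorem cubic_zero {A B C D r₁ r₂ r₃ r₄ : ℝ} (h12 : r₁ ≠ r₂) (h13 : r₁ ≠ r₃) (h14 : r₁ ≠ r₄)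
    (h23 : r₂ ≠ r₃) (h24 : r₂ ≠ r₄) (h34 : r₃ ≠ r₄)
    (e₁ : A * r₁ ^ 3 + B * r₁ ^ 2 + C * r₁ + D = 0)
    (e₂ : A * r₂ ^ 3 + B * r₂ ^ 2 + C * r₂ + D = 0)
    (e₃ : A * r₃ ^ 3 + B * r₃ ^ 2 + C * r₃ + D = 0)
    (e₄ : A * r₄ ^ 3 + B * r₄ ^ 2 + C * r₄ + D = 0) :
    A = 0 ∧ B = 0 ∧ C = 0 ∧ D = 0 := by
  have g : ∀ {x y : ℝ}, x ≠ y → A * x ^ 3 + B * x ^ 2 + C * x + D = 0 →
      A * y ^ 3 + B * y ^ 2 + C * y + D = 0 →
      A * (x ^ 2 + x * y + y ^ 2) + B * (x + y) + C = 0 := by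
    intro x y h ex ey
    apply mul_left_cancel₀ (sub_ne_zero.2 h)
    linear_combination ex - ey
  have q12 := g h12 e₁ e₂
  have q13 := g h13 e₁ e₃
  have q14 := g h14 e₁ e₄
  have l3 : A * (r₁ + r₂ + r₃) + B = 0 := by
    apply mul_left_cancel₀ (sub_ne_zero.2 h23)
    linear_combination q12 - q13
  have l4 : A * (r₁ + r₂ + r₄) + B = 0 := by
    apply mul_left_cancel₀ (sub_ne_zero.2 h24)
    linear_combination q12 - q14
  have hA : A = 0 := by
    apply mul_left_cancel₀ (sub_ne_zero.2 h34)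
    linear_combination l3 - l4
  subst hA
  have hB : B = 0 := by linarith
  subst hB
  have hC : C = 0 := by linarith
  subst hC
  exact ⟨rfl, rfl, rfl, by linarith⟩

/-- Four distinct positive numbers can be moved so that `psum 4` moves either way while the first
three power sums stay. -/
theorem psum_move {u : Fin 4 → ℝ} (h0 : 0 < u 0) (h01 : u 0 < u 1) (h12 : u 1 < u 2)
    (h23 : u 2 < u 3) :
    (∃ v : Fin 4 → ℝ, (∀ i, 0 ≤ v i) ∧ psum 1 v = psum 1 u ∧ psum 2 v = psum 2 u ∧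
        psum 3 v = psum 3 u ∧ psum 4 v < psum 4 u) ∧
    (∃ v : Fin 4 → ℝ, (∀ i, 0 ≤ v i) ∧ psum 1 v = psum 1 u ∧ psum 2 v = psum 2 u ∧
        psum 3 v = psum 3 u ∧ psum 4 u < psum 4 v) := by
  have hu : u = ![u 0, u 1, u 2, u 3] := by funext i; fin_cases i <;> rfl
  set a := u 0
  set b := u 1
  set c := u 2
  set e := u 3
  rw [hu]
  set t₀ := a / 2 with ht₀
  set t₁ := (a + b) / 2 with ht₁
  set t₂ := (b + c) / 2 with ht₂
  set t₃ := (c + e) / 2 with ht₃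
  set t₄ := e + 1 with ht₄
  set P : ℝ → ℝ := fun t => (t - a) * (t - b) * (t - c) * (t - e) with hP
  have p0 : 0 < P t₀ :=
    mul_pos_of_neg_of_neg (mul_neg_of_pos_of_neg (mul_pos_of_neg_of_neg (by linarith)
      (by linarith)) (by linarith)) (by linarith)
  have p1 : P t₁ < 0 :=
    mul_neg_of_pos_of_neg (mul_pos_of_neg_of_neg (mul_neg_of_pos_of_neg (by linarith)
      (by linarith)) (by linarith)) (by linarith)
  have p2 : 0 < P t₂ :=
    mul_pos_of_neg_of_neg (mul_neg_of_pos_of_neg (mul_pos (by linarith) (by linarith))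
      (by linarith)) (by linarith)
  have p3 : P t₃ < 0 :=
    mul_neg_of_pos_of_neg (mul_pos (mul_pos (by linarith) (by linarith)) (by linarith))
      (by linarith)
  have p4 : 0 < P t₄ :=
    mul_pos (mul_pos (mul_pos (by linarith) (by linarith)) (by linarith)) (by linarith)
  obtain ⟨ε, hε, g0, g1, g2, g3, g4⟩ : ∃ ε > 0, ε < P t₀ ∧ ε < -P t₁ ∧ ε < P t₂ ∧
      ε < -P t₃ ∧ ε < P t₄ := by
    refine ⟨min (min (min (P t₀) (-P t₁)) (min (P t₂) (-P t₃))) (P t₄) / 2, ?_, ?_⟩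
    · have : 0 < min (min (min (P t₀) (-P t₁)) (min (P t₂) (-P t₃))) (P t₄) := by
        simp only [lt_min_iff]
        refine ⟨⟨⟨p0, by linarith⟩, p2, by linarith⟩, p4⟩
      linarith
    · have m1 := min_le_left (min (min (P t₀) (-P t₁)) (min (P t₂) (-P t₃))) (P t₄)
      have m2 := min_le_right (min (min (P t₀) (-P t₁)) (min (P t₂) (-P t₃))) (P t₄)
      have m3 := min_le_left (min (P t₀) (-P t₁)) (min (P t₂) (-P t₃))
      have m4 := min_le_right (min (P t₀) (-P t₁)) (min (P t₂) (-P t₃))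
      have m5 := min_le_left (P t₀) (-P t₁)
      have m6 := min_le_right (P t₀) (-P t₁)
      have m7 := min_le_left (P t₂) (-P t₃)
      have m8 := min_le_right (P t₂) (-P t₃)
      refine ⟨?_, ?_, ?_, ?_, ?_⟩ <;> linarith
  have key : ∀ δ : ℝ, |δ| ≤ ε → ∃ v : Fin 4 → ℝ, (∀ i, 0 ≤ v i) ∧
      psum 1 v = psum 1 ![a, b, c, e] ∧ psum 2 v = psum 2 ![a, b, c, e] ∧
      psum 3 v = psum 3 ![a, b, c, e] ∧ psum 4 v = psum 4 ![a, b, c, e] - 4 * δ := by
    intro δ hδ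
    obtain ⟨d0, d1⟩ := abs_le.1 hδ
    have cont : ∀ s : Set ℝ, ContinuousOn (fun t => P t + δ) s := fun s => by
      apply Continuous.continuousOn
      simp only [hP]
      fun_prop
    obtain ⟨r₁, ⟨l₁, u₁⟩, z₁⟩ := intermediate_value_Ioo' (show t₀ ≤ t₁ by linarith) (cont _)
      (show (0 : ℝ) ∈ Set.Ioo (P t₁ + δ) (P t₀ + δ) from ⟨by linarith, by linarith⟩)
    obtain ⟨r₂, ⟨l₂, u₂⟩, z₂⟩ := intermediate_value_Ioo (show t₁ ≤ t₂ by linarith) (cont _)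
      (show (0 : ℝ) ∈ Set.Ioo (P t₁ + δ) (P t₂ + δ) from ⟨by linarith, by linarith⟩)
    obtain ⟨r₃, ⟨l₃, u₃⟩, z₃⟩ := intermediate_value_Ioo' (show t₂ ≤ t₃ by linarith) (cont _)
      (show (0 : ℝ) ∈ Set.Ioo (P t₃ + δ) (P t₂ + δ) from ⟨by linarith, by linarith⟩)
    obtain ⟨r₄, ⟨l₄, u₄⟩, z₄⟩ := intermediate_value_Ioo (show t₃ ≤ t₄ by linarith) (cont _)
      (show (0 : ℝ) ∈ Set.Ioo (P t₃ + δ) (P t₄ + δ) from ⟨by linarith, by linarith⟩)
    simp only [hP] at z₁ z₂ z₃ z₄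
    set e₁' := r₁ + r₂ + r₃ + r₄
    set e₂' := r₁ * r₂ + r₁ * r₃ + r₁ * r₄ + r₂ * r₃ + r₂ * r₄ + r₃ * r₄
    set e₃' := r₁ * r₂ * r₃ + r₁ * r₂ * r₄ + r₁ * r₃ * r₄ + r₂ * r₃ * r₄
    obtain ⟨hA, hB, hC, hD⟩ := cubic_zero
      (A := e₁' - (a + b + c + e))
      (B := (a * b + a * c + a * e + b * c + b * e + c * e) - e₂')
      (C := e₃' - (a * b * c + a * b * e + a * c * e + b * c * e))
      (D := a * b * c * e + δ - r₁ * r₂ * r₃ * r₄)
      (show r₁ ≠ r₂ by linarith) (show r₁ ≠ r₃ by linarith) (show r₁ ≠ r₄ by linarith)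
      (show r₂ ≠ r₃ by linarith) (show r₂ ≠ r₄ by linarith) (show r₃ ≠ r₄ by linarith)
      (by simp only [e₁', e₂', e₃']; linear_combination z₁)
      (by simp only [e₁', e₂', e₃']; linear_combination z₂)
      (by simp only [e₁', e₂', e₃']; linear_combination z₃)
      (by simp only [e₁', e₂', e₃']; linear_combination z₄)
    have q1 : e₁' = a + b + c + e := by linarith
    have q2 : e₂' = a * b + a * c + a * e + b * c + b * e + c * e := by linarith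
    have q3 : e₃' = a * b * c + a * b * e + a * c * e + b * c * e := by linarith
    have q4 : r₁ * r₂ * r₃ * r₄ = a * b * c * e + δ := by linarith
    simp only [e₁', e₂', e₃'] at q1 q2 q3
    refine ⟨![r₁, r₂, r₃, r₄], ?_, ?_, ?_, ?_, ?_⟩
    · intro i
      fin_cases i <;> simp <;> linarith
    · simp [psum_eq]
      linarith
    · simp [psum_eq]
      linear_combination (r₁ + r₂ + r₃ + r₄ + (a + b + c + e)) * q1 - 2 * q2
    · simp [psum_eq]
      linear_combination ((r₁ + r₂ + r₃ + r₄) ^ 2 + (r₁ + r₂ + r₃ + r₄) * (a + b + c + e)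
        + (a + b + c + e) ^ 2 - 3 * (r₁ * r₂ + r₁ * r₃ + r₁ * r₄ + r₂ * r₃ + r₂ * r₄ + r₃ * r₄))
        * q1 - 3 * (a + b + c + e) * q2 + 3 * q3
    · rw [psum_four_newton, psum_four_newton, q1, q2, q3, q4]
      ring
  refine ⟨?_, ?_⟩
  · obtain ⟨v, v0, v1, v2, v3, v4⟩ := key ε (by rw [abs_of_pos hε])
    exact ⟨v, v0, v1, v2, v3, by linarith⟩
  · obtain ⟨v, v0, v1, v2, v3, v4⟩ := key (-ε) (by rw [abs_neg, abs_of_pos hε])
    exact ⟨v, v0, v1, v2, v3, by linarith⟩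

/-- The points of the simplex with given second and third power sums. -/
def powerSet (s t : ℝ) : Set (Fin 4 → ℝ) :=
  stdSimplex ℝ (Fin 4) ∩ {u | psum 2 u = s ∧ psum 3 u = t}

theorem isCompact_powerSet (s t : ℝ) : IsCompact (powerSet s t) := by
  refine (isCompact_stdSimplex (𝕜 := ℝ) (Fin 4)).inter_right ?_
  simp only [psum, Set.ofPred_and]
  exact (isClosed_eq (by fun_prop) continuous_const).inter
    (isClosed_eq (by fun_prop) continuous_const)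

/-- An extremum of `psum 4` on a power set has two equal coordinates or a zero coordinate. -/
theorem extremal_of_powerSet {s t : ℝ} {w : Fin 4 → ℝ} (hw : w ∈ powerSet s t)
    (hext : (∀ v ∈ powerSet s t, psum 4 w ≤ psum 4 v) ∨ ∀ v ∈ powerSet s t, psum 4 v ≤ psum 4 w) :
    (∃ i j, i ≠ j ∧ w i = w j) ∨ ∃ i, w i = 0 := by
  by_contra! hne
  obtain ⟨hne, hz⟩ := hne
  obtain ⟨⟨w0, w1⟩, w2, w3⟩ := hw
  set σ := Tuple.sort w
  have hm : StrictMono (w ∘ σ) :=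
    (Tuple.monotone_sort w).strictMono_of_injective fun i j h => σ.injective <| by
      by_contra hc
      exact hne _ _ hc h
  obtain ⟨⟨v, v0, v1, v2, v3, vl⟩, ⟨v', v0', v1', v2', v3', vl'⟩⟩ := psum_move (u := w ∘ σ)
    (lt_of_le_of_ne (w0 _) (Ne.symm (hz _))) (hm (by decide)) (hm (by decide)) (hm (by decide))
  rw [psum_comp] at v1 v2 v3 vl v1' v2' v3' vl'
  have one : psum 1 w = 1 := by simpa [psum] using w1
  have mem : ∀ x : Fin 4 → ℝ, (∀ i, 0 ≤ x i) → psum 1 x = psum 1 w → psum 2 x = psum 2 w →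
      psum 3 x = psum 3 w → x ∈ powerSet s t := fun x x0 x1 x2 x3 =>
    ⟨⟨x0, by rw [← one, ← x1]; simp [psum]⟩, x2.trans w2, x3.trans w3⟩
  rcases hext with h | h
  · exact absurd (h v (mem v v0 v1 v2 v3)) (not_le.2 vl)
  · exact absurd (h v' (mem v' v0' v1' v2' v3')) (not_le.2 vl')

/-- The half-degree lemma. -/
theorem half_degree {f₀ f₁ : ℝ → ℝ → ℝ}
    (hpair : ∀ u : Fin 4 → ℝ, (∀ i, 0 ≤ u i) → ∑ i, u i = 1 → (∃ i j, i ≠ j ∧ u i = u j) →
      0 ≤ f₀ (psum 2 u) (psum 3 u) + f₁ (psum 2 u) (psum 3 u) * psum 4 u)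
    (hzero : ∀ u : Fin 4 → ℝ, (∀ i, 0 ≤ u i) → ∑ i, u i = 1 → (∃ i, u i = 0) →
      0 ≤ f₀ (psum 2 u) (psum 3 u) + f₁ (psum 2 u) (psum 3 u) * psum 4 u)
    {u : Fin 4 → ℝ} (h0 : ∀ i, 0 ≤ u i) (h1 : ∑ i, u i = 1) :
    0 ≤ f₀ (psum 2 u) (psum 3 u) + f₁ (psum 2 u) (psum 3 u) * psum 4 u := by
  have hu : u ∈ powerSet (psum 2 u) (psum 3 u) := ⟨⟨h0, h1⟩, rfl, rfl⟩
  have hc : ContinuousOn (psum 4) (powerSet (psum 2 u) (psum 3 u)) := by
    unfold psum
    fun_prop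
  have close : ∀ w ∈ powerSet (psum 2 u) (psum 3 u),
      ((∃ i j, i ≠ j ∧ w i = w j) ∨ ∃ i, w i = 0) →
      0 ≤ f₀ (psum 2 u) (psum 3 u) + f₁ (psum 2 u) (psum 3 u) * psum 4 w := by
    rintro w ⟨⟨w0, w1⟩, w2, w3⟩ h
    rw [← w2, ← w3]
    exact h.elim (hpair w w0 w1) (hzero w w0 w1)
  rcases le_total 0 (f₁ (psum 2 u) (psum 3 u)) with hf | hf
  · obtain ⟨w, hw, hmin⟩ := (isCompact_powerSet _ _).exists_isMinOn ⟨u, hu⟩ hc
    have := close w hw (extremal_of_powerSet hw (Or.inl fun v hv => hmin hv))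
    nlinarith [mul_le_mul_of_nonneg_left (show psum 4 w ≤ psum 4 u from hmin hu) hf]
  · obtain ⟨w, hw, hmax⟩ := (isCompact_powerSet _ _).exists_isMaxOn ⟨u, hu⟩ hc
    have := close w hw (extremal_of_powerSet hw (Or.inr fun v hv => hmax hv))
    nlinarith [mul_le_mul_of_nonpos_left (show psum 4 u ≤ psum 4 w from hmax hu) hf]

/-- The half-degree lemma in terms of the two parametrised families. -/
theorem half_degree_families {f₀ f₁ : ℝ → ℝ → ℝ}
    (hpair : ∀ a b c : ℝ, 0 ≤ a → 0 ≤ b → 0 ≤ c → a + a + b + c = 1 →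
      0 ≤ f₀ (psum 2 ![a, a, b, c]) (psum 3 ![a, a, b, c])
        + f₁ (psum 2 ![a, a, b, c]) (psum 3 ![a, a, b, c]) * psum 4 ![a, a, b, c])
    (hzero : ∀ a b c : ℝ, 0 ≤ a → 0 ≤ b → 0 ≤ c → a + b + c = 1 →
      0 ≤ f₀ (psum 2 ![0, a, b, c]) (psum 3 ![0, a, b, c])
        + f₁ (psum 2 ![0, a, b, c]) (psum 3 ![0, a, b, c]) * psum 4 ![0, a, b, c])
    {u : Fin 4 → ℝ} (h0 : ∀ i, 0 ≤ u i) (h1 : ∑ i, u i = 1) :
    0 ≤ f₀ (psum 2 u) (psum 3 u) + f₁ (psum 2 u) (psum 3 u) * psum 4 u := by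
  refine half_degree (f₀ := f₀) (f₁ := f₁) ?_ ?_ h0 h1
  · rintro u h0 h1 ⟨i, j, hij, heq⟩
    obtain ⟨σ, hσ0, hσ1⟩ : ∃ σ : Equiv.Perm (Fin 4), σ 0 = i ∧ σ 1 = j :=
      ⟨Equiv.swap 0 i * Equiv.swap 1 (Equiv.swap 0 i j), by
        clear heq; revert hij; revert i j; decide⟩
    have e : u ∘ σ = ![u i, u i, u (σ 2), u (σ 3)] := by
      funext k
      fin_cases k <;> simp [hσ0, hσ1, heq]
    have s : u i + u i + u (σ 2) + u (σ 3) = 1 := by
      rw [← h1, ← Equiv.sum_comp σ u, Fin.sum_univ_four, hσ0, hσ1, heq]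
    have := hpair _ _ _ (h0 i) (h0 (σ 2)) (h0 (σ 3)) s
    rwa [← e, psum_comp, psum_comp, psum_comp] at this
  · rintro u h0 h1 ⟨i, heq⟩
    set σ := Equiv.swap 0 i
    have hσ0 : σ 0 = i := Equiv.swap_apply_left 0 i
    have e : u ∘ σ = ![0, u (σ 1), u (σ 2), u (σ 3)] := by
      funext k
      fin_cases k <;> simp [hσ0, heq]
    have s : u (σ 1) + u (σ 2) + u (σ 3) = 1 := by
      rw [← h1, ← Equiv.sum_comp σ u, Fin.sum_univ_four, hσ0, heq, zero_add]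
    have := hzero _ _ _ (h0 (σ 1)) (h0 (σ 2)) (h0 (σ 3)) s
    rwa [← e, psum_comp, psum_comp, psum_comp] at this

end Vale.Agent.P154.Q4
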