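import Vale.Agent.P154.Q4.LogSeries

/-!
# A kernel check of polynomial bounds for `x log x`

A bound is checked on a list of intervals. On each, `log x` is replaced by a rational bound,
the denominator is cleared, and the numerator is expanded in the Bernstein basis.
-/

namespace Vale.Agent.P154.Q4

open Real Finset

/-- Evaluation of a coefficient list, constant term first. -/
noncomputable def lev : List ℚ → ℝ → ℝ
  | [], _ => 0
  | a :: l, x => (a : ℝ) + x * lev l x

/-- Sum of two coefficient lists. -/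
def ladd : List ℚ → List ℚ → List ℚ
  | [], m => m
  | a :: l, [] => a :: l
  | a :: l, b :: m => (a + b) :: ladd l m

/-- Scaling of a coefficient list. -/
def lsmul (c : ℚ) (l : List ℚ) : List ℚ := l.map (c * ·)

/-- Product of two coefficient lists. -/
def lmul : List ℚ → List ℚ → List ℚ
  | [], _ => []
  | a :: l, m => ladd (lsmul a m) (0 :: lmul l m)

/-- Power of a coefficient list. -/
def lpow (l : List ℚ) : ℕ → List ℚ
  | 0 => [1]
  | k + 1 => lmul l (lpow l k)

/-- Composition with `x - 1`. -/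
def lshift : List ℚ → List ℚ
  | [] => []
  | a :: l => ladd [a] (lmul [-1, 1] (lshift l))

theorem lev_ladd : ∀ (l m : List ℚ) (x : ℝ), lev (ladd l m) x = lev l x + lev m x
  | [], m, x => by simp [ladd, lev]
  | a :: l, [], x => by simp [ladd, lev]
  | a :: l, b :: m, x => by simp [ladd, lev, lev_ladd l m x]; ring

theorem lev_lsmul (c : ℚ) : ∀ (l : List ℚ) (x : ℝ), lev (lsmul c l) x = c * lev l x
  | [], x => by simp [lsmul, lev]
  | a :: l, x => by
    have := lev_lsmul c l x
    simp only [lsmul, List.map_cons, lev] at this ⊢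
    rw [this]
    push_cast
    ring

theorem lev_lmul : ∀ (l m : List ℚ) (x : ℝ), lev (lmul l m) x = lev l x * lev m x
  | [], m, x => by simp [lmul, lev]
  | a :: l, m, x => by
    simp [lmul, lev, lev_ladd, lev_lsmul, lev_lmul l m x]
    ring

theorem lev_lpow (l : List ℚ) (x : ℝ) : ∀ k, lev (lpow l k) x = lev l x ^ k
  | 0 => by simp [lpow, lev]
  | k + 1 => by simp [lpow, lev_lmul, lev_lpow l x k, pow_succ']

theorem lev_lshift : ∀ (l : List ℚ) (x : ℝ), lev (lshift l) x = lev l (x - 1)
  | [], x => by simp [lshift, lev]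
  | a :: l, x => by
    simp only [lshift, lev_ladd, lev_lmul, lev_lshift l x, lev]
    push_cast
    ring

/-- `(1 + s) ^ d * l ((c + d s) / (1 + s))` for a list of degree `d`. -/
def lhom (c d : ℚ) : List ℚ → List ℚ
  | [] => []
  | a :: l => ladd (lsmul a (lpow [1, 1] l.length)) (lmul [c, d] (lhom c d l))

theorem lev_lhom (c d : ℚ) {s : ℝ} (hs : 1 + s ≠ 0) : ∀ l : List ℚ,
    lev (lhom c d l) s * (1 + s) = (1 + s) ^ l.length * lev l ((c + d * s) / (1 + s))
  | [] => by simp [lhom, lev]
  | a :: l => by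
    have := lev_lhom c d hs l
    simp only [lhom, lev_ladd, lev_lsmul, lev_lpow, lev_lmul, lev, List.length_cons, pow_succ]
    push_cast
    generalize lev l ((↑c + ↑d * s) / (1 + s)) = V at this ⊢
    field_simp
    linear_combination ((c : ℝ) + d * s) * this

theorem lev_nonneg : ∀ (l : List ℚ), l.all (fun a => decide (0 ≤ a)) = true → ∀ x : ℝ, 0 ≤ x →
    0 ≤ lev l x
  | [], _, x, _ => by simp [lev]
  | a :: l, h, x, hx => by
    simp only [List.all_cons, Bool.and_eq_true, decide_eq_true_eq] at h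
    have := lev_nonneg l h.2 x hx
    have : (0 : ℝ) ≤ a := by exact_mod_cast h.1
    simp only [lev]
    positivity

/-- Value of a coefficient list at a rational. -/
def levQ : List ℚ → ℚ → ℚ
  | [], _ => 0
  | a :: l, x => a + x * levQ l x

theorem lev_cast : ∀ (l : List ℚ) (x : ℚ), lev l (x : ℝ) = (levQ l x : ℝ)
  | [], x => by simp [lev, levQ]
  | a :: l, x => by simp [lev, levQ, lev_cast l x]

/-- Nonnegativity on `[c, d]` through the Bernstein basis. -/
def posOn (c d : ℚ) (l : List ℚ) : Bool :=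
  (lhom c d l).all (fun a => decide (0 ≤ a)) && decide (0 ≤ levQ l d)

theorem posOn_sound {c d : ℚ} {l : List ℚ} (h : posOn c d l = true) {x : ℝ} (hc : (c : ℝ) ≤ x)
    (hd : x ≤ d) : 0 ≤ lev l x := by
  simp only [posOn, Bool.and_eq_true, decide_eq_true_eq] at h
  rcases hd.eq_or_lt with e | e
  · rw [e, lev_cast]
    exact_mod_cast h.2
  set s := (x - c) / (d - x) with hs
  have s0 : 0 ≤ s := div_nonneg (by linarith) (by linarith)
  have hx : ((c : ℝ) + d * s) / (1 + s) = x := by
    rw [div_eq_iff (by linarith), hs]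
    field_simp [(by linarith : (d : ℝ) - x ≠ 0)]
    ring
  have := lev_lhom c d (by linarith : 1 + s ≠ 0) l
  rw [hx] at this
  exact nonneg_of_mul_nonneg_right
    (this ▸ mul_nonneg (lev_nonneg _ h.1 s s0) (by linarith)) (by positivity)

/-- `logSer` over the rationals. -/
def serQ (n : ℕ) (y : ℚ) : ℚ := 2 * ∑ i ∈ range n, y ^ (2 * i + 1) / (2 * i + 1)

theorem serQ_cast (n : ℕ) (y : ℚ) : (serQ n y : ℝ) = logSer n y := by
  simp [serQ, logSer]

/-- A rational lower bound for `log c`, using `c * 2 ^ k ≥ 1`. -/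
def logLoQ (k : ℕ) (c : ℚ) : ℚ :=
  serQ 12 ((c * 2 ^ k - 1) / (c * 2 ^ k + 1)) - k * (6931471808 / 10000000000)

/-- A rational upper bound for `log c`, using `c * 2 ^ k ≥ 1`. -/
def logHiQ (k : ℕ) (c : ℚ) : ℚ :=
  let y := (c * 2 ^ k - 1) / (c * 2 ^ k + 1)
  serQ 12 y + 2 * (y ^ 25 / (1 - y ^ 2)) - k * (6931471803 / 10000000000)

theorem logQ_bounds {c : ℚ} {k : ℕ} (h : 1 ≤ c * 2 ^ k) :
    (logLoQ k c : ℝ) ≤ log c ∧ log c ≤ (logHiQ k c : ℝ) := by
  obtain ⟨a, b⟩ := log_shift (c := (c : ℝ)) k (by exact_mod_cast h) 12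
  have h1 := mul_le_mul_of_nonneg_left log_two_lt_d9.le (Nat.cast_nonneg (α := ℝ) k)
  have h2 := mul_le_mul_of_nonneg_left log_two_gt_d9.le (Nat.cast_nonneg (α := ℝ) k)
  norm_num [logTail] at a b h1 h2
  simp only [logLoQ, logHiQ]
  push_cast [serQ_cast]
  norm_num
  constructor <;> linarith

/-- The numerator of `x` times the partial sum at anchor `c`. -/
def serNum (n : ℕ) (c : ℚ) : List ℚ :=
  (List.range n).foldl (fun acc (i : ℕ) =>
    ladd acc (lsmul (2 / (2 * (i : ℚ) + 1)) (lmul (lpow [-c, 1] (2 * i + 1))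
      (lpow [c, 1] (2 * (n - 1 - i)))))) []

theorem lev_serNum (n : ℕ) (c : ℚ) {x : ℝ} (hx : x + c ≠ 0) :
    lev (serNum n c) x = logSer n ((x - c) / (x + c)) * (x + c) ^ (2 * n - 1) := by
  have key : ∀ (l : List ℕ) (acc : List ℚ), lev (l.foldl (fun acc (i : ℕ) =>
      ladd acc (lsmul (2 / (2 * (i : ℚ) + 1)) (lmul (lpow [-c, 1] (2 * i + 1))
        (lpow [c, 1] (2 * (n - 1 - i)))))) acc) x = lev acc x + (l.map fun (i : ℕ) =>
      (2 / (2 * (i : ℝ) + 1)) * ((x - c) ^ (2 * i + 1) * (x + c) ^ (2 * (n - 1 - i)))).sum := by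
    intro l
    induction l with
    | nil => simp
    | cons i l ih =>
      intro acc
      rw [List.foldl_cons, ih, List.map_cons, List.sum_cons]
      simp [lev_ladd, lev_lsmul, lev_lmul, lev_lpow, lev]
      ring
  rw [serNum, key]
  simp only [lev, zero_add, logSer]
  rw [← List.sum_toFinset _ List.nodup_range, List.toFinset_range, mul_assoc, sum_mul, mul_sum]
  refine sum_congr rfl fun i hi => ?_
  have hi' := mem_range.1 hi
  rw [show 2 * n - 1 = 2 * i + 1 + 2 * (n - 1 - i) by omega, pow_add, div_pow]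
  field_simp
  ring

/-- The three ways of bounding `log x` below on an interval. -/
inductive LoPiece
  | tangent (k : ℕ) (c a b : ℚ)
  | left (k n : ℕ) (c b : ℚ)
  | right (k n : ℕ) (c a : ℚ)

namespace LoPiece

/-- The interval of a piece. -/
def dom : LoPiece → ℚ × ℚ
  | tangent _ _ a b => (a, b)
  | left _ _ c b => (c, b)
  | right _ _ c a => (a, c)

/-- The check of a piece for the polynomial `q` in `x - 1`. -/
def check (q : List ℚ) : LoPiece → Bool
  | tangent k c a b => decide (0 < c) && decide (1 ≤ c * 2 ^ k) && decide (0 ≤ a) &&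
      posOn a b (ladd [-c, logLoQ k c + 1] (lsmul (-1) (lshift q)))
  | left k n c b => decide (0 < c) && decide (1 ≤ c * 2 ^ k) &&
      posOn c b (ladd (lmul [0, 1] (ladd (lsmul (logLoQ k c) (lpow [c, 1] (2 * n - 1)))
          (serNum n c)))
        (lsmul (-1) (lmul (lshift q) (lpow [c, 1] (2 * n - 1)))))
  | right k n c a => decide (1 ≤ n) && decide (0 < a) && decide (0 < c) &&
      decide (1 ≤ c * 2 ^ k) &&
      posOn a c (ladd (ladd (lmul [0, 1] (ladd (lsmul (logLoQ k c) (lpow [c, 1] (2 * n - 1)))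
          (serNum n c))) (lsmul (1 / (2 * c)) (lpow [-c, 1] (2 * n + 1))))
        (lsmul (-1) (lmul (lshift q) (lpow [c, 1] (2 * n - 1)))))

theorem sound {q : List ℚ} : ∀ p : LoPiece, p.check q = true → ∀ {x : ℝ},
    (p.dom.1 : ℝ) ≤ x → x ≤ p.dom.2 → lev q (x - 1) ≤ x * log x
  | tangent k c a b, h, x, ha, hb => by
    simp only [check, Bool.and_eq_true, decide_eq_true_eq] at h
    obtain ⟨⟨⟨hc, hk⟩, ha0⟩, hp⟩ := h
    have hx : 0 ≤ x := le_trans (by exact_mod_cast ha0) ha
    have e := posOn_sound hp ha hb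
    simp [lev, lev_ladd, lev_lsmul, lev_lshift] at e
    have := mul_log_ge_tangent (c := (c : ℝ)) (by exact_mod_cast hc) hx
    nlinarith [mul_le_mul_of_nonneg_left (logQ_bounds hk).1 hx]
  | left k n c b, h, x, ha, hb => by
    simp only [check, Bool.and_eq_true, decide_eq_true_eq] at h
    obtain ⟨⟨hc, hk⟩, hp⟩ := h
    simp only [dom] at ha hb
    have hc' : (0 : ℝ) < c := by exact_mod_cast hc
    have hx : 0 < x := hc'.trans_le ha
    have e := posOn_sound hp ha hb
    simp [lev, lev_ladd, lev_lsmul, lev_lmul, lev_lpow, lev_lshift,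
      lev_serNum n c (x := x) (by linarith)] at e
    rw [add_comm (c : ℝ) x] at e
    have hD : 0 < (x + c) ^ (2 * n - 1) := by positivity
    have l1 := (log_ge_anchor hc' ha n).1
    have l2 := (logQ_bounds hk).1
    have l3 : x * (logLoQ k c + logSer n ((x - c) / (x + c))) ≤ x * log x :=
      mul_le_mul_of_nonneg_left (by linarith) hx.le
    refine le_trans (le_of_mul_le_mul_right ?_ hD) l3
    linarith
  | right k n c a, h, x, ha, hb => by
    simp only [check, Bool.and_eq_true, decide_eq_true_eq] at h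
    obtain ⟨⟨⟨⟨hn, ha0⟩, hc⟩, hk⟩, hp⟩ := h
    simp only [dom] at ha hb
    have hc' : (0 : ℝ) < c := by exact_mod_cast hc
    have hx : 0 < x := lt_of_lt_of_le (by exact_mod_cast ha0) ha
    have e := posOn_sound hp ha hb
    simp [lev, lev_ladd, lev_lsmul, lev_lmul, lev_lpow, lev_lshift,
      lev_serNum n c (x := x) (by linarith)] at e
    have t : x * logTail n ((x - c) / (x + c)) * (x + c) ^ (2 * n - 1)
        = (2 * (c : ℝ))⁻¹ * (x - c) ^ (2 * n + 1) := by
      have hne : x + c ≠ 0 := by linarith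
      have h4 : 1 - ((x - c) / (x + c)) ^ 2 = 4 * x * c / (x + c) ^ 2 := by field_simp; ring
      rw [logTail, h4, div_pow, show 2 * n + 1 = 2 * n - 1 + 2 by omega, pow_add, pow_add]
      field_simp
      ring
    rw [mul_inv] at t
    try rw [add_comm (c : ℝ) x] at e
    try rw [neg_add_eq_sub] at e
    have hD : 0 < (x + c) ^ (2 * n - 1) := by positivity
    have l1 := (log_le_anchor hx hb n).2
    have l2 := (logQ_bounds hk).1
    have l3 : x * (logLoQ k c + logSer n ((x - c) / (x + c)) + logTail n ((x - c) / (x + c)))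
        ≤ x * log x := mul_le_mul_of_nonneg_left (by linarith) hx.le
    refine le_trans (le_of_mul_le_mul_right ?_ hD) l3
    linarith

/-- The pieces cover the interval from `a` to `b`. -/
def covers : List LoPiece → ℚ → ℚ → Bool
  | [], a, b => decide (b ≤ a)
  | p :: l, a, b => decide (p.dom.1 ≤ a) && covers l p.dom.2 b

theorem covers_sound : ∀ (l : List LoPiece) (a b : ℚ), covers l a b = true → ∀ {x : ℝ},
    (a : ℝ) < x → x ≤ b → ∃ p ∈ l, (p.dom.1 : ℝ) ≤ x ∧ x ≤ p.dom.2
  | [], a, b, h, x, ha, hb => by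
    simp [covers] at h
    have : (b : ℝ) ≤ a := by exact_mod_cast h
    linarith
  | p :: l, a, b, h, x, ha, hb => by
    simp only [covers, Bool.and_eq_true, decide_eq_true_eq] at h
    have h1 : (p.dom.1 : ℝ) ≤ a := by exact_mod_cast h.1
    rcases le_or_gt x (p.dom.2 : ℝ) with e | e
    · exact ⟨p, List.mem_cons_self, by linarith, e⟩
    · obtain ⟨r, hr, r1, r2⟩ := covers_sound l _ b h.2 e hb
      exact ⟨r, List.mem_cons_of_mem _ hr, r1, r2⟩

/-- The check of a polynomial minorant of `x log x` in `x - 1` on `[0, 4]`. -/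
def checkAll (q : List ℚ) (l : List LoPiece) : Bool :=
  decide (levQ q (-1) ≤ 0) && covers l 0 4 && l.all fun p => p.check q

theorem minorant {q : List ℚ} {l : List LoPiece} (h : checkAll q l = true) {t : ℝ} (h0 : -1 ≤ t)
    (h3 : t ≤ 3) : lev q t ≤ (1 + t) * log (1 + t) := by
  simp only [checkAll, Bool.and_eq_true, decide_eq_true_eq] at h
  rcases h0.eq_or_lt with e | e
  · subst e
    rw [show (-1 : ℝ) = ((-1 : ℚ) : ℝ) by norm_num, lev_cast]
    norm_num
    exact h.1.1
  · obtain ⟨p, hp, p1, p2⟩ := covers_sound l 0 4 h.1.2 (x := 1 + t) (by push_cast; linarith)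
      (by push_cast; linarith)
    have := sound p (List.all_eq_true.1 h.2 p hp) p1 p2
    simpa using this

end LoPiece

end Vale.Agent.P154.Q4
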