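import Vale.Agent.P154.Q4.LogCheck

/-!
# A kernel check of polynomial majorants of `x log x`
-/

namespace Vale.Agent.P154.Q4

open Real Finset

/-- The three ways of bounding `log x` above on an interval. -/
inductive HiPiece
  | low (k : ℕ) (c : ℚ)
  | left (k n : ℕ) (c b : ℚ)
  | right (k n : ℕ) (c a : ℚ)

namespace HiPiece

/-- The interval of a piece. -/
def dom : HiPiece → ℚ × ℚ
  | low _ c => (0, c)
  | left _ _ c b => (c, b)
  | right _ _ c a => (a, c)

/-- The check of a piece for the polynomial `q` in `x - 1`. -/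
def check (q : List ℚ) : HiPiece → Bool
  | low k c => decide (0 < c) && decide (1 ≤ c * 2 ^ k) &&
      posOn 0 c (ladd (lshift q) [0, -logHiQ k c])
  | left k n c b => decide (1 ≤ n) && decide (0 < c) && decide (1 ≤ c * 2 ^ k) &&
      posOn c b (ladd (lmul (lshift q) (lpow [c, 1] (2 * n - 1)))
        (lsmul (-1) (ladd (lmul [0, 1] (ladd (lsmul (logHiQ k c) (lpow [c, 1] (2 * n - 1)))
          (serNum n c))) (lsmul (1 / (2 * c)) (lpow [-c, 1] (2 * n + 1))))))
  | right k n c a => decide (0 < a) && decide (0 < c) && decide (1 ≤ c * 2 ^ k) &&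
      posOn a c (ladd (lmul (lshift q) (lpow [c, 1] (2 * n - 1)))
        (lsmul (-1) (lmul [0, 1] (ladd (lsmul (logHiQ k c) (lpow [c, 1] (2 * n - 1)))
          (serNum n c)))))

theorem sound {q : List ℚ} : ∀ p : HiPiece, p.check q = true → ∀ {x : ℝ},
    (p.dom.1 : ℝ) ≤ x → x ≤ p.dom.2 → x * log x ≤ lev q (x - 1)
  | low k c, h, x, ha, hb => by
    simp only [check, Bool.and_eq_true, decide_eq_true_eq] at h
    obtain ⟨⟨hc, hk⟩, hp⟩ := h
    simp only [dom] at ha hb
    have e := posOn_sound hp ha hb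
    simp [lev, lev_ladd, lev_lshift] at e ha
    have := mul_log_le_const ha hb
    nlinarith [mul_le_mul_of_nonneg_left (logQ_bounds hk).2 ha]
  | left k n c b, h, x, ha, hb => by
    simp only [check, Bool.and_eq_true, decide_eq_true_eq] at h
    obtain ⟨⟨⟨hn, hc⟩, hk⟩, hp⟩ := h
    simp only [dom] at ha hb
    have hc' : (0 : ℝ) < c := by exact_mod_cast hc
    have hx : 0 < x := hc'.trans_le ha
    have e := posOn_sound hp ha hb
    simp [lev, lev_ladd, lev_lsmul, lev_lmul, lev_lpow, lev_lshift,
      lev_serNum n c (x := x) (by linarith)] at e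
    have t : x * logTail n ((x - c) / (x + c)) * (x + c) ^ (2 * n - 1)
        = (2 * (c : ℝ))⁻¹ * (x - c) ^ (2 * n + 1) := by
      have hne : x + c ≠ 0 := by linarith
      have h4 : 1 - ((x - c) / (x + c)) ^ 2 = 4 * x * c / (x + c) ^ 2 := by field_simp; ring
      rw [logTail, h4, div_pow, show 2 * n + 1 = 2 * n - 1 + 2 by omega, pow_add, pow_add]
      field_simp
      ring
    rw [mul_inv] at t
    try rw [add_comm (c : ℝ) x] at e
    try rw [show -(c : ℝ) + x = x - c by ring] at e
    have hD : 0 < (x + c) ^ (2 * n - 1) := by positivity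
    have l1 := (log_ge_anchor hc' ha n).2
    have l2 := (logQ_bounds hk).2
    have l3 : x * log x
        ≤ x * (logHiQ k c + logSer n ((x - c) / (x + c)) + logTail n ((x - c) / (x + c))) :=
      mul_le_mul_of_nonneg_left (by linarith) hx.le
    refine le_trans l3 (le_of_mul_le_mul_right ?_ hD)
    linarith
  | right k n c a, h, x, ha, hb => by
    simp only [check, Bool.and_eq_true, decide_eq_true_eq] at h
    obtain ⟨⟨⟨ha0, hc⟩, hk⟩, hp⟩ := h
    simp only [dom] at ha hb
    have hc' : (0 : ℝ) < c := by exact_mod_cast hc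
    have hx : 0 < x := lt_of_lt_of_le (by exact_mod_cast ha0) ha
    have e := posOn_sound hp ha hb
    simp [lev, lev_ladd, lev_lsmul, lev_lmul, lev_lpow, lev_lshift,
      lev_serNum n c (x := x) (by linarith)] at e
    try rw [add_comm (c : ℝ) x] at e
    have hD : 0 < (x + c) ^ (2 * n - 1) := by positivity
    have l1 := (log_le_anchor hx hb n).1
    have l2 := (logQ_bounds hk).2
    have l3 : x * log x ≤ x * (logHiQ k c + logSer n ((x - c) / (x + c))) :=
      mul_le_mul_of_nonneg_left (by linarith) hx.le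
    refine le_trans l3 (le_of_mul_le_mul_right ?_ hD)
    linarith

/-- The pieces cover the interval from `a` to `b`. -/
def covers : List HiPiece → ℚ → ℚ → Bool
  | [], a, b => decide (b < a)
  | p :: l, a, b => decide (p.dom.1 ≤ a) &&
      (decide (b ≤ p.dom.2) || covers l p.dom.2 b)

theorem covers_sound : ∀ (l : List HiPiece) (a b : ℚ), covers l a b = true → ∀ {x : ℝ},
    (a : ℝ) ≤ x → x ≤ b → ∃ p ∈ l, (p.dom.1 : ℝ) ≤ x ∧ x ≤ p.dom.2
  | [], a, b, h, x, ha, hb => by
    simp [covers] at h
    have : (b : ℝ) < a := by exact_mod_cast h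
    linarith
  | p :: l, a, b, h, x, ha, hb => by
    simp only [covers, Bool.and_eq_true, Bool.or_eq_true, decide_eq_true_eq] at h
    have h1 : (p.dom.1 : ℝ) ≤ a := by exact_mod_cast h.1
    rcases le_or_gt x (p.dom.2 : ℝ) with e | e
    · exact ⟨p, List.mem_cons_self, by linarith, e⟩
    · rcases h.2 with h2 | h2
      · have : (b : ℝ) ≤ p.dom.2 := by exact_mod_cast h2
        linarith
      · obtain ⟨r, hr, r1, r2⟩ := covers_sound l _ b h2 e.le hb
        exact ⟨r, List.mem_cons_of_mem _ hr, r1, r2⟩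

/-- The check of a polynomial majorant of `x log x` in `x - 1` on `[0, 4]`. -/
def checkAll (q : List ℚ) (l : List HiPiece) : Bool :=
  covers l 0 4 && l.all fun p => p.check q

theorem majorant {q : List ℚ} {l : List HiPiece} (h : checkAll q l = true) {x : ℝ} (h0 : 0 ≤ x)
    (h4 : x ≤ 4) : x * log x ≤ lev q (x - 1) := by
  simp only [checkAll, Bool.and_eq_true] at h
  obtain ⟨p, hp, p1, p2⟩ := covers_sound l 0 4 h.1 (x := x) (by push_cast; linarith)
    (by push_cast; linarith)
  exact sound p (List.all_eq_true.1 h.2 p hp) p1 p2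

end HiPiece

end Vale.Agent.P154.Q4
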