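import Mathlib.Analysis.SpecialFunctions.Log.Deriv
import Mathlib.Analysis.SpecialFunctions.Log.NegMulLog
import Mathlib.Analysis.Complex.ExponentialBounds
import Mathlib.Tactic

/-!
# Rational bounds for the logarithm around an anchor

With `y = (x - c) / (x + c)`, partial sums of `2 * artanh y` bound `log x - log c`.
-/

namespace Vale.Agent.P154.Q4

open Real Finset

/-- Partial sums of `log ((1 + y) / (1 - y))`. -/
noncomputable def logSer (n : ℕ) (y : ℝ) : ℝ :=
  2 * ∑ i ∈ range n, y ^ (2 * i + 1) / (2 * i + 1)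

/-- A bound for the remainder of `logSer`. -/
noncomputable def logTail (n : ℕ) (y : ℝ) : ℝ := 2 * (y ^ (2 * n + 1) / (1 - y ^ 2))

theorem logSer_neg (n : ℕ) (y : ℝ) : logSer n (-y) = -logSer n y := by
  simp only [logSer, ← mul_neg, ← sum_neg_distrib]
  congr 1
  refine sum_congr rfl fun i _ => ?_
  rw [Odd.neg_pow ⟨i, rfl⟩, neg_div]

theorem logTail_neg (n : ℕ) (y : ℝ) : logTail n (-y) = -logTail n y := by
  rw [logTail, logTail, Odd.neg_pow ⟨n, rfl⟩, neg_sq, neg_div, mul_neg]

theorem log_ratio_eq {x c : ℝ} (hx : 0 < x) (hc : 0 < c) :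
    (1 + (x - c) / (x + c)) / (1 - (x - c) / (x + c)) = x / c := by
  have h : x + c ≠ 0 := by linarith
  rw [one_add_div h, one_sub_div h, div_div_div_cancel_right₀ h,
    show x + c + (x - c) = 2 * x by ring, show x + c - (x - c) = 2 * c by ring,
    mul_div_mul_left _ _ two_ne_zero]

/-- The bounds to the right of the anchor. -/
theorem log_ge_anchor {x c : ℝ} (hc : 0 < c) (h : c ≤ x) (n : ℕ) :
    log c + logSer n ((x - c) / (x + c)) ≤ log x ∧
      log x ≤ log c + logSer n ((x - c) / (x + c)) + logTail n ((x - c) / (x + c)) := by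
  have hx : 0 < x := hc.trans_le h
  have y0 : 0 ≤ (x - c) / (x + c) := div_nonneg (by linarith) (by linarith)
  have y1 : (x - c) / (x + c) < 1 := by rw [div_lt_one (by linarith)]; linarith
  have a := sum_range_le_log_div y0 y1 n
  have b := log_div_le_sum_range_add y0 y1 n
  rw [log_ratio_eq hx hc, log_div hx.ne' hc.ne'] at a b
  simp only [logSer, logTail]
  constructor <;> linarith

/-- The bounds to the left of the anchor. -/
theorem log_le_anchor {x c : ℝ} (hx : 0 < x) (h : x ≤ c) (n : ℕ) :
    log x ≤ log c + logSer n ((x - c) / (x + c)) ∧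
      log c + logSer n ((x - c) / (x + c)) + logTail n ((x - c) / (x + c)) ≤ log x := by
  obtain ⟨a, b⟩ := log_ge_anchor hx h n
  rw [show (c - x) / (c + x) = -((x - c) / (x + c)) by rw [add_comm c x, ← neg_div, neg_sub],
    logSer_neg] at a b
  rw [logTail_neg] at b
  constructor <;> linarith

/-- The tangent lower bound for `x log x`, valid down to `0`. -/
theorem mul_log_ge_tangent {x c : ℝ} (hc : 0 < c) (hx : 0 ≤ x) :
    x * log c + x - c ≤ x * log x := by
  rcases hx.eq_or_lt with h | h
  · subst h; simp; exact hc.le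
  have := mul_le_mul_of_nonneg_left (one_sub_inv_le_log_of_pos (div_pos h hc)) hx
  rw [log_div h.ne' hc.ne', inv_div] at this
  have e : x * (1 - c / x) = x - c := by field_simp
  linarith

/-- The tangent upper bound for `x log x` on an interval reaching down to `0`. -/
theorem mul_log_le_const {x c : ℝ} (hx : 0 ≤ x) (h : x ≤ c) : x * log x ≤ x * log c := by
  rcases hx.eq_or_lt with h' | h'
  · simp [← h']
  exact mul_le_mul_of_nonneg_left (log_le_log h' h) hx

/-- Rational bounds for `log c` through the power of two below `c`. -/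
theorem log_shift {c : ℝ} (k : ℕ) (hc : 1 ≤ c * 2 ^ k) (n : ℕ) :
    logSer n ((c * 2 ^ k - 1) / (c * 2 ^ k + 1)) - k * log 2 ≤ log c ∧
      log c ≤ logSer n ((c * 2 ^ k - 1) / (c * 2 ^ k + 1))
        + logTail n ((c * 2 ^ k - 1) / (c * 2 ^ k + 1)) - k * log 2 := by
  have hp : (0 : ℝ) < 2 ^ k := by positivity
  have hc0 : 0 < c := pos_of_mul_pos_left (lt_of_lt_of_le one_pos hc) hp.le
  obtain ⟨a, b⟩ := log_ge_anchor one_pos hc n
  rw [log_one, zero_add, log_mul hc0.ne' hp.ne', log_pow] at a b
  constructor <;> linarith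

end Vale.Agent.P154.Q4
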