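import Vale.Agent.P154.Q4.PTri

/-!
# Kernel checks of the potential polynomial, part 6

All coefficients of `pEx A B` are nonnegative for these pairs of triangles. They are proved in a
single theorem so that the checks run one after another, each needing about four gigabytes.
-/

namespace Vale.Agent.P154.Q4

open Q3 (check)

theorem pcerts6 :
    (check 190 14 14 16 (pEx
      ![![0, 0, 1, 0], ![0, 0, 1, 1], ![1, 1, 5, 1]]
      ![![0, 0, 3, 1], ![0, 0, 1, 1], ![1, 1, 5, 1]]) = true) ∧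
    (check 193 14 14 16 (pEx
      ![![1, 1, 5, 1], ![0, 0, 1, 1], ![1, 1, 1, 1]]
      ![![0, 0, 1, 0], ![0, 0, 3, 1], ![1, 1, 5, 1]]) = true) ∧
    (check 193 14 14 16 (pEx
      ![![1, 1, 5, 1], ![0, 0, 1, 1], ![1, 1, 1, 1]]
      ![![0, 0, 3, 1], ![0, 0, 1, 1], ![1, 1, 5, 1]]) = true) ∧
    (check 193 14 14 16 (pEx
      ![![0, 0, 1, 0], ![0, 0, 3, 1], ![1, 1, 5, 1]]
      ![![1, 1, 5, 1], ![0, 0, 1, 1], ![1, 1, 1, 1]]) = true) ∧
    (check 193 14 14 16 (pEx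
      ![![0, 0, 3, 1], ![0, 0, 1, 1], ![1, 1, 5, 1]]
      ![![1, 1, 5, 1], ![0, 0, 1, 1], ![1, 1, 1, 1]]) = true) ∧
    (check 191 14 14 16 (pEx
      ![![1, 1, 5, 1], ![0, 0, 1, 1], ![1, 1, 1, 1]]
      ![![1, 1, 5, 1], ![0, 0, 1, 1], ![1, 1, 1, 1]]) = true) ∧
    (check 196 14 14 16 (pEx
      ![![0, 0, 1, 0], ![0, 0, 3, 1], ![1, 1, 13, 1]]
      ![![0, 1, 0, 0], ![0, 1, 1, 0], ![0, 4, 1, 1]]) = true) :=
  ⟨by decide +kernel,
   by decide +kernel,
   by decide +kernel,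
   by decide +kernel,
   by decide +kernel,
   by decide +kernel,
   by decide +kernel⟩

end Vale.Agent.P154.Q4
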