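import Vale.Agent.P154.Q4.PEval
import Vale.Agent.P154.Q4.PCert1
import Vale.Agent.P154.Q4.PCert2
import Vale.Agent.P154.Q4.PCert3
import Vale.Agent.P154.Q4.PCert4
import Vale.Agent.P154.Q4.PCert5
import Vale.Agent.P154.Q4.PCert6
import Vale.Agent.P154.Q4.PCert7
import Vale.Agent.P154.Q4.PCert8

/-!
# The checked triangles cover the ten pairs of sectors
-/

namespace Vale.Agent.P154.Q4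

/-- The corners of the four sectors. -/
def secTri : Fin 4 → Tri :=
  ![![![1, 1, 0, 0], ![1, 1, 1, 0], ![1, 1, 1, 1]],
    ![![0, 0, 1, 0], ![1, 1, 1, 0], ![1, 1, 1, 1]],
    ![![0, 0, 1, 0], ![0, 0, 1, 1], ![1, 1, 1, 1]],
    ![![0, 1, 0, 0], ![0, 1, 1, 0], ![0, 1, 1, 1]]]

theorem nn_node1 : NN
    ![![1, 1, 0, 0], ![1, 1, 1, 0], ![1, 1, 1, 1]]
    ![![0, 0, 1, 0], ![1, 1, 1, 0], ![1, 1, 5, 1]] :=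
  cutR (B₁ := ![![0, 0, 1, 0], ![1, 1, 4, 0], ![1, 1, 5, 1]]) (B₂ := ![![1, 1, 4, 0], ![1, 1, 1, 0], ![1, 1, 5, 1]]) 0 1 ![1, 1, 4, 0] 3 1 1 (by decide)
    (nn_of_check pcerts1.2.1) (nn_of_check pcerts1.2.2.1)

theorem nn_node2 : NN
    ![![1, 1, 0, 0], ![1, 1, 1, 0], ![1, 1, 1, 1]]
    ![![0, 0, 1, 0], ![1, 1, 1, 0], ![1, 1, 1, 1]] :=
  cutR (B₁ := ![![0, 0, 1, 0], ![1, 1, 1, 0], ![1, 1, 5, 1]]) (B₂ := ![![1, 1, 5, 1], ![1, 1, 1, 0], ![1, 1, 1, 1]]) 0 2 ![1, 1, 5, 1] 4 1 1 (by decide)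
    (nn_node1) (nn_of_check pcerts1.2.2.2.1)

theorem nn_node3 : NN
    ![![1, 1, 0, 0], ![1, 1, 1, 0], ![1, 1, 1, 1]]
    ![![0, 0, 1, 0], ![0, 0, 1, 1], ![1, 1, 5, 1]] :=
  cutR (B₁ := ![![0, 0, 1, 0], ![0, 0, 3, 1], ![1, 1, 5, 1]]) (B₂ := ![![0, 0, 3, 1], ![0, 0, 1, 1], ![1, 1, 5, 1]]) 0 1 ![0, 0, 3, 1] 2 1 1 (by decide)
    (nn_of_check pcerts1.2.2.2.2.1) (nn_of_check pcerts1.2.2.2.2.2.1)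

theorem nn_node4 : NN
    ![![1, 1, 0, 0], ![1, 1, 1, 0], ![1, 1, 1, 1]]
    ![![0, 0, 1, 0], ![0, 0, 1, 1], ![1, 1, 1, 1]] :=
  cutR (B₁ := ![![0, 0, 1, 0], ![0, 0, 1, 1], ![1, 1, 5, 1]]) (B₂ := ![![1, 1, 5, 1], ![0, 0, 1, 1], ![1, 1, 1, 1]]) 0 2 ![1, 1, 5, 1] 4 1 1 (by decide)
    (nn_node3) (nn_of_check pcerts1.2.2.2.2.2.2.1)

theorem nn_node5 : NN
    ![![1, 1, 0, 0], ![1, 1, 1, 0], ![1, 1, 1, 1]]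
    ![![0, 1, 0, 0], ![0, 1, 1, 0], ![0, 4, 1, 1]] :=
  cutR (B₁ := ![![0, 1, 0, 0], ![0, 3, 1, 0], ![0, 4, 1, 1]]) (B₂ := ![![0, 3, 1, 0], ![0, 1, 1, 0], ![0, 4, 1, 1]]) 0 1 ![0, 3, 1, 0] 2 1 1 (by decide)
    (nn_of_check pcerts1.2.2.2.2.2.2.2) (nn_of_check pcerts2.1)

theorem nn_node6 : NN
    ![![1, 1, 0, 0], ![1, 1, 1, 0], ![1, 1, 1, 1]]
    ![![0, 1, 0, 0], ![0, 1, 1, 0], ![0, 1, 1, 1]] :=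
  cutR (B₁ := ![![0, 1, 0, 0], ![0, 1, 1, 0], ![0, 4, 1, 1]]) (B₂ := ![![0, 4, 1, 1], ![0, 1, 1, 0], ![0, 1, 1, 1]]) 0 2 ![0, 4, 1, 1] 3 1 1 (by decide)
    (nn_node5) (nn_of_check pcerts2.2.1)

theorem nn_node7 : NN
    ![![0, 0, 1, 0], ![1, 1, 4, 0], ![1, 1, 5, 1]]
    ![![0, 0, 1, 0], ![1, 1, 1, 0], ![1, 1, 5, 1]] :=
  cutR (B₁ := ![![0, 0, 1, 0], ![1, 1, 4, 0], ![1, 1, 5, 1]]) (B₂ := ![![1, 1, 4, 0], ![1, 1, 1, 0], ![1, 1, 5, 1]]) 0 1 ![1, 1, 4, 0] 3 1 1 (by decide)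
    (nn_of_check pcerts2.2.2.1) (nn_of_check pcerts2.2.2.2.1)

theorem nn_node8 : NN
    ![![1, 1, 4, 0], ![1, 1, 1, 0], ![1, 1, 5, 1]]
    ![![0, 0, 1, 0], ![1, 1, 1, 0], ![1, 1, 5, 1]] :=
  cutR (B₁ := ![![0, 0, 1, 0], ![1, 1, 4, 0], ![1, 1, 5, 1]]) (B₂ := ![![1, 1, 4, 0], ![1, 1, 1, 0], ![1, 1, 5, 1]]) 0 1 ![1, 1, 4, 0] 3 1 1 (by decide)
    (nn_of_check pcerts2.2.2.2.2.1) (nn_of_check pcerts2.2.2.2.2.2.1)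

theorem nn_node9 : NN
    ![![0, 0, 1, 0], ![1, 1, 1, 0], ![1, 1, 5, 1]]
    ![![0, 0, 1, 0], ![1, 1, 1, 0], ![1, 1, 5, 1]] :=
  cutL (A₁ := ![![0, 0, 1, 0], ![1, 1, 4, 0], ![1, 1, 5, 1]]) (A₂ := ![![1, 1, 4, 0], ![1, 1, 1, 0], ![1, 1, 5, 1]]) 0 1 ![1, 1, 4, 0] 3 1 1 (by decide)
    (nn_node7) (nn_node8)

theorem nn_node10 : NN
    ![![0, 0, 1, 0], ![1, 1, 1, 0], ![1, 1, 5, 1]]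
    ![![1, 1, 5, 1], ![1, 1, 1, 0], ![1, 1, 1, 1]] :=
  cutL (A₁ := ![![0, 0, 1, 0], ![1, 1, 4, 0], ![1, 1, 5, 1]]) (A₂ := ![![1, 1, 4, 0], ![1, 1, 1, 0], ![1, 1, 5, 1]]) 0 1 ![1, 1, 4, 0] 3 1 1 (by decide)
    (nn_of_check pcerts2.2.2.2.2.2.2.1) (nn_of_check pcerts2.2.2.2.2.2.2.2)

theorem nn_node11 : NN
    ![![0, 0, 1, 0], ![1, 1, 1, 0], ![1, 1, 5, 1]]
    ![![0, 0, 1, 0], ![1, 1, 1, 0], ![1, 1, 1, 1]] :=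
  cutR (B₁ := ![![0, 0, 1, 0], ![1, 1, 1, 0], ![1, 1, 5, 1]]) (B₂ := ![![1, 1, 5, 1], ![1, 1, 1, 0], ![1, 1, 1, 1]]) 0 2 ![1, 1, 5, 1] 4 1 1 (by decide)
    (nn_node9) (nn_node10)

theorem nn_node12 : NN
    ![![1, 1, 5, 1], ![1, 1, 1, 0], ![1, 1, 1, 1]]
    ![![0, 0, 1, 0], ![1, 1, 1, 0], ![1, 1, 5, 1]] :=
  cutR (B₁ := ![![0, 0, 1, 0], ![1, 1, 4, 0], ![1, 1, 5, 1]]) (B₂ := ![![1, 1, 4, 0], ![1, 1, 1, 0], ![1, 1, 5, 1]]) 0 1 ![1, 1, 4, 0] 3 1 1 (by decide)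
    (nn_of_check pcerts3.1) (nn_of_check pcerts3.2.1)

theorem nn_node13 : NN
    ![![1, 1, 5, 1], ![1, 1, 1, 0], ![1, 1, 1, 1]]
    ![![0, 0, 1, 0], ![1, 1, 1, 0], ![1, 1, 1, 1]] :=
  cutR (B₁ := ![![0, 0, 1, 0], ![1, 1, 1, 0], ![1, 1, 5, 1]]) (B₂ := ![![1, 1, 5, 1], ![1, 1, 1, 0], ![1, 1, 1, 1]]) 0 2 ![1, 1, 5, 1] 4 1 1 (by decide)
    (nn_node12) (nn_of_check pcerts3.2.2.1)

theorem nn_node14 : NN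
    ![![0, 0, 1, 0], ![1, 1, 1, 0], ![1, 1, 1, 1]]
    ![![0, 0, 1, 0], ![1, 1, 1, 0], ![1, 1, 1, 1]] :=
  cutL (A₁ := ![![0, 0, 1, 0], ![1, 1, 1, 0], ![1, 1, 5, 1]]) (A₂ := ![![1, 1, 5, 1], ![1, 1, 1, 0], ![1, 1, 1, 1]]) 0 2 ![1, 1, 5, 1] 4 1 1 (by decide)
    (nn_node11) (nn_node13)

theorem nn_node15 : NN
    ![![0, 0, 1, 0], ![1, 1, 4, 0], ![1, 1, 5, 1]]
    ![![0, 0, 1, 0], ![0, 0, 1, 1], ![1, 1, 5, 1]] :=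
  cutR (B₁ := ![![0, 0, 1, 0], ![0, 0, 3, 1], ![1, 1, 5, 1]]) (B₂ := ![![0, 0, 3, 1], ![0, 0, 1, 1], ![1, 1, 5, 1]]) 0 1 ![0, 0, 3, 1] 2 1 1 (by decide)
    (nn_of_check pcerts3.2.2.2.1) (nn_of_check pcerts3.2.2.2.2.1)

theorem nn_node16 : NN
    ![![1, 1, 4, 0], ![1, 1, 1, 0], ![1, 1, 5, 1]]
    ![![0, 0, 1, 0], ![0, 0, 1, 1], ![1, 1, 5, 1]] :=
  cutR (B₁ := ![![0, 0, 1, 0], ![0, 0, 3, 1], ![1, 1, 5, 1]]) (B₂ := ![![0, 0, 3, 1], ![0, 0, 1, 1], ![1, 1, 5, 1]]) 0 1 ![0, 0, 3, 1] 2 1 1 (by decide)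
    (nn_of_check pcerts3.2.2.2.2.2.1) (nn_of_check pcerts3.2.2.2.2.2.2)

theorem nn_node17 : NN
    ![![0, 0, 1, 0], ![1, 1, 1, 0], ![1, 1, 5, 1]]
    ![![0, 0, 1, 0], ![0, 0, 1, 1], ![1, 1, 5, 1]] :=
  cutL (A₁ := ![![0, 0, 1, 0], ![1, 1, 4, 0], ![1, 1, 5, 1]]) (A₂ := ![![1, 1, 4, 0], ![1, 1, 1, 0], ![1, 1, 5, 1]]) 0 1 ![1, 1, 4, 0] 3 1 1 (by decide)
    (nn_node15) (nn_node16)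

theorem nn_node18 : NN
    ![![0, 0, 1, 0], ![1, 1, 1, 0], ![1, 1, 5, 1]]
    ![![1, 1, 5, 1], ![0, 0, 1, 1], ![1, 1, 1, 1]] :=
  cutL (A₁ := ![![0, 0, 1, 0], ![1, 1, 4, 0], ![1, 1, 5, 1]]) (A₂ := ![![1, 1, 4, 0], ![1, 1, 1, 0], ![1, 1, 5, 1]]) 0 1 ![1, 1, 4, 0] 3 1 1 (by decide)
    (nn_of_check pcerts4.1) (nn_of_check pcerts4.2.1)

theorem nn_node19 : NN
    ![![0, 0, 1, 0], ![1, 1, 1, 0], ![1, 1, 5, 1]]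
    ![![0, 0, 1, 0], ![0, 0, 1, 1], ![1, 1, 1, 1]] :=
  cutR (B₁ := ![![0, 0, 1, 0], ![0, 0, 1, 1], ![1, 1, 5, 1]]) (B₂ := ![![1, 1, 5, 1], ![0, 0, 1, 1], ![1, 1, 1, 1]]) 0 2 ![1, 1, 5, 1] 4 1 1 (by decide)
    (nn_node17) (nn_node18)

theorem nn_node20 : NN
    ![![1, 1, 5, 1], ![1, 1, 1, 0], ![1, 1, 1, 1]]
    ![![0, 0, 1, 0], ![0, 0, 1, 1], ![1, 1, 5, 1]] :=
  cutR (B₁ := ![![0, 0, 1, 0], ![0, 0, 3, 1], ![1, 1, 5, 1]]) (B₂ := ![![0, 0, 3, 1], ![0, 0, 1, 1], ![1, 1, 5, 1]]) 0 1 ![0, 0, 3, 1] 2 1 1 (by decide)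
    (nn_of_check pcerts4.2.2.1) (nn_of_check pcerts4.2.2.2.1)

theorem nn_node21 : NN
    ![![1, 1, 5, 1], ![1, 1, 1, 0], ![1, 1, 1, 1]]
    ![![0, 0, 1, 0], ![0, 0, 1, 1], ![1, 1, 1, 1]] :=
  cutR (B₁ := ![![0, 0, 1, 0], ![0, 0, 1, 1], ![1, 1, 5, 1]]) (B₂ := ![![1, 1, 5, 1], ![0, 0, 1, 1], ![1, 1, 1, 1]]) 0 2 ![1, 1, 5, 1] 4 1 1 (by decide)
    (nn_node20) (nn_of_check pcerts4.2.2.2.2.1)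

theorem nn_node22 : NN
    ![![0, 0, 1, 0], ![1, 1, 1, 0], ![1, 1, 1, 1]]
    ![![0, 0, 1, 0], ![0, 0, 1, 1], ![1, 1, 1, 1]] :=
  cutL (A₁ := ![![0, 0, 1, 0], ![1, 1, 1, 0], ![1, 1, 5, 1]]) (A₂ := ![![1, 1, 5, 1], ![1, 1, 1, 0], ![1, 1, 1, 1]]) 0 2 ![1, 1, 5, 1] 4 1 1 (by decide)
    (nn_node19) (nn_node21)

theorem nn_node23 : NN
    ![![0, 0, 1, 0], ![1, 1, 4, 0], ![1, 1, 5, 1]]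
    ![![0, 1, 0, 0], ![0, 1, 1, 0], ![0, 4, 1, 1]] :=
  cutR (B₁ := ![![0, 1, 0, 0], ![0, 3, 1, 0], ![0, 4, 1, 1]]) (B₂ := ![![0, 3, 1, 0], ![0, 1, 1, 0], ![0, 4, 1, 1]]) 0 1 ![0, 3, 1, 0] 2 1 1 (by decide)
    (nn_of_check pcerts4.2.2.2.2.2.1) (nn_of_check pcerts4.2.2.2.2.2.2.1)

theorem nn_node24 : NN
    ![![1, 1, 4, 0], ![1, 1, 1, 0], ![1, 1, 5, 1]]
    ![![0, 1, 0, 0], ![0, 1, 1, 0], ![0, 4, 1, 1]] :=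
  cutR (B₁ := ![![0, 1, 0, 0], ![0, 3, 1, 0], ![0, 4, 1, 1]]) (B₂ := ![![0, 3, 1, 0], ![0, 1, 1, 0], ![0, 4, 1, 1]]) 0 1 ![0, 3, 1, 0] 2 1 1 (by decide)
    (nn_of_check pcerts4.2.2.2.2.2.2.2) (nn_of_check pcerts5.1)

theorem nn_node25 : NN
    ![![0, 0, 1, 0], ![1, 1, 1, 0], ![1, 1, 5, 1]]
    ![![0, 1, 0, 0], ![0, 1, 1, 0], ![0, 4, 1, 1]] :=
  cutL (A₁ := ![![0, 0, 1, 0], ![1, 1, 4, 0], ![1, 1, 5, 1]]) (A₂ := ![![1, 1, 4, 0], ![1, 1, 1, 0], ![1, 1, 5, 1]]) 0 1 ![1, 1, 4, 0] 3 1 1 (by decide)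
    (nn_node23) (nn_node24)

theorem nn_node26 : NN
    ![![0, 0, 1, 0], ![1, 1, 1, 0], ![1, 1, 5, 1]]
    ![![0, 4, 1, 1], ![0, 1, 1, 0], ![0, 1, 1, 1]] :=
  cutL (A₁ := ![![0, 0, 1, 0], ![1, 1, 4, 0], ![1, 1, 5, 1]]) (A₂ := ![![1, 1, 4, 0], ![1, 1, 1, 0], ![1, 1, 5, 1]]) 0 1 ![1, 1, 4, 0] 3 1 1 (by decide)
    (nn_of_check pcerts5.2.1) (nn_of_check pcerts5.2.2.1)

theorem nn_node27 : NN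
    ![![0, 0, 1, 0], ![1, 1, 1, 0], ![1, 1, 5, 1]]
    ![![0, 1, 0, 0], ![0, 1, 1, 0], ![0, 1, 1, 1]] :=
  cutR (B₁ := ![![0, 1, 0, 0], ![0, 1, 1, 0], ![0, 4, 1, 1]]) (B₂ := ![![0, 4, 1, 1], ![0, 1, 1, 0], ![0, 1, 1, 1]]) 0 2 ![0, 4, 1, 1] 3 1 1 (by decide)
    (nn_node25) (nn_node26)

theorem nn_node28 : NN
    ![![1, 1, 5, 1], ![1, 1, 1, 0], ![1, 1, 1, 1]]
    ![![0, 1, 0, 0], ![0, 1, 1, 0], ![0, 4, 1, 1]] :=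
  cutR (B₁ := ![![0, 1, 0, 0], ![0, 3, 1, 0], ![0, 4, 1, 1]]) (B₂ := ![![0, 3, 1, 0], ![0, 1, 1, 0], ![0, 4, 1, 1]]) 0 1 ![0, 3, 1, 0] 2 1 1 (by decide)
    (nn_of_check pcerts5.2.2.2.1) (nn_of_check pcerts5.2.2.2.2.1)

theorem nn_node29 : NN
    ![![1, 1, 5, 1], ![1, 1, 1, 0], ![1, 1, 1, 1]]
    ![![0, 1, 0, 0], ![0, 1, 1, 0], ![0, 1, 1, 1]] :=
  cutR (B₁ := ![![0, 1, 0, 0], ![0, 1, 1, 0], ![0, 4, 1, 1]]) (B₂ := ![![0, 4, 1, 1], ![0, 1, 1, 0], ![0, 1, 1, 1]]) 0 2 ![0, 4, 1, 1] 3 1 1 (by decide)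
    (nn_node28) (nn_of_check pcerts5.2.2.2.2.2.1)

theorem nn_node30 : NN
    ![![0, 0, 1, 0], ![1, 1, 1, 0], ![1, 1, 1, 1]]
    ![![0, 1, 0, 0], ![0, 1, 1, 0], ![0, 1, 1, 1]] :=
  cutL (A₁ := ![![0, 0, 1, 0], ![1, 1, 1, 0], ![1, 1, 5, 1]]) (A₂ := ![![1, 1, 5, 1], ![1, 1, 1, 0], ![1, 1, 1, 1]]) 0 2 ![1, 1, 5, 1] 4 1 1 (by decide)
    (nn_node27) (nn_node29)

theorem nn_node31 : NN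
    ![![0, 0, 1, 0], ![0, 0, 1, 1], ![1, 1, 5, 1]]
    ![![0, 0, 1, 0], ![0, 0, 3, 1], ![1, 1, 5, 1]] :=
  cutL (A₁ := ![![0, 0, 1, 0], ![0, 0, 3, 1], ![1, 1, 5, 1]]) (A₂ := ![![0, 0, 3, 1], ![0, 0, 1, 1], ![1, 1, 5, 1]]) 0 1 ![0, 0, 3, 1] 2 1 1 (by decide)
    (nn_of_check pcerts5.2.2.2.2.2.2.1) (nn_of_check pcerts5.2.2.2.2.2.2.2)

theorem nn_node32 : NN
    ![![0, 0, 1, 0], ![0, 0, 1, 1], ![1, 1, 5, 1]]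
    ![![0, 0, 1, 0], ![0, 0, 1, 1], ![1, 1, 5, 1]] :=
  cutR (B₁ := ![![0, 0, 1, 0], ![0, 0, 3, 1], ![1, 1, 5, 1]]) (B₂ := ![![0, 0, 3, 1], ![0, 0, 1, 1], ![1, 1, 5, 1]]) 0 1 ![0, 0, 3, 1] 2 1 1 (by decide)
    (nn_node31) (nn_of_check pcerts6.1)

theorem nn_node33 : NN
    ![![1, 1, 5, 1], ![0, 0, 1, 1], ![1, 1, 1, 1]]
    ![![0, 0, 1, 0], ![0, 0, 1, 1], ![1, 1, 5, 1]] :=
  cutR (B₁ := ![![0, 0, 1, 0], ![0, 0, 3, 1], ![1, 1, 5, 1]]) (B₂ := ![![0, 0, 3, 1], ![0, 0, 1, 1], ![1, 1, 5, 1]]) 0 1 ![0, 0, 3, 1] 2 1 1 (by decide)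
    (nn_of_check pcerts6.2.1) (nn_of_check pcerts6.2.2.1)

theorem nn_node34 : NN
    ![![0, 0, 1, 0], ![0, 0, 1, 1], ![1, 1, 1, 1]]
    ![![0, 0, 1, 0], ![0, 0, 1, 1], ![1, 1, 5, 1]] :=
  cutL (A₁ := ![![0, 0, 1, 0], ![0, 0, 1, 1], ![1, 1, 5, 1]]) (A₂ := ![![1, 1, 5, 1], ![0, 0, 1, 1], ![1, 1, 1, 1]]) 0 2 ![1, 1, 5, 1] 4 1 1 (by decide)
    (nn_node32) (nn_node33)

theorem nn_node35 : NN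
    ![![0, 0, 1, 0], ![0, 0, 1, 1], ![1, 1, 5, 1]]
    ![![1, 1, 5, 1], ![0, 0, 1, 1], ![1, 1, 1, 1]] :=
  cutL (A₁ := ![![0, 0, 1, 0], ![0, 0, 3, 1], ![1, 1, 5, 1]]) (A₂ := ![![0, 0, 3, 1], ![0, 0, 1, 1], ![1, 1, 5, 1]]) 0 1 ![0, 0, 3, 1] 2 1 1 (by decide)
    (nn_of_check pcerts6.2.2.2.1) (nn_of_check pcerts6.2.2.2.2.1)

theorem nn_node36 : NN
    ![![0, 0, 1, 0], ![0, 0, 1, 1], ![1, 1, 1, 1]]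
    ![![1, 1, 5, 1], ![0, 0, 1, 1], ![1, 1, 1, 1]] :=
  cutL (A₁ := ![![0, 0, 1, 0], ![0, 0, 1, 1], ![1, 1, 5, 1]]) (A₂ := ![![1, 1, 5, 1], ![0, 0, 1, 1], ![1, 1, 1, 1]]) 0 2 ![1, 1, 5, 1] 4 1 1 (by decide)
    (nn_node35) (nn_of_check pcerts6.2.2.2.2.2.1)

theorem nn_node37 : NN
    ![![0, 0, 1, 0], ![0, 0, 1, 1], ![1, 1, 1, 1]]
    ![![0, 0, 1, 0], ![0, 0, 1, 1], ![1, 1, 1, 1]] :=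
  cutR (B₁ := ![![0, 0, 1, 0], ![0, 0, 1, 1], ![1, 1, 5, 1]]) (B₂ := ![![1, 1, 5, 1], ![0, 0, 1, 1], ![1, 1, 1, 1]]) 0 2 ![1, 1, 5, 1] 4 1 1 (by decide)
    (nn_node34) (nn_node36)

theorem nn_node38 : NN
    ![![0, 0, 1, 0], ![0, 0, 3, 1], ![1, 1, 5, 1]]
    ![![0, 1, 0, 0], ![0, 1, 1, 0], ![0, 4, 1, 1]] :=
  cutL (A₁ := ![![0, 0, 1, 0], ![0, 0, 3, 1], ![1, 1, 13, 1]]) (A₂ := ![![1, 1, 13, 1], ![0, 0, 3, 1], ![1, 1, 5, 1]]) 0 2 ![1, 1, 13, 1] 8 1 1 (by decide)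
    (nn_of_check pcerts6.2.2.2.2.2.2) (nn_of_check pcerts7.1)

theorem nn_node39 : NN
    ![![0, 0, 1, 0], ![0, 0, 1, 1], ![1, 1, 5, 1]]
    ![![0, 1, 0, 0], ![0, 1, 1, 0], ![0, 4, 1, 1]] :=
  cutL (A₁ := ![![0, 0, 1, 0], ![0, 0, 3, 1], ![1, 1, 5, 1]]) (A₂ := ![![0, 0, 3, 1], ![0, 0, 1, 1], ![1, 1, 5, 1]]) 0 1 ![0, 0, 3, 1] 2 1 1 (by decide)
    (nn_node38) (nn_of_check pcerts7.2.1)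

theorem nn_node40 : NN
    ![![0, 0, 1, 0], ![0, 0, 1, 1], ![1, 1, 5, 1]]
    ![![0, 4, 1, 1], ![0, 1, 1, 0], ![0, 1, 1, 1]] :=
  cutL (A₁ := ![![0, 0, 1, 0], ![0, 0, 3, 1], ![1, 1, 5, 1]]) (A₂ := ![![0, 0, 3, 1], ![0, 0, 1, 1], ![1, 1, 5, 1]]) 0 1 ![0, 0, 3, 1] 2 1 1 (by decide)
    (nn_of_check pcerts7.2.2.1) (nn_of_check pcerts7.2.2.2.1)

theorem nn_node41 : NN
    ![![0, 0, 1, 0], ![0, 0, 1, 1], ![1, 1, 5, 1]]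
    ![![0, 1, 0, 0], ![0, 1, 1, 0], ![0, 1, 1, 1]] :=
  cutR (B₁ := ![![0, 1, 0, 0], ![0, 1, 1, 0], ![0, 4, 1, 1]]) (B₂ := ![![0, 4, 1, 1], ![0, 1, 1, 0], ![0, 1, 1, 1]]) 0 2 ![0, 4, 1, 1] 3 1 1 (by decide)
    (nn_node39) (nn_node40)

theorem nn_node42 : NN
    ![![1, 1, 5, 1], ![0, 0, 1, 1], ![1, 1, 1, 1]]
    ![![0, 1, 0, 0], ![0, 1, 1, 0], ![0, 4, 1, 1]] :=
  cutR (B₁ := ![![0, 1, 0, 0], ![0, 3, 1, 0], ![0, 4, 1, 1]]) (B₂ := ![![0, 3, 1, 0], ![0, 1, 1, 0], ![0, 4, 1, 1]]) 0 1 ![0, 3, 1, 0] 2 1 1 (by decide)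
    (nn_of_check pcerts7.2.2.2.2.1) (nn_of_check pcerts7.2.2.2.2.2.1)

theorem nn_node43 : NN
    ![![1, 1, 5, 1], ![0, 0, 1, 1], ![1, 1, 1, 1]]
    ![![0, 1, 0, 0], ![0, 1, 1, 0], ![0, 1, 1, 1]] :=
  cutR (B₁ := ![![0, 1, 0, 0], ![0, 1, 1, 0], ![0, 4, 1, 1]]) (B₂ := ![![0, 4, 1, 1], ![0, 1, 1, 0], ![0, 1, 1, 1]]) 0 2 ![0, 4, 1, 1] 3 1 1 (by decide)
    (nn_node42) (nn_of_check pcerts7.2.2.2.2.2.2.1)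

theorem nn_node44 : NN
    ![![0, 0, 1, 0], ![0, 0, 1, 1], ![1, 1, 1, 1]]
    ![![0, 1, 0, 0], ![0, 1, 1, 0], ![0, 1, 1, 1]] :=
  cutL (A₁ := ![![0, 0, 1, 0], ![0, 0, 1, 1], ![1, 1, 5, 1]]) (A₂ := ![![1, 1, 5, 1], ![0, 0, 1, 1], ![1, 1, 1, 1]]) 0 2 ![1, 1, 5, 1] 4 1 1 (by decide)
    (nn_node41) (nn_node43)

theorem nn_node45 : NN
    ![![0, 1, 0, 0], ![0, 3, 1, 0], ![0, 4, 1, 1]]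
    ![![0, 1, 0, 0], ![0, 1, 1, 0], ![0, 4, 1, 1]] :=
  cutL (A₁ := ![![0, 1, 0, 0], ![0, 3, 1, 0], ![0, 10, 1, 1]]) (A₂ := ![![0, 10, 1, 1], ![0, 3, 1, 0], ![0, 4, 1, 1]]) 0 2 ![0, 10, 1, 1] 6 1 1 (by decide)
    (nn_of_check pcerts7.2.2.2.2.2.2.2) (nn_of_check pcerts8.1)

theorem nn_node46 : NN
    ![![0, 1, 0, 0], ![0, 1, 1, 0], ![0, 4, 1, 1]]
    ![![0, 1, 0, 0], ![0, 1, 1, 0], ![0, 4, 1, 1]] :=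
  cutL (A₁ := ![![0, 1, 0, 0], ![0, 3, 1, 0], ![0, 4, 1, 1]]) (A₂ := ![![0, 3, 1, 0], ![0, 1, 1, 0], ![0, 4, 1, 1]]) 0 1 ![0, 3, 1, 0] 2 1 1 (by decide)
    (nn_node45) (nn_of_check pcerts8.2.1)

theorem nn_node47 : NN
    ![![0, 4, 1, 1], ![0, 1, 1, 0], ![0, 1, 1, 1]]
    ![![0, 1, 0, 0], ![0, 1, 1, 0], ![0, 4, 1, 1]] :=
  cutR (B₁ := ![![0, 1, 0, 0], ![0, 3, 1, 0], ![0, 4, 1, 1]]) (B₂ := ![![0, 3, 1, 0], ![0, 1, 1, 0], ![0, 4, 1, 1]]) 0 1 ![0, 3, 1, 0] 2 1 1 (by decide)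
    (nn_of_check pcerts8.2.2.1) (nn_of_check pcerts8.2.2.2.1)

theorem nn_node48 : NN
    ![![0, 1, 0, 0], ![0, 1, 1, 0], ![0, 1, 1, 1]]
    ![![0, 1, 0, 0], ![0, 1, 1, 0], ![0, 4, 1, 1]] :=
  cutL (A₁ := ![![0, 1, 0, 0], ![0, 1, 1, 0], ![0, 4, 1, 1]]) (A₂ := ![![0, 4, 1, 1], ![0, 1, 1, 0], ![0, 1, 1, 1]]) 0 2 ![0, 4, 1, 1] 3 1 1 (by decide)
    (nn_node46) (nn_node47)

theorem nn_node49 : NN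
    ![![0, 1, 0, 0], ![0, 1, 1, 0], ![0, 4, 1, 1]]
    ![![0, 4, 1, 1], ![0, 1, 1, 0], ![0, 1, 1, 1]] :=
  cutL (A₁ := ![![0, 1, 0, 0], ![0, 3, 1, 0], ![0, 4, 1, 1]]) (A₂ := ![![0, 3, 1, 0], ![0, 1, 1, 0], ![0, 4, 1, 1]]) 0 1 ![0, 3, 1, 0] 2 1 1 (by decide)
    (nn_of_check pcerts8.2.2.2.2.1) (nn_of_check pcerts8.2.2.2.2.2.1)

theorem nn_node50 : NN
    ![![0, 1, 0, 0], ![0, 1, 1, 0], ![0, 1, 1, 1]]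
    ![![0, 4, 1, 1], ![0, 1, 1, 0], ![0, 1, 1, 1]] :=
  cutL (A₁ := ![![0, 1, 0, 0], ![0, 1, 1, 0], ![0, 4, 1, 1]]) (A₂ := ![![0, 4, 1, 1], ![0, 1, 1, 0], ![0, 1, 1, 1]]) 0 2 ![0, 4, 1, 1] 3 1 1 (by decide)
    (nn_node49) (nn_of_check pcerts8.2.2.2.2.2.2)

theorem nn_node51 : NN
    ![![0, 1, 0, 0], ![0, 1, 1, 0], ![0, 1, 1, 1]]
    ![![0, 1, 0, 0], ![0, 1, 1, 0], ![0, 1, 1, 1]] :=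
  cutR (B₁ := ![![0, 1, 0, 0], ![0, 1, 1, 0], ![0, 4, 1, 1]]) (B₂ := ![![0, 4, 1, 1], ![0, 1, 1, 0], ![0, 1, 1, 1]]) 0 2 ![0, 4, 1, 1] 3 1 1 (by decide)
    (nn_node48) (nn_node50)

theorem nn00 : NN (secTri 0) (secTri 0) :=
  nn_of_check pcerts1.1

theorem nn01 : NN (secTri 0) (secTri 1) :=
  nn_node2

theorem nn02 : NN (secTri 0) (secTri 2) :=
  nn_node4

theorem nn03 : NN (secTri 0) (secTri 3) :=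
  nn_node6

theorem nn11 : NN (secTri 1) (secTri 1) :=
  nn_node14

theorem nn12 : NN (secTri 1) (secTri 2) :=
  nn_node22

theorem nn13 : NN (secTri 1) (secTri 3) :=
  nn_node30

theorem nn22 : NN (secTri 2) (secTri 2) :=
  nn_node37

theorem nn23 : NN (secTri 2) (secTri 3) :=
  nn_node44

theorem nn33 : NN (secTri 3) (secTri 3) :=
  nn_node51

end Vale.Agent.P154.Q4
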