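import Vale.Agent.P154.Q4.PTri
import Vale.Agent.P154.Q4.GPointwise

/-!
# Evaluation of the potential polynomial and subdivision of triangles
-/

namespace Vale.Agent.P154.Q4

open Finset Q3

section EvHom

variable (p : Fin 6 → ℝ) (a b c d a' b' c' d' U V m m' X W N A B dd ee : Ex)

theorem ev_dTerm : Ex.ev p (dTerm Ex.num U W) = dTerm kR (Ex.ev p U) (Ex.ev p W) := by
  simp [dTerm, kR]

theorem ev_dT : Ex.ev p (dT Ex.num a b c d)
    = dT kR (Ex.ev p a) (Ex.ev p b) (Ex.ev p c) (Ex.ev p d) := by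
  simp [dT, ev_totT, ev_dTerm, kR]

theorem ev_oT : Ex.ev p (oT Ex.num a b c d)
    = oT kR (Ex.ev p a) (Ex.ev p b) (Ex.ev p c) (Ex.ev p d) := by
  simp [oT, ev_totT, ev_m2T, kR]

theorem ev_wLog : Ex.ev p (wLog Ex.num X W) = wLog kR (Ex.ev p X) (Ex.ev p W) := by
  simp [wLog, kR]

theorem ev_zet : Ex.ev p (zet Ex.num U V m m' W dd ee) = zet kR (Ex.ev p U) (Ex.ev p V)
    (Ex.ev p m) (Ex.ev p m') (Ex.ev p W) (Ex.ev p dd) (Ex.ev p ee) := by
  simp [zet, kR]

theorem ev_accW : Ex.ev p (accW Ex.num X W N A B)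
    = accW kR (Ex.ev p X) (Ex.ev p W) (Ex.ev p N) (Ex.ev p A) (Ex.ev p B) := by
  simp [accW, kR]

theorem ev_pPair : Ex.ev p (pPair Ex.num U V m m' a b c d a' b' c' d')
    = pPair kR (Ex.ev p U) (Ex.ev p V) (Ex.ev p m) (Ex.ev p m') (Ex.ev p a) (Ex.ev p b)
      (Ex.ev p c) (Ex.ev p d) (Ex.ev p a') (Ex.ev p b') (Ex.ev p c') (Ex.ev p d') := by
  simp [pPair, ev_zet, ev_accW, ev_wLog, kR]

theorem ev_pH : Ex.ev p (pH Ex.num a b c d a' b' c' d')
    = pH kR (Ex.ev p a) (Ex.ev p b) (Ex.ev p c) (Ex.ev p d)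
      (Ex.ev p a') (Ex.ev p b') (Ex.ev p c') (Ex.ev p d') := by
  have := ev_sum4 p a' b' c' d'
    (pPair Ex.num (totT a b c d) (totT a' b' c' d') (m2T Ex.num a b c d) (m2T Ex.num a' b' c' d')
      a b c d)
    (pPair kR (Ex.ev p (totT a b c d)) (Ex.ev p (totT a' b' c' d')) (Ex.ev p (m2T Ex.num a b c d))
      (Ex.ev p (m2T Ex.num a' b' c' d')) (Ex.ev p a) (Ex.ev p b) (Ex.ev p c) (Ex.ev p d))
    fun x y z w => ev_pPair p a b c d x y z w _ _ _ _
  simp [pH, ev_totT, ev_m2T, ev_dT, ev_oT, this, kR]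

end EvHom

/-- The point of `A` with weights `w`. -/
def triR (A : Tri) (w : Fin 3 → ℝ) (r : Fin 4) : ℝ := ∑ k, w k * (A k r : ℝ)

/-- `pH` at two points. -/
def pAt (u v : Fin 4 → ℝ) : ℝ :=
  pH kR (u 0) (u 1) (u 2) (u 3) (v 0) (v 1) (v 2) (v 3)

/-- Nonnegativity on a pair of cones over triangles. -/
def NN (A B : Tri) : Prop :=
  ∀ w w' : Fin 3 → ℝ, (∀ k, 0 ≤ w k) → (∀ k, 0 ≤ w' k) → 0 ≤ pAt (triR A w) (triR B w')

theorem nn_of_check {A B : Tri} {K : ℕ} (h : check K 14 14 16 (pEx A B) = true) : NN A B := by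
  intro w w' hw hw'
  have := ev_nonneg_of_check h ![w 0, w 1, w 2, w' 0, w' 1, w' 2] (fun i => by
    fin_cases i <;> simp [hw, hw'])
  simp only [pEx, ev_pH] at this
  simpa [pAt, triEx, triR, Fin.sum_univ_three, mul_comm] using this

/-- `A'` is `A` with corner `j` replaced by `m`. -/
def Replaced (A A' : Tri) (j : Fin 3) (m : Fin 4 → ℕ) : Prop :=
  ∀ k r, A' k r = if k = j then m r else A k r

instance (A A' : Tri) (j : Fin 3) (m : Fin 4 → ℕ) : Decidable (Replaced A A' j m) :=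
  inferInstanceAs (Decidable (∀ k r, A' k r = if k = j then m r else A k r))

/-- The data of one cut of the edge `i j` at `m = (α A_i + β A_j) / g`. -/
def IsCut (A A₁ A₂ : Tri) (i j : Fin 3) (m : Fin 4 → ℕ) (α β g : ℕ) : Prop :=
  i ≠ j ∧ 0 < α ∧ 0 < β ∧ Replaced A A₁ j m ∧ Replaced A A₂ i m ∧
    ∀ r, g * m r = α * A i r + β * A j r

instance (A A₁ A₂ : Tri) (i j : Fin 3) (m : Fin 4 → ℕ) (α β g : ℕ) :
    Decidable (IsCut A A₁ A₂ i j m α β g) :=
  inferInstanceAs (Decidable (_ ∧ _ ∧ _ ∧ _ ∧ _ ∧ _))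

theorem tri_cut {A A₁ A₂ : Tri} {i j : Fin 3} {m : Fin 4 → ℕ} {α β g : ℕ}
    (h : IsCut A A₁ A₂ i j m α β g) {w : Fin 3 → ℝ} (hw : ∀ k, 0 ≤ w k) :
    ∃ w', (∀ k, 0 ≤ w' k) ∧ (triR A w = triR A₁ w' ∨ triR A w = triR A₂ w') := by
  obtain ⟨hij, ha, hb, h1, h2, hm⟩ := h
  have hα : (0 : ℝ) < α := by exact_mod_cast ha
  have hβ : (0 : ℝ) < β := by exact_mod_cast hb
  have key : ∀ r, (g : ℝ) * m r = α * A i r + β * A j r := fun r => by exact_mod_cast hm r
  have third : ∀ i j : Fin 3, i ≠ j →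
      ∃ k, k ≠ i ∧ k ≠ j ∧ (univ : Finset (Fin 3)) = insert i (insert j {k}) := by decide
  have split : ∀ (f : Fin 3 → ℝ), ∃ k, k ≠ i ∧ k ≠ j ∧ ∑ l, f l = f i + f j + f k := by
    intro f
    obtain ⟨k, hki, hkj, e⟩ := third i j hij
    refine ⟨k, hki, hkj, ?_⟩
    rw [e, sum_insert (by simp [hij, hki.symm]), sum_insert (by simp [hkj.symm]), sum_singleton,
      add_assoc]
  rcases le_total (w i * β) (w j * α) with hc | hc
  · refine ⟨fun k => if k = i then g * w i / α else if k = j then w j - β * w i / α else w k,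
      fun k => ?_, Or.inr (funext fun r => ?_)⟩
    · dsimp only
      split_ifs
      · exact div_nonneg (mul_nonneg (Nat.cast_nonneg g) (hw i)) hα.le
      · rw [sub_nonneg, div_le_iff₀ hα]
        linarith
      · exact hw k
    · rw [triR, triR, ← sub_eq_zero, ← sum_sub_distrib]
      obtain ⟨k, hki, hkj, e⟩ := split fun l => w l * (A l r : ℝ)
        - (if l = i then g * w i / α else if l = j then w j - β * w i / α else w l) * (A₂ l r : ℝ)
      rw [e, h2 i r, h2 j r, h2 k r]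
      simp only [if_true, hij.symm, hki, hkj, if_false]
      have := key r
      field_simp
      linear_combination (-(w i)) * this
  · refine ⟨fun k => if k = j then g * w j / β else if k = i then w i - α * w j / β else w k,
      fun k => ?_, Or.inl (funext fun r => ?_)⟩
    · dsimp only
      split_ifs
      · exact div_nonneg (mul_nonneg (Nat.cast_nonneg g) (hw j)) hβ.le
      · rw [sub_nonneg, div_le_iff₀ hβ]
        linarith
      · exact hw k
    · rw [triR, triR, ← sub_eq_zero, ← sum_sub_distrib]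
      obtain ⟨k, hki, hkj, e⟩ := split fun l => w l * (A l r : ℝ)
        - (if l = j then g * w j / β else if l = i then w i - α * w j / β else w l) * (A₁ l r : ℝ)
      rw [e, h1 i r, h1 j r, h1 k r]
      simp only [if_true, hij, hki, hkj, if_false]
      have := key r
      field_simp
      linear_combination (-(w j)) * this

theorem cutL {A A₁ A₂ B : Tri} (i j : Fin 3) (m : Fin 4 → ℕ) (α β g : ℕ)
    (h : IsCut A A₁ A₂ i j m α β g) (n₁ : NN A₁ B) (n₂ : NN A₂ B) : NN A B := by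
  intro w w' hw hw'
  obtain ⟨x, hx, e | e⟩ := tri_cut h hw <;> rw [e]
  exacts [n₁ x w' hx hw', n₂ x w' hx hw']

theorem cutR {A B B₁ B₂ : Tri} (i j : Fin 3) (m : Fin 4 → ℕ) (α β g : ℕ)
    (h : IsCut B B₁ B₂ i j m α β g) (n₁ : NN A B₁) (n₂ : NN A B₂) : NN A B := by
  intro w w' hw hw'
  obtain ⟨x, hx, e | e⟩ := tri_cut h hw' <;> rw [e]
  exacts [n₁ w x hw hx, n₂ w x hw hx]

end Vale.Agent.P154.Q4
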