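import Vale.Agent.P154.Q4.GExprs

/-!
# The potential polynomial for four states

`pH u v` is homogeneous of bidegree `(13, 13)`. On the simplex it is a positive multiple of a lower
bound for the defect in the potential inequality.
-/

namespace Vale.Agent.P154.Q4

section Hom

variable {R : Type} [Add R] [Mul R] [Sub R] (k : ℤ → R)

/-- Minus `3 * 2 ^ 40` times the majorant of `(1 + x) log (1 + x)`, without its terms of order
below three, homogenised to degree thirteen. -/
def dTerm (U x : R) : R :=
  let p1 := U
  let p2 := p1 * p1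
  let p3 := p1 * p2
  let p4 := p2 * p2
  let p5 := p2 * p3
  let p6 := p3 * p3
  let p7 := p3 * p4
  let p8 := p4 * p4
  let p9 := p4 * p5
  let p10 := p5 * p5
  k (-1) * (x * (x * x) * (k (-549755813888) * p10 + x * (k 283728151368 * p9 + x * (k (-162788266821) * p8 + x * (k 53439069576 * p7 + x * (k (-36071082066) * p6 + x * (k 145278727278 * p5 + x * (k (-209428403115) * p4 + x * (k 144559607460 * p3 + x * (k (-53331423360) * p2 + x * (k 10164685272 * p1 + x * (k (-788182158)))))))))))))

/-- `3 * 2 ^ 43` times the lower bound of the potential. -/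
def dT (a b c d : R) : R :=
  let U := totT a b c d
  dTerm k U (k 4 * a - U) + dTerm k U (k 4 * b - U) + dTerm k U (k 4 * c - U)
    + dTerm k U (k 4 * d - U)

/-- `409600` times the weight `1 - L`, of degree six. -/
def oT (a b c d : R) : R :=
  let U := totT a b c d
  let m := m2T k a b c d
  k 100096 * (m * (U * U * (U * U))) + k (-9168) * (m * m * (U * U)) + k 305 * (m * m * m)

/-- `2 ^ 32` times the minorant of `W log W`, homogenised to degree seven, `x = W - X`. -/
def wLog (X x : R) : R :=
  let p1 := X
  let p2 := p1 * p1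
  let p3 := p1 * p2
  let p4 := p2 * p2
  let p5 := p2 * p3
  let p6 := p3 * p3
  x * (k 4294967296 * p6 + x * (k 2084339942 * p5 + x * (k (-639849186) * p4 + x * (k 489297179 * p3 + x * (k (-425555925) * p2 + x * (k 173751408 * p1 + x * (k (-24535427))))))))

/-- One coordinate of `6400` times the multiplier `ζ`. -/
def zet (U V m m' W dd ee : R) : R :=
  k 1600 * (U * U * (V * V)) + (k 1176 * (V * V) + k (-61) * m') * dd * U
    + (k 1176 * (U * U) + k (-61) * m) * ee * V + k 352 * ((dd * ee - (W - U * V)) * (U * V))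

/-- The contribution of one pairing to the tangent bound. -/
def accW (X W N A B : R) : R :=
  let X2 := X * X
  (X - W) * (X - W) * ((k 15 * X - k 11 * W) * (k 15 * X - k 11 * W))
      * (k 12800 * (X2 * A) - W * B)
    + k 40960000 * (X2 * X2 * N
      * (k 780 * (X2 * X) + W * (k (-1006) * X2 + W * (k 572 * X + k (-121) * W))))

/-- The contribution of one pairing. -/
def pPair (U V m m' a b c d a' b' c' d' : R) : R :=
  let z0 := k 4 * (a * a')
  let z1 := k 4 * (b * b')
  let z2 := k 4 * (c * c')
  let z3 := k 4 * (d * d')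
  let W := z0 + z1 + z2 + z3
  let e0 := zet k U V m m' W (k 4 * a - U) (k 4 * a' - V)
  let e1 := zet k U V m m' W (k 4 * b - U) (k 4 * b' - V)
  let e2 := zet k U V m m' W (k 4 * c - U) (k 4 * c' - V)
  let e3 := zet k U V m m' W (k 4 * d - U) (k 4 * d' - V)
  let X := U * V
  let X2 := X * X
  k 274877906944 * (accW k X W (z0 * z0 + z1 * z1 + z2 * z2 + z3 * z3)
      (e0 * z0 + e1 * z1 + e2 * z2 + e3 * z3) (e0 * e0 + e1 * e1 + e2 * e2 + e3 * e3) * (X2 * X2))
    + k 294912000000 * (wLog k X (W - X) * (X2 * X2 * X2))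

/-- The potential polynomial. -/
def pH (a b c d a' b' c' d' : R) : R :=
  let U := totT a b c d
  let V := totT a' b' c' d'
  let U3 := U * (U * U)
  let V3 := V * (V * V)
  let U11 := U3 * U3 * (U3 * (U * U))
  let V11 := V3 * V3 * (V3 * (V * V))
  let m := m2T k a b c d
  let m' := m2T k a' b' c' d'
  sum4 (pPair k U V m m' a b c d) a' b' c' d'
    + k 5625 * (dT k a b c d * oT k a' b' c' d' * (V3 * V3 * V) + dT k a' b' c' d' * oT k a b c d * (U3 * U3 * U))
    + k (-3799912185593856000000) * (m * U11 * (V11 * (V * V)) + m' * V11 * (U11 * (U * U)))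
    + k (-15199648742375424000000) * (U11 * (U * U) * (V11 * (V * V)))

end Hom

end Vale.Agent.P154.Q4
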