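import Vale.Agent.P154.Q4.PExprs

/-!
# The potential polynomial on a pair of triangles with integer corners
-/

namespace Vale.Agent.P154.Q4

/-- A triangle given by three integer corners. -/
abbrev Tri : Type := Fin 3 → Fin 4 → ℕ

open Q3 in
/-- A coordinate of the point of `A` with the three given weights. -/
def triEx (A : Tri) (x y z : Ex) (r : Fin 4) : Ex :=
  Ex.num (A 0 r : ℤ) * x + Ex.num (A 1 r : ℤ) * y + Ex.num (A 2 r : ℤ) * z

open Q3 in
/-- `pH` on a pair of triangles. -/
def pEx (A B : Tri) : Ex :=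
  let u := triEx A (Ex.var 0) (Ex.var 1) (Ex.var 2)
  let v := triEx B (Ex.var 3) (Ex.var 4) (Ex.var 5)
  pH Ex.num (u 0) (u 1) (u 2) (u 3) (v 0) (v 1) (v 2) (v 3)

end Vale.Agent.P154.Q4
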