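import Vale.Agent.P154.Q4.LogCheck

/-!
# The two polynomial minorants of `(1 + t) log (1 + t)` on `[-1, 3]`
-/

namespace Vale.Agent.P154.Q4

/-- The lower bound; it agrees to first order at `0`. -/
noncomputable def qA (t : ℝ) : ℝ :=
  t + 12397 / 25000 * t ^ 2 - 7821 / 50000 * t ^ 3 + 291 / 3125 * t ^ 4 - 4239 / 50000 * t ^ 5 + 843 / 20000 * t ^ 6 - 363 / 50000 * t ^ 7

theorem qA_le {t : ℝ} (h0 : -1 ≤ t) (h3 : t ≤ 3) : qA t ≤ (1 + t) * Real.log (1 + t) := by
  have := LoPiece.minorant (q := [0, 1, (12397 / 25000), (-7821 / 50000), (291 / 3125), (-4239 / 50000), (843 / 20000), (-363 / 50000)])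
    (l := [.tangent 4 (1 / 16) 0 (1 / 16),
      .left 4 3 (1 / 16) (11 / 64),
      .left 3 3 (11 / 64) (65 / 256),
      .left 2 3 (65 / 256) (323 / 1024),
      .left 2 3 (323 / 1024) (1 / 2),
      .right 0 3 1 (1 / 2),
      .left 0 3 1 (11 / 8),
      .left 0 3 (11 / 8) (197 / 128),
      .left 0 3 (197 / 128) (709 / 256),
      .left 0 3 (709 / 256) (1733 / 512),
      .left 0 3 (1733 / 512) 4]) (by decide +kernel) h0 h3
  refine le_trans (le_of_eq ?_) this
  simp [qA, lev]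
  ring

/-- The lower bound; it is used for large pairs. -/
noncomputable def qB (t : ℝ) : ℝ :=
  -(79 / 100000) + 20201 / 20000 * t + 292 / 625 * t ^ 2 - 8791 / 50000 * t ^ 3 + 14757 / 100000 * t ^ 4 - 9033 / 100000 * t ^ 5 + 2719 / 100000 * t ^ 6 - 311 / 100000 * t ^ 7

theorem qB_le {t : ℝ} (h0 : -1 ≤ t) (h3 : t ≤ 3) : qB t ≤ (1 + t) * Real.log (1 + t) := by
  have := LoPiece.minorant (q := [(-79 / 100000), (20201 / 20000), (292 / 625), (-8791 / 50000), (14757 / 100000), (-9033 / 100000), (2719 / 100000), (-311 / 100000)])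
    (l := [.tangent 4 (1 / 16) 0 (1 / 16),
      .left 4 3 (1 / 16) (9 / 64),
      .left 3 3 (9 / 64) (87 / 512),
      .left 3 3 (87 / 512) (25 / 128),
      .left 3 3 (25 / 128) (3 / 8),
      .right 0 3 1 (3 / 8),
      .left 0 3 1 (19 / 16),
      .left 0 3 (19 / 16) (121 / 64),
      .left 0 3 (121 / 64) (377 / 128),
      .left 0 3 (377 / 128) 4]) (by decide +kernel) h0 h3
  refine le_trans (le_of_eq ?_) this
  simp [qB, lev]
  ring

/-- The mixture of the two bounds, in the variable `W = 1 + t`. -/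
theorem qMix_le {W w : ℝ} (h0 : 0 ≤ W) (h4 : W ≤ 4) (w0 : 0 ≤ w) (w1 : w ≤ 1) :
    (1 - w) * qA (W - 1) + w * qB (W - 1) ≤ W * Real.log W := by
  have a := qA_le (t := W - 1) (by linarith) (by linarith)
  have b := qB_le (t := W - 1) (by linarith) (by linarith)
  rw [add_sub_cancel] at a b
  nlinarith [mul_le_mul_of_nonneg_left a (sub_nonneg.2 w1), mul_le_mul_of_nonneg_left b w0]

end Vale.Agent.P154.Q4
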